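import Vale.Agent.P269.Hdg.Near

/-!
# Holomorphic slices of the cone
-/

namespace Vale.Agent.P269.Hdg.Ex

open MvPolynomial Topology Filter

variable {N : ℕ} {ι : Type} [Fintype ι] [DecidableEq ι]
  {F : ι → MvPolynomial (Fin (N + 1)) ℂ} {d : ι → ℕ} {n : ℕ}

/-- Linear coordinates completing the differentials of the equations and `lf x`. -/
theorem exists_lin (h : IsCI F d) (hn : n + Fintype.card ι = N) {x : E N} (hx : x ∈ cone F) :
    ∃ (a : E N →L[ℂ] (Fin n → ℂ)) (e : E N ≃L[ℂ] ((ι → ℂ) × ℂ) × (Fin n → ℂ)),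
      (e : E N →L[ℂ] _) = ((ContinuousLinearMap.pi fun j => dEval (F j) x).prod (lf x)).prod a := by
  obtain ⟨V, hV⟩ := exists_dual_at h hx
  set L : E N →L[ℂ] (ι → ℂ) × ℂ := (ContinuousLinearMap.pi fun j => dEval (F j) x).prod (lf x)
    with hL
  have s : LinearMap.range (L : E N →ₗ[ℂ] (ι → ℂ) × ℂ) = ⊤ := LinearMap.range_eq_top.2 fun w =>
    ⟨∑ j, w.1 j • V j + (w.2 - lf x (∑ j, w.1 j • V j)) • x, Prod.ext (funext fun i => by
      simp [hL, hV, dEval_self (h.hom i), hx.2 i]) (by simp [hL, lf_self hx.1])⟩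
  have k := (L : E N →ₗ[ℂ] (ι → ℂ) × ℂ).finrank_range_add_finrank_ker
  rw [s, finrank_top] at k
  simp only [Module.finrank_prod, Module.finrank_fintype_fun_eq_card, Fintype.card_fin,
    Module.finrank_self] at k
  let b : LinearMap.ker (L : E N →ₗ[ℂ] (ι → ℂ) × ℂ) ≃ₗ[ℂ] (Fin n → ℂ) :=
    .ofFinrankEq _ _ (by rw [Module.finrank_fin_fun]; omega)
  obtain ⟨a, ha⟩ := b.toLinearMap.exists_extend
  have i : Function.Injective ((L : E N →ₗ[ℂ] (ι → ℂ) × ℂ).prod a) :=
    (injective_iff_map_eq_zero _).2 fun v hv => congrArg Subtype.val (b.map_eq_zero_iff.1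
      ((LinearMap.congr_fun ha ⟨v, congrArg Prod.fst hv⟩).symm.trans (congrArg Prod.snd hv)))
  refine ⟨a.toContinuousLinearMap, (LinearMap.linearEquivOfInjective _ i ?_).toContinuousLinearEquiv,
    ContinuousLinearMap.ext fun _ => rfl⟩
  simp only [Module.finrank_prod, Module.finrank_fintype_fun_eq_card, Fintype.card_fin,
    Module.finrank_self]
  omega

/-- The affine slice `lf x = 1` of the cone is parametrised near `x` by a linear projection. -/
theorem exists_slice (h : IsCI F d) (hn : n + Fintype.card ι = N) {x : E N} (hx : x ∈ cone F) :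
    ∃ (a : E N →L[ℂ] (Fin n → ℂ)) (σ : (Fin n → ℂ) → E N) (U : Set (E N)) (V : Set (Fin n → ℂ)),
      IsOpen U ∧ IsOpen V ∧ x ∈ U ∧
      (∀ z ∈ V, AnalyticAt ℂ σ z ∧ σ z ∈ U ∧ σ z ∈ cone F ∧ lf x (σ z) = 1 ∧ a (σ z) = z) ∧
      ∀ y ∈ U, y ∈ cone F → lf x y = 1 → a y ∈ V ∧ σ (a y) = y := by
  obtain ⟨a, e, he⟩ := exists_lin h hn hx
  let G : E N → ((ι → ℂ) × ℂ) × (Fin n → ℂ) := fun y => ((fun j => eval y (F j), lf x y), a y)
  have an : AnalyticAt ℂ G x :=
    ((analyticAt_pi_iff.2 fun j => analyticAt_eval (F j) x).prod ((lf x).analyticAt x)).prod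
      (a.analyticAt x)
  have de : HasFDerivAt G (e : E N →L[ℂ] _) x := he ▸
    ((hasFDerivAt_pi.2 fun j => hasFDerivAt_eval (F j) x).prodMk (lf x).hasFDerivAt).prodMk
      a.hasFDerivAt
  have hs : HasStrictFDerivAt G (e : E N →L[ℂ] _) x := de.fderiv ▸ an.hasStrictFDerivAt
  let φ := hs.toOpenPartialHomeomorph G
  have m : x ∈ φ.source := hs.mem_toOpenPartialHomeomorph_source
  let W := φ.target ∩ {w | AnalyticAt ℂ φ.symm w}
  have oW : IsOpen W := φ.open_target.inter (isOpen_analyticAt ℂ _)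
  have r : ∀ w ∈ W, G (φ.symm w) = w := fun w hw => φ.right_inv hw.1
  refine ⟨a, fun z => φ.symm ((0, 1), z), φ.source ∩ φ ⁻¹' W, (fun z => ((0, 1), z)) ⁻¹' W,
    φ.isOpen_inter_preimage oW, oW.preimage (by fun_prop),
    ⟨m, φ.map_source m, φ.analyticAt_symm' m an de.fderiv⟩, fun z hz => ?_, fun y hy c l => ?_⟩
  · have k := r _ hz
    have l : lf x (φ.symm ((0, 1), z)) = 1 := congrArg (·.1.2) k
    exact ⟨hz.2.comp (analyticAt_const.prod analyticAt_id),
      ⟨φ.map_target hz.1, Set.mem_of_eq_of_mem (s := W) k hz⟩,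
      ⟨fun b => zero_ne_one ((map_zero _).symm.trans ((congrArg (lf x) b).symm.trans l)),
        congrFun (congrArg (·.1.1) k)⟩, l, congrArg (·.2) k⟩
  · have k : ((0, 1), a y) = φ y := Prod.ext (Prod.ext (funext fun j => (c.2 j).symm) l.symm) rfl
    exact ⟨Set.mem_of_eq_of_mem (s := W) k hy.2, (congrArg φ.symm k).trans (φ.left_inv hy.1)⟩

end Vale.Agent.P269.Hdg.Ex
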