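import Vale.Agent.P269.Hdg.ExD
import Vale.Agent.P269.Hdg.ExM1

/-!
# A complete intersection is a compact complex manifold
-/

namespace Vale.Agent.P269.Hdg.Ex

open scoped Manifold ContDiff ComplexConjugate
open MvPolynomial Topology Filter
open Vale.Agent.P272.K (Cm Chart At)

variable {N : ℕ} {ι : Type} [Fintype ι] [DecidableEq ι]
  {F : ι → MvPolynomial (Fin (N + 1)) ℂ} {d : ι → ℕ} {n : ℕ}

namespace M2

omit [Fintype ι] [DecidableEq ι] in
theorem smul_mem (h : IsCI F d) {t : ℂ} (ht : t ≠ 0) {y : E N} (hy : y ∈ cone F) :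
    t • y ∈ cone F :=
  ⟨smul_ne_zero ht hy.1, fun j => by rw [eval_smul_of_hom (h.hom j), hy.2 j, mul_zero]⟩

theorem app_of_ne {x y : E N} (h : lf x (app (prP y) x) ≠ 0) :
    lf x y ≠ 0 ∧ cpr x (app (prP y) x) = cpr x y := by
  rw [app_prP, map_smul, smul_eq_mul, mul_ne_zero_iff] at h
  exact ⟨h.2, by rw [app_prP, cpr_smul h.1]⟩

theorem app_ne {x y : E N} (h : lf x y ≠ 0) : lf x (app (prP y) x) ≠ 0 := by
  have hy : y ≠ 0 := fun e => h (by rw [e, map_zero])
  rw [app_prP, map_smul, smul_eq_mul]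
  refine mul_ne_zero (mul_ne_zero (fun e => h ?_) (inv_ne_zero (nu_ne hy))) h
  have e' := congrArg conj e
  simp only [map_sum, map_mul, Complex.conj_conj, map_zero] at e'
  have : lf x y = (∑ j, y j * conj (x j)) * (nu x)⁻¹ := by
    simp only [lf, _root_.sum_apply, _root_.smul_apply, ContinuousLinearMap.proj_apply,
      smul_eq_mul, Finset.sum_mul]
    exact Finset.sum_congr rfl fun j _ => by ring
  rw [this, e', zero_mul]

theorem lf_cpr {x y : E N} (h : lf x y ≠ 0) : lf x (cpr x y) = 1 := by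
  rw [cpr, map_smul, smul_eq_mul, inv_mul_cancel₀ h]

variable (F) in
/-- The projectivisation of the cone. -/
abbrev PC : Type := {t : TT N // ∃ y ∈ cone F, prP y = t}

/-- The chart `e` is induced by `p`, and `σ` is a section over it. -/
def Gd (e : Chart n (PC F)) (x : E N) (σ : Cm n → E N) (p : E N → Cm n) : Prop :=
  ∀ m ∈ e.source, AnalyticAt ℂ σ (e m) ∧ σ (e m) ∈ cone F ∧ prP (σ (e m)) = m.1 ∧
    lf x (σ (e m)) = 1 ∧ ∀ y ∈ cone F, prP y = m.1 → AnalyticAt ℂ p y ∧ p y = e m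

theorem exists_chart (h : IsCI F d) (hn : n + Fintype.card ι = N) (m₀ : PC F) :
    ∃ e : Chart n (PC F), (∃ x σ p, Gd e x σ p) ∧ m₀ ∈ e.source := by
  classical
  obtain ⟨_, x, hx, rfl⟩ := m₀
  obtain ⟨a, σ, U, V, hU, hV, hxU, h1, h2⟩ := exists_slice h hn hx
  have cg : Continuous fun m : PC F => app m.1 x :=
    (show Continuous fun b : TT N => app b x by unfold app; fun_prop).comp continuous_subtype_val
  have cc : ContinuousOn (fun m : PC F => cpr x (app m.1 x)) {m | lf x (app m.1 x) ≠ 0} :=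
    fun m hm => ((an_cpr hm).continuousAt.comp (f := fun m : PC F => app m.1 x)
      cg.continuousAt).continuousWithinAt
  have k1 : ∀ m : PC F, lf x (app m.1 x) ≠ 0 → cpr x (app m.1 x) ∈ cone F ∧
      prP (cpr x (app m.1 x)) = m.1 := by
    rintro ⟨_, y, hy, rfl⟩ hm
    obtain ⟨e1, e2⟩ := app_of_ne hm
    rw [e2]
    exact ⟨smul_mem h (inv_ne_zero e1) hy, prP_smul (inv_ne_zero e1) y⟩
  have k2 : ∀ m : PC F, lf x (app m.1 x) ≠ 0 ∧ cpr x (app m.1 x) ∈ U →
      a (cpr x (app m.1 x)) ∈ V ∧ σ (a (cpr x (app m.1 x))) = cpr x (app m.1 x) :=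
    fun m hm => h2 _ hm.2 (k1 m hm.1).1 (lf_cpr hm.1)
  have k3 : ∀ y, lf x y = 1 → lf x (app (prP y) x) ≠ 0 ∧ cpr x (app (prP y) x) = y := fun y hy => by
    have := app_ne (x := x) (y := y) (by rw [hy]; exact one_ne_zero)
    exact ⟨this, by rw [(app_of_ne this).2, cpr, hy, inv_one, one_smul]⟩
  let ψ : Cm n → PC F := fun z =>
    if hz : z ∈ V then ⟨prP (σ z), σ z, (h1 z hz).2.2.1, rfl⟩ else ⟨prP x, x, hx, rfl⟩
  have hψ : ∀ z ∈ V, (ψ z).1 = prP (σ z) := fun z hz => congrArg Subtype.val (dif_pos hz)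
  let e : Chart n (PC F) :=
    { toFun := fun m => a (cpr x (app m.1 x))
      invFun := ψ
      source := {m | lf x (app m.1 x) ≠ 0 ∧ cpr x (app m.1 x) ∈ U}
      target := V
      map_source' := fun m hm => (k2 m hm).1
      map_target' := fun z hz => by
        have := k3 _ (h1 z hz).2.2.2.1
        rw [← hψ z hz] at this
        exact ⟨this.1, this.2.symm ▸ (h1 z hz).2.1⟩
      left_inv' := fun m hm => Subtype.ext (by rw [hψ _ (k2 m hm).1, (k2 m hm).2, (k1 m hm.1).2])
      right_inv' := fun z hz => by rw [hψ z hz, (k3 _ (h1 z hz).2.2.2.1).2, (h1 z hz).2.2.2.2]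
      open_source := cc.isOpen_inter_preimage
        (isOpen_ne_fun ((lf x).continuous.comp cg) continuous_const) hU
      open_target := hV
      continuousOn_toFun := a.continuous.comp_continuousOn (cc.mono fun _ hm => hm.1)
      continuousOn_invFun := IsInducing.subtypeVal.continuousOn_iff.2 (ContinuousOn.congr
        (f := fun z => prP (σ z)) (fun z hz => ((sm_prP (h1 z hz).2.2.1.1).continuousAt.comp
          (h1 z hz).1.continuousAt).continuousWithinAt) hψ) }
  refine ⟨e, ⟨x, σ, fun y => a (cpr x y), fun m hm => ?_⟩, ?_⟩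
  · have hz := h1 _ (k2 m hm).1
    refine ⟨hz.1, hz.2.2.1, (congrArg prP (k2 m hm).2).trans (k1 m hm.1).2, hz.2.2.2.1,
      fun y _ hy => ?_⟩
    have := app_of_ne (x := x) (y := y) (hy.symm ▸ hm.1)
    exact ⟨(a.analyticAt _).comp (an_cpr this.1), congrArg a (by rw [← this.2, hy])⟩
  · have := k3 x (lf_self hx.1)
    exact ⟨this.1, this.2.symm ▸ hxU⟩

omit [Fintype ι] [DecidableEq ι] in
theorem compact (h : IsCI F d) : CompactSpace (PC F) := by
  have hc : IsClosed {y : E N | ∀ j, eval y (F j) = 0} := by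
    rw [Set.ofPred_forall]
    exact isClosed_iInter fun j => isClosed_eq (continuous_eval _) continuous_const
  have e : {t | ∃ y ∈ cone F, prP y = t} =
      prP '' (Metric.sphere 0 1 ∩ {y : E N | ∀ j, eval y (F j) = 0}) := by
    refine Set.Subset.antisymm ?_ ?_
    · rintro _ ⟨y, hy, rfl⟩
      exact ⟨_, ⟨normalize_mem hy.1, (smul_mem h (normalize_ne hy.1) hy).2⟩,
        prP_smul (normalize_ne hy.1) y⟩
    · rintro _ ⟨y, hy, rfl⟩
      exact ⟨y, ⟨ne_zero_of_sphere hy.1, hy.2⟩, rfl⟩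
  have := isCompact_image_prP hc
  rw [← e] at this
  exact isCompact_iff_compactSpace.1 this

end M2

theorem exists_mdl (h : IsCI F d) (hn : n + Fintype.card ι = N) :
    ∃ (M : Type) (_ : MetricSpace M) (_ : CompactSpace M) (_ : ChartedSpace (Cm n) M)
      (_ : IsManifold 𝓘(ℂ, Cm n) ω M) (ε : M → TT N) (b : Chart n M → E N)
      (σ : Chart n M → Cm n → E N) (p : Chart n M → E N → Cm n), Mdl F ε b σ p := by
  choose c hc hc' using M2.exists_chart h hn
  let _ : ChartedSpace (Cm n) (M2.PC F) := ⟨{e | ∃ x σ p, M2.Gd e x σ p}, c, hc', hc⟩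
  have k : ∀ e ∈ atlas (Cm n) (M2.PC F), ∃ x σ p, M2.Gd e x σ p := fun _ he => he
  choose! b σ p k using k
  have hM : IsManifold 𝓘(ℂ, Cm n) ω (M2.PC F) := by
    refine isManifold_of_contDiffOn _ _ _ fun e e' he he' => ?_
    have k' : ∀ z ∈ (e.symm ≫ₕ e').source, AnalyticAt ℂ (fun z => p e' (σ e z)) z ∧
        p e' (σ e z) = e' (e.symm z) := fun z hz => by
      have h1 := k e he _ (e.map_target hz.1)
      rw [e.right_inv hz.1] at h1
      have h2 := (k e' he' _ hz.2).2.2.2.2 _ h1.2.1 h1.2.2.1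
      exact ⟨h2.1.comp h1.1, h2.2⟩
    exact ContDiffOn.congr (f := fun z => p e' (σ e z))
      (fun z hz => (k' z hz.1).1.contDiffAt.contDiffWithinAt) fun z hz => (k' z hz.1).2.symm
  exact ⟨M2.PC F, inferInstance, M2.compact h, inferInstance, hM, Subtype.val, b, σ, p,
    IsEmbedding.subtypeVal, fun y hy => ⟨⟨_, y, hy, rfl⟩, rfl⟩, fun e m a => (k e a.1 m a.2).1,
    fun e m a => (k e a.1 m a.2).2.1, fun e m a => (k e a.1 m a.2).2.2.1,
    fun e m a => (k e a.1 m a.2).2.2.2.1, fun e m a y hy q => ((k e a.1 m a.2).2.2.2.2 y hy q).1,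
    fun e m a y hy q => ((k e a.1 m a.2).2.2.2.2 y hy q).2⟩

end Vale.Agent.P269.Hdg.Ex
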