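import Vale.Agent.P269.Hdg.Near

/-!
# Forms modulo the differentials of the equations
-/

namespace Vale.Agent.P269.Hdg

open scoped ComplexConjugate ContDiff
open Complex (I)
open Topology Filter MvPolynomial

variable {N : ℕ}

/-- Polynomials. -/
abbrev MP (N : ℕ) : Type := MvPolynomial (Fin (N + 1)) ℂ

/-- The list of differentials. -/
noncomputable def pl (L : List (Bool × MP N)) (y : E N) : List (W N) :=
  L.map fun a => df a.1 a.2 y

theorem pl_cons (a : Bool × MP N) (L : List (Bool × MP N)) (y : E N) :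
    pl (a :: L) y = df a.1 a.2 y :: pl L y := rfl

theorem mem_pl {a : Bool × MP N} {L : List (Bool × MP N)} (h : a ∈ L) (y : E N) :
    df a.1 a.2 y ∈ pl L y := List.mem_map_of_mem h

theorem forall_pl {L : List (Bool × MP N)} {y : E N} {P : W N → Prop} :
    (∀ w ∈ pl L y, P w) ↔ ∀ a ∈ L, P (df a.1 a.2 y) := List.forall_mem_map

/-- The differentials are independent along `C`, with smooth dual vector fields. -/
def DualL (C : Set (E N)) : List (Bool × MP N) → Prop
  | [] => True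
  | a :: L => (∃ e : ℕ, a.2.IsHomogeneous e) ∧
      (∃ ξ : E N → E N, (∀ x ≠ 0, ContDiffAt ℝ ∞ ξ x) ∧ ∀ y ∈ C,
        vec a.1 (ξ y) (df a.1 a.2 y) = 1 ∧ ∀ a' ∈ L, vec a.1 (ξ y) (df a'.1 a'.2 y) = 0) ∧ DualL C L

theorem DualL.hasDual {C : Set (E N)} {L : List (Bool × MP N)} (h : DualL C L) {y : E N}
    (hy : y ∈ C) : HasDual (pl L y) := by
  induction L with
  | nil => trivial
  | cons a L ih =>
    obtain ⟨-, ⟨ξ, -, h1⟩, h2⟩ := h
    exact ⟨⟨_, (h1 y hy).1, forall_pl.2 (h1 y hy).2⟩, ih h2⟩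

theorem ann_of_wl {L L' : List (W N)} {c : ℂ} (hc : c ≠ 0) (h : wl L = c • wl L') :
    ann L = ann L' := by
  ext a; rw [mem_ann, mem_ann, h, smul_mul_assoc, smul_eq_zero]; simp [hc]

theorem DualL.ann_smul {C : Set (E N)} {L : List (Bool × MP N)} (h : DualL C L) {t : ℂ}
    (ht : t ≠ 0) (y : E N) : ann (pl L (t • y)) = ann (pl L y) := by
  have : ∃ c : ℂ, c ≠ 0 ∧ wl (pl L (t • y)) = c • wl (pl L y) := by
    induction L with
    | nil => exact ⟨1, one_ne_zero, by simp [pl]⟩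
    | cons a L ih =>
      obtain ⟨⟨e, he⟩, -, h2⟩ := h
      obtain ⟨c, hc, h3⟩ := ih h2
      refine ⟨_, mul_ne_zero (sg_ne_zero a.1 (zpow_ne_zero ((e : ℤ) - 1) ht)) hc, ?_⟩
      rw [pl_cons, pl_cons, wl_cons, wl_cons, h3, df_smul _ he ht, map_smul, smul_mul_smul_comm]
  obtain ⟨c, hc, h1⟩ := this
  exact ann_of_wl hc h1

theorem wl_pl_mem (L : List (Bool × MP N)) (y : E N) :
    wl (pl L y) ∈ Ty (L.countP fun a => a.1) (L.countP fun a => !a.1) := by
  induction L with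
  | nil => exact one_mem_Ty
  | cons a L ih =>
    have := Ty_mul (io_cv_mem_Ty a.1 (dEval a.2 y)) ih
    rw [pl_cons, wl_cons, List.countP_cons, List.countP_cons]
    obtain ⟨s, f⟩ := a
    cases s <;> simpa [add_comm, df] using this

theorem ann_pl_pt (L : List (Bool × MP N)) (y : E N) {a : Λ N} (ha : a ∈ ann (pl L y)) (p q : ℤ) :
    pt p q a ∈ ann (pl L y) := ann_pt (wl_pl_mem L y) ha p q

theorem mp_sub_mp {L : List (W N)} {A B : W N →ₗ[ℂ] W N} (h : ∀ w, io (A w - B w) ∈ ann L)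
    (a : Λ N) : mp A a - mp B a ∈ ann L := by
  induction a using ind with
  | one => simp
  | smul c b h => rw [map_smul, map_smul, ← smul_sub]; exact Submodule.smul_mem _ _ h
  | add b b' h h' => rw [map_add, map_add, add_sub_add_comm]; exact Submodule.add_mem _ h h'
  | mul w b ih =>
    have : mp A (io w * b) - mp B (io w * b) =
        io (A w - B w) * mp A b + io (B w) * (mp A b - mp B b) := by
      rw [map_mul, map_mul, mp_io, mp_io, map_sub]; noncomm_ring
    rw [this]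
    exact Submodule.add_mem _ (ann_mul_right (h w) _) (ann_mul_left ih _)

theorem mp_ann {L : List (W N)} {A : W N →ₗ[ℂ] W N} (h : ∀ w ∈ L, ∃ c : ℂ, c ≠ 0 ∧ A w = c • w)
    {a : Λ N} (ha : a ∈ ann L) : mp A a ∈ ann L := by
  have : ∃ c : ℂ, c ≠ 0 ∧ mp A (wl L) = c • wl L := by
    clear ha
    induction L with
    | nil => exact ⟨1, one_ne_zero, by simp⟩
    | cons w L ih =>
      obtain ⟨c, hc, h1⟩ := ih fun v hv => h v (by simp [hv])
      obtain ⟨c', hc', h2⟩ := h w (by simp)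
      exact ⟨_, mul_ne_zero hc' hc, by
        rw [wl_cons, map_mul, mp_io, h1, h2, map_smul, smul_mul_smul_comm]⟩
  obtain ⟨c, hc, h1⟩ := this
  have h2 := congrArg (mp A) (mem_ann.1 ha)
  rw [map_mul, h1, map_zero, smul_mul_assoc] at h2
  exact (smul_eq_zero.1 h2).resolve_left hc

/-- A family of homogeneous polynomials with dual vector fields along `C`. -/
structure DualFam (C : Set (E N)) {κ : Type} [DecidableEq κ] (Q : κ → MP N) (e : κ → ℕ)
    (ξ : κ → E N → E N) : Prop where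
  hom : ∀ j, (Q j).IsHomogeneous (e j)
  sm : ∀ j, ∀ x ≠ 0, ContDiffAt ℝ ∞ (ξ j) x
  hm : ∀ j, Hm (1 - (e j : ℤ)) 0 (ξ j)
  dual : ∀ y ∈ C, ∀ i j, dEval (Q i) y (ξ j y) = if i = j then 1 else 0

theorem dualFam_X (C : Set (E N)) :
    DualFam C (fun j : Fin (N + 1) => (X j : MP N)) (fun _ => 1) (fun j _ => ee j) where
  hom j := isHomogeneous_X ℂ j
  sm _ _ _ := contDiffAt_const
  hm j := by simpa using Hm.const (N := N) (ee j)
  dual y _ i j := by
    simp [dEval_apply, pderiv_X, Pi.single_apply, ee]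

theorem DualFam.dualL {C : Set (E N)} {κ : Type} [DecidableEq κ] {Q : κ → MP N} {e : κ → ℕ}
    {ξ : κ → E N → E N} (h : DualFam C Q e ξ) (s : Bool) {M : List (Bool × MP N)} (hM : DualL C M)
    (hs : ∀ a ∈ M, a.1 ≠ s) {l : List κ} (hl : l.Nodup) :
    DualL C (l.map (fun i => (s, Q i)) ++ M) := by
  induction l with
  | nil => exact hM
  | cons j l ih =>
    rw [List.nodup_cons] at hl
    refine ⟨⟨_, h.hom j⟩, ⟨ξ j, h.sm j, fun y hy => ⟨by simp [vec_df, h.dual y hy], ?_⟩⟩, ih hl.2⟩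
    intro a ha
    rcases List.mem_append.1 ha with ha | ha
    · obtain ⟨i, hi, rfl⟩ := List.mem_map.1 ha
      have : i ≠ j := by rintro rfl; exact hl.1 hi
      simp [vec_df, h.dual y hy, this]
    · simp [vec_df, (hs a ha).symm]

variable {ι : Type} [Fintype ι] [DecidableEq ι] {F : ι → MP N} {d : ι → ℕ}

theorem IsCI.dualFam (h : IsCI F d) : ∃ ξ, DualFam (cone F) F d ξ := by
  obtain ⟨v, h1, h2, h3⟩ := exists_dual h
  exact ⟨v, h.hom, fun j x hx => (h1 j).contDiffAt (isOpen_compl_singleton.mem_nhds hx),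
    fun j t y ht hy => by simpa using h2 j t y ht hy,
    fun y hy i j => by rw [dEval_apply]; exact h3 y hy i j⟩

omit [Fintype ι] [DecidableEq ι] in
theorem mem_tang {x v : E N} : v ∈ tang F x ↔ ∀ j, dEval (F j) x v = 0 := by
  simp [tang, dEval_apply]

theorem K_of_tang {B : Type} [NormedAddCommGroup B] [NormedSpace ℂ B] {x : E N} {V : ι → E N}
    (hV : ∀ i j, dEval (F i) x (V j) = if i = j then 1 else 0) {K : E N →L[ℝ] B}
    (hK : ∀ v ∈ tang F x, K v = 0) (s : Bool) (v : E N) :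
    vv s v K = ∑ j, df s (F j) x v • vv s (V j) K := by
  have h1 : ∀ v ∈ tang F x, vv s v K = 0 := fun v hv => by
    rw [vv, hK v hv, hK (I • v) (mem_tang.2 fun j => by simp [mem_tang.1 hv j])]; simp
  have h2 : v - ∑ j, dEval (F j) x v • V j ∈ tang F x := mem_tang.2 fun i => by simp [hV]
  have h3 : ∀ t : Finset ι, vv s (∑ j ∈ t, dEval (F j) x v • V j) K =
      ∑ j ∈ t, df s (F j) x v • vv s (V j) K := by
    intro t
    induction t using Finset.induction_on with
    | empty => simp [vv]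
    | insert a t ha ih =>
      rw [Finset.sum_insert ha, Finset.sum_insert ha, vv_add_left, ih, vv_smul_left]; simp [df]
  rw [← h3, ← sub_add_cancel v (∑ j, dEval (F j) x v • V j), vv_add_left, h1 _ h2]; simp

theorem al_of_tang {x : E N} {V : ι → E N}
    (hV : ∀ i j, dEval (F i) x (V j) = if i = j then 1 else 0) {K : E N →L[ℝ] Λ N}
    (hK : ∀ v ∈ tang F x, K v = 0) (s : Bool) :
    al s K = ∑ j, io (df s (F j) x) * vv s (V j) K := by
  rw [al_apply]
  simp only [K_of_tang hV hK s (ee _), Finset.mul_sum]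
  rw [Finset.sum_comm]
  refine Finset.sum_congr rfl fun j _ => ?_
  conv_rhs => rw [df, cv_eq_sum]
  simp [Finset.sum_mul, df]

theorem pr_of_tang {x : E N} {V : ι → E N}
    (hV : ∀ i j, dEval (F i) x (V j) = if i = j then 1 else 0) {w : W N}
    (hw : ∀ v ∈ tang F x, w v = 0) (s : Bool) :
    pr s w = ∑ j, vec s (V j) w • df s (F j) x := by
  ext v
  rw [pr_apply, ← vv_W, K_of_tang hV hw]
  simp [vv_W, mul_comm]

theorem io_pr_mem_ann (h : IsCI F d) {x : E N} (hx : x ∈ cone F) {L : List (Bool × MP N)} {s : Bool}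
    (hL : ∀ j, (s, F j) ∈ L) {w : W N} (hw : ∀ v ∈ tang F x, w v = 0) :
    io (pr s w) ∈ ann (pl L x) := by
  obtain ⟨ξ, hξ⟩ := h.dualFam
  rw [pr_of_tang (hξ.dual x hx) hw, map_sum]
  exact Submodule.sum_mem _ fun j _ => by
    rw [map_smul]; exact Submodule.smul_mem _ _ (io_mem_ann (mem_pl (hL j) x))

theorem stab_aux (h : IsCI F d) {x : E N} (hx : x ∈ cone F) (s : Bool) {om : Λ N}
    (h0 : ∀ j, om * io (df s (F j) x) = 0) {L : List (Bool × MP N)} (hL : DualL (cone F) L)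
    (hom : ∀ a ∈ L, om * io (df a.1 a.2 x) = 0) {u : E N → Λ N} (hu : ContDiffAt ℝ ∞ u x)
    (hn : ∀ᶠ y in 𝓝 x, y ∈ cone F → u y ∈ ann (pl L y)) : om * db s idE u x = 0 := by
  induction L generalizing u with
  | nil =>
    obtain ⟨ξ, hξ⟩ := h.dualFam
    rw [db_id, al_of_tang (hξ.dual x hx) fun v hv => fderiv_tang h hx (sm_diff hu)
      (hn.mono fun y hy hc => ann_nil.1 (hy hc)) hv, Finset.mul_sum]
    exact Finset.sum_eq_zero fun j _ => by rw [← mul_assoc, h0, zero_mul]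
  | cons a L ih =>
    obtain ⟨-, ⟨ξ, h1, h2⟩, h3⟩ := hL
    have h4 := sm_ct a.1 (h1 x hx.1) hu
    have h5 := (sm_df a.1 a.2 x).mul h4
    have := ih h3 (fun a' ha' => hom a' (by simp [ha'])) (hu.sub h5)
      (hn.mono fun y hy hc => ann_sub (h2 y hc).1 (forall_pl.2 (h2 y hc).2) (hy hc))
    rw [db_sub (sm_diff hu) (sm_diff h5), db_df_mul _ _ _ (sm_diff h4), sub_neg_eq_add, mul_add,
      ← mul_assoc, hom a (by simp), zero_mul, add_zero] at this
    exact this

theorem stab (h : IsCI F d) {x : E N} (hx : x ∈ cone F) (s : Bool) {L : List (Bool × MP N)}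
    (hL : DualL (cone F) L) (hs : ∀ j, (s, F j) ∈ L) {u : E N → Λ N} (hu : ContDiffAt ℝ ∞ u x)
    (hn : ∀ᶠ y in 𝓝 x, y ∈ cone F → u y ∈ ann (pl L y)) : db s idE u x ∈ ann (pl L x) :=
  stab_aux h hx s (fun j => io_mem_ann (mem_pl (hs j) x)) hL
    (fun _ ha => io_mem_ann (mem_pl ha x)) hu hn

omit [Fintype ι] [DecidableEq ι] in
theorem cone_smul (h : IsCI F d) {t : ℂ} (ht : t ≠ 0) {y : E N} : t • y ∈ cone F ↔ y ∈ cone F := by
  simp [cone, eval_smul_of_hom (h.hom _), ht]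

omit [Fintype ι] [DecidableEq ι] in
theorem nearT_notMem (h : IsCI F d) {x : E N} (hx : x ≠ 0) (hc : x ∉ cone F) :
    NearT (prP x) fun y => y ∉ cone F := by
  refine NearT.of_ev hx (fun t y ht _ hy => by rwa [cone_smul h ht] at hy) ?_
  obtain ⟨j, hj⟩ : ∃ j, eval x (F j) ≠ 0 := by simpa [cone, hx] using hc
  exact ((sm_eval (F j) x).continuousAt.eventually_ne hj).mono fun y hy hc => hy (hc.2 j)

omit [Fintype ι] [DecidableEq ι] in
theorem X_cases (h : IsCI F d) (b : TT N) :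
    (NearT b fun y => y ∉ cone F) ∨ ∃ x ∈ cone F, b = prP x := by
  rcases TT_cases b with hb | ⟨x, hx, rfl⟩
  · exact Or.inl (NearT.of_notMem hb)
  · by_cases hc : x ∈ cone F
    · exact Or.inr ⟨x, hc, rfl⟩
    · exact Or.inl (nearT_notMem h hx hc)

omit [Fintype ι] [DecidableEq ι] in
theorem Vn_of_ev (h : IsCI F d) {L : List (Bool × MP N)} (hL : DualL (cone F) L) {x : E N}
    (hx : x ≠ 0) {u : SM N} {a b : ℤ} (hm : Hm a b u.1)
    (hu : ∀ᶠ y in 𝓝 x, y ∈ cone F → u.1 y ∈ ann (pl L y)) :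
    u ∈ Vn (cone F) (fun y => ann (pl L y)) (prP x) := by
  refine NearT.of_ev hx (fun t y ht hy h1 hc => ?_) hu
  have : u.1 (t • y) ∈ ann (pl L (t • y)) := h1 ((cone_smul h ht).2 hc)
  rwa [hL.ann_smul ht, hm t y ht hy, Submodule.smul_mem_iff _
    (mul_ne_zero (zpow_ne_zero _ ht) (zpow_ne_zero _ (by simpa)))] at this

theorem Vn_of_ev0 {x : E N} (hx : x ≠ 0) {u : SM N} {a b : ℤ} (hm : Hm a b u.1)
    (hu : ∀ᶠ y in 𝓝 x, u.1 y = 0) : u ∈ Vn Set.univ (fun _ => ⊥) (prP x) := by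
  refine NearT.of_ev hx (fun t y ht hy h1 hc => ?_) (hu.mono fun y hy _ => hy)
  have := h1 trivial
  rwa [hm t y ht hy, Submodule.smul_mem_iff _
    (mul_ne_zero (zpow_ne_zero _ ht) (zpow_ne_zero _ (by simpa)))] at this

theorem Vn0_le {C : Set (E N)} {P : E N → Submodule ℂ (Λ N)} {b : TT N} {u : SM N}
    (h : u ∈ Vn Set.univ (fun _ => ⊥) b) : u ∈ Vn C P b :=
  NearT.mono h fun y _ h _ => by rw [show u.1 y = 0 from h trivial]; exact zero_mem _

/-- The differentials of all equations, or their conjugates. -/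
noncomputable def allL (s : Bool) (F : ι → MP N) : List (Bool × MP N) :=
  (Finset.univ : Finset ι).toList.map fun j => (s, F j)

omit [DecidableEq ι] in
theorem mem_allL (s : Bool) (j : ι) : (s, F j) ∈ allL s F :=
  List.mem_map.2 ⟨j, by simp, rfl⟩

omit [DecidableEq ι] in
theorem of_mem_allL {s : Bool} {a : Bool × MP N} (h : a ∈ allL s F) : ∃ j, a = (s, F j) := by
  obtain ⟨j, -, rfl⟩ := List.mem_map.1 h; exact ⟨j, rfl⟩

theorem IsCI.dualL_bar (h : IsCI F d) : DualL (cone F) (allL false F) := by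
  obtain ⟨ξ, hξ⟩ := h.dualFam
  simpa [allL] using hξ.dualL false (M := []) trivial (by simp) (Finset.nodup_toList Finset.univ)

theorem IsCI.dualL_app (h : IsCI F d) {κ : Type} [DecidableEq κ] {Q : κ → MP N} {e : κ → ℕ}
    {ξ : κ → E N → E N} (hQ : DualFam (cone F) Q e ξ) {l : List κ} (hl : l.Nodup) :
    DualL (cone F) (l.map (fun i => (true, Q i)) ++ allL false F) :=
  hQ.dualL true h.dualL_bar (fun a ha => by obtain ⟨j, rfl⟩ := of_mem_allL ha; simp) hl

/-- All differentials. -/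
noncomputable def fullL (F : ι → MP N) : List (Bool × MP N) := allL true F ++ allL false F

theorem IsCI.dualL_full (h : IsCI F d) : DualL (cone F) (fullL F) := by
  obtain ⟨ξ, hξ⟩ := h.dualFam
  exact h.dualL_app hξ (Finset.nodup_toList _)

omit [DecidableEq ι] in
theorem mem_fullL (s : Bool) (j : ι) : (s, F j) ∈ fullL F := by
  cases s
  · exact List.mem_append_right _ (mem_allL _ j)
  · exact List.mem_append_left _ (mem_allL _ j)

omit [DecidableEq ι] in
theorem of_mem_fullL {a : Bool × MP N} (h : a ∈ fullL F) : ∃ j, a.2 = F j := by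
  rcases List.mem_append.1 h with h | h <;> obtain ⟨j, rfl⟩ := of_mem_allL h <;> exact ⟨j, rfl⟩

omit [Fintype ι] [DecidableEq ι] in
theorem vec_self_df (h : IsCI F d) {y : E N} (hy : y ∈ cone F) (s s' : Bool) (j : ι) :
    vec s y (df s' (F j) y) = 0 := by
  rw [vec_df, dEval_self (h.hom j), hy.2 j]; simp

omit [Fintype ι] [DecidableEq ι] in
theorem ext_ann (h : IsCI F d) {L : List (Bool × MP N)} (hL : DualL (cone F) L)
    (hF : ∀ a ∈ L, ∃ j, a.2 = F j) {x y : E N} (hy : y ∈ cone F) (hl : lf x y ≠ 0) (k : ℤ)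
    {v : E N → Λ N} (hv : v (cpr x y) ∈ ann (pl L (cpr x y))) : ext x k v y ∈ ann (pl L y) := by
  refine Submodule.smul_mem _ _ (mp_ann (forall_pl.2 fun a ha => ?_)
    (by rwa [cpr, hL.ann_smul (inv_ne_zero hl)] at hv))
  obtain ⟨j, hj⟩ := hF a ha
  refine ⟨_, sg_ne_zero a.1 (inv_ne_zero hl), ?_⟩
  ext w
  have := dEval_self (h.hom j) y
  rw [hy.2 j, mul_zero] at this
  simp [fderiv_cpr hl, df, hj, this]

theorem ext_sub (x : E N) (k : ℤ) (u v : E N → Λ N) (y : E N) :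
    ext x k (fun z => u z - v z) y = ext x k u y - ext x k v y := by
  simp [ext, pb, smul_sub]

theorem ext_congr {x : E N} (hx : x ≠ 0) (k : ℤ) {u v : E N → Λ N} (h : u =ᶠ[𝓝 x] v) :
    ext x k u =ᶠ[𝓝 x] ext x k v :=
  ((cpr_tendsto hx).eventually h).mono fun y hy => by simp only [ext, pb]; rw [hy]

/-- The properties of pull-back along a local retraction onto the cone. -/
theorem exists_retr' (h : IsCI F d) {x : E N} (hx : x ∈ cone F) :
    ∃ r : E N → E N, Tendsto r (𝓝 x) (𝓝 x) ∧ ∀ᶠ y in 𝓝 x, AnalyticAt ℂ r y ∧ r y ∈ cone F ∧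
      (∀ (L : List (Bool × MP N)) (u : E N → Λ N), DualL (cone F) L → (∀ a ∈ L, ∃ j, a.2 = F j) →
        u (r y) ∈ ann (pl L (r y)) → pb r u y = 0) ∧
      (y ∈ cone F → ∀ u : E N → Λ N, u y - pb r u y ∈ ann (pl (fullL F) y) ∧
        ∀ q, u y ∈ Ty 0 q → u y - pb r u y ∈ ann (pl (allL false F) y)) := by
  obtain ⟨r, hr, hrx, hev⟩ := exists_retr h hx
  refine ⟨r, by simpa [hrx] using hr.continuousAt.tendsto, ?_⟩
  filter_upwards [hev, hr.eventually_analyticAt] with y ⟨h1, h2, h3⟩ ha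
  refine ⟨ha, h1, fun L u hL hF hu => mp_of_ann (hL.hasDual h1) (forall_pl.2 fun a ha' => ?_) hu,
    fun hy u => ?_⟩
  · obtain ⟨j, hj⟩ := hF a ha'
    ext v
    simp [an_fderiv ha, df, hj, mem_tang.1 (h2 v) j]
  obtain ⟨h4, h5⟩ := h3 hy
  have h6 : ∀ (w : W N), ∀ v ∈ tang F y, (w - tr (fderiv ℝ r y) w) v = 0 := fun w v hv => by
    simp [an_fderiv ha, h5 v hv]
  rw [pb, h4]
  constructor
  · nth_rw 1 [← mp_id (u y)]
    refine mp_sub_mp (fun w => ?_) _
    rw [← pr_add_pr (_ - _), map_add]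
    exact add_mem (io_pr_mem_ann h hy (mem_fullL _) (h6 w)) (io_pr_mem_ann h hy (mem_fullL _) (h6 w))
  · intro q hq
    by_cases hq0 : q < 0
    · simp [Eg_neg hq0 hq.2]
    lift q to ℕ using by omega
    have e : mp (pr false) (u y) = u y := by simpa [sc] using mp_sc (p := 0) hq 0 1
    rw [← e, mp_mp]
    refine mp_sub_mp (fun w => ?_) _
    have := io_pr_mem_ann h hy (mem_allL false) (h6 w)
    rwa [map_sub, an_fderiv ha, pr_tr, ← an_fderiv ha] at this

end Vale.Agent.P269.Hdg
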