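import Vale.Agent.P269.Hdg.ExD
import Vale.Agent.P269.Hdg.Null
import Vale.Agent.P299.H223.FS

/-!
# The metric of Fubini and Study on a complete intersection
-/

namespace Vale.Agent.P269.Hdg.Ex

open scoped Manifold ContDiff
open MvPolynomial Topology Filter
open Vale.Agent.P272.K (Cm Chart At IsKahler)

variable {N : ℕ} {ι : Type} {F : ι → MP N} {d : ι → ℕ} {n : ℕ} {M : Type}
  [TopologicalSpace M] [ChartedSpace (Cm n) M] [IsManifold 𝓘(ℂ, Cm n) ω M] {ε : M → TT N}
  {b : Chart n M → E N} {σ : Chart n M → Cm n → E N} {p : Chart n M → E N → Cm n}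

namespace M3

omit [IsManifold 𝓘(ℂ, Cm n) ω M] in
theorem at_chart {x m : M} (hm : m ∈ (chartAt (Cm n) x).source) : At (chartAt (Cm n) x) m :=
  ⟨chart_mem_atlas _ x, hm⟩

theorem holo (D : Mdl F ε b σ p) {c e : Chart n M} {m : M} (hc : At c m) (he : At e m) :
    ContDiffAt ℂ ω (fun z => σ c (c (e.symm z))) (e m) :=
  ContDiffAt.comp (g := σ c) _ (by rw [e.left_inv he.2]; exact (D.an c m hc).contDiffAt)
    (P272.K.transition he hc)

theorem imm (h : IsCI F d) (D : Mdl F ε b σ p) {c e : Chart n M} {m : M} (hc : At c m) (he : At e m)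
    (v : Cm n) (a : ℂ) (hv : fderiv ℂ (fun z => σ c (c (e.symm z))) (e m) v = a • σ c (c m)) :
    v = 0 := by
  have hp := (D.pan e m he _ (D.mem c m hc) (D.prp c m hc)).differentiableAt.hasFDerivAt
  have h1 : (fun z => p e (σ c (c (e.symm z)))) =ᶠ[𝓝 (e m)] id := by
    filter_upwards [e.open_target.mem_nhds (e.map_source he.2),
      (e.continuousAt_symm (e.map_source he.2)).preimage_mem_nhds
        (c.open_source.mem_nhds (by rw [e.left_inv he.2]; exact hc.2))] with z hz hz'
    exact (D.peq e _ ⟨he.1, e.map_target hz⟩ _ (D.mem c _ ⟨hc.1, hz'⟩)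
      (D.prp c _ ⟨hc.1, hz'⟩)).trans (e.right_inv hz)
  have h2 := (HasFDerivAt.comp (g := p e) (e m) (by rw [e.left_inv he.2]; exact hp)
    ((holo D hc he).differentiableAt (by simp)).hasFDerivAt).unique
      ((hasFDerivAt_id (e m)).congr_of_eventuallyEq h1)
  have h3 : (fun t : ℂ => p e (t • σ c (c m))) =ᶠ[𝓝 1] fun _ => e m := by
    filter_upwards [isOpen_ne.mem_nhds (one_ne_zero (α := ℂ))] with t ht
    exact D.peq e m he _ ((cone_smul h ht).2 (D.mem c m hc))
      ((prP_smul ht _).trans (D.prp c m hc))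
  have h4 := (HasFDerivAt.comp_hasDerivAt (l := p e) (1 : ℂ) (by rw [id, one_smul]; exact hp)
    ((hasDerivAt_id (1 : ℂ)).smul_const (σ c (c m)))).unique
      ((hasDerivAt_const (1 : ℂ) (e m)).congr_of_eventuallyEq h3)
  have h5 := DFunLike.congr_fun h2 v
  rw [ContinuousLinearMap.comp_apply, hv, map_smul, ← one_smul ℂ (σ c (c m))] at h5
  rw [one_smul] at h4 h5
  rw [h4, smul_zero] at h5
  exact h5.symm

end M3

open M3

theorem Mdl.exists_isKahler (h : IsCI F d) (D : Mdl F ε b σ p) :
    ∃ w : Chart n M → Cm n → Matrix (Fin n) (Fin n) ℂ, IsKahler w := by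
  let L : P299.H223.Lifts n fun m : M => Projectivization.mk ℂ
      (σ (chartAt (Cm n) m) (chartAt (Cm n) m m)) (D.mem _ m (at_chart (mem_chart_source _ m))).1 :=
    ⟨fun x => (chartAt (Cm n) x).source, fun x m => σ (chartAt (Cm n) x) (chartAt (Cm n) x m),
      mem_chart_source _, fun x => ⟨(chartAt (Cm n) x).open_source,
        fun m hm e he => holo D (at_chart hm) he, fun m hm => (D.mem _ m (at_chart hm)).1,
        fun m hm => by
          have a := at_chart (n := n) (mem_chart_source _ m)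
          obtain ⟨t, -, k⟩ := exists_smul_of_prP (D.mem _ m a).1
            ((D.prp _ m (at_chart hm)).trans (D.prp _ m a).symm)
          exact (Projectivization.mk_eq_mk_iff' _ _ _ _ _).2 ⟨t, k⟩,
        fun m hm e he => imm h D (at_chart hm) he⟩⟩
  exact ⟨_, L.isKahler⟩

end Vale.Agent.P269.Hdg.Ex
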