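import Vale.Agent.P269.Hdg.ExP0

/-!
# Basic forms on the cone induce forms on the manifold
-/

set_option linter.unusedSectionVars false

namespace Vale.Agent.P269.Hdg.Ex

open scoped Manifold ContDiff Matrix
open Topology Filter
open Vale.Agent.P281Z.Hg (Fo lr jc pbk vl Rw RealX RealK KP)
open Vale.Agent.P272.K (Cm Chart At)

variable {N : ℕ} {ι : Type} {F : ι → MP N} {n : ℕ} {M : Type}
  [TopologicalSpace M] [ChartedSpace (Cm n) M] [T2Space M] [CompactSpace M]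
  [IsManifold 𝓘(ℂ, Cm n) ω M] {ε : M → TT N}
  {b : Chart n M → E N} {σ : Chart n M → Cm n → E N} {p : Chart n M → E N → Cm n}
  (D : Mdl F ε b σ p) {u : SM N} {β : SG n M} {X : P281Z.Hg.Cx (SG n M) n}
include D

namespace ExP1

open P281Z.Hg P281Z.Hg.G1H

variable {e e' : Chart n M} {m : M}

omit D in
theorem at_chart (m : M) : At (chartAt (Cm n) m) m := ⟨chart_mem_atlas _ m, mem_chart_source _ m⟩

omit D in
theorem ev_at (h : At e m) (h' : At e' m) :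
    ∀ᶠ z in 𝓝 (e m), At e (e.symm z) ∧ At e' (e.symm z) ∧ e (e.symm z) = z := by
  filter_upwards [e.open_target.mem_nhds (e.map_source h.2),
    ev_src h (e'.open_source.mem_nhds h'.2)] with z h1 h2
  exact ⟨at_tg h.1 h1, ⟨h'.1, h2⟩, e.right_inv h1⟩

theorem sm_σ (h : At e m) : ContDiffAt ℝ ∞ (σ e) (e m) :=
  ((D.an e m h).contDiffAt (n := ∞)).restrict_scalars ℝ

theorem cpr_σ (h : At e m) (h' : At e' m) :
    lf (b e') (σ e (e m)) ≠ 0 ∧ cpr (b e') (σ e (e m)) = σ e' (e' m) := by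
  obtain ⟨t, h1, h2⟩ := exists_smul_of_prP (D.mem e' m h').1
    ((D.prp e m h).trans (D.prp e' m h').symm)
  have h3 := D.lf1 e' m h'
  refine ⟨fun h0 => ?_, by rw [← cpr_smul h1, h2, cpr, h3, inv_one, one_smul]⟩
  rw [← h2, map_smul, h0, smul_zero] at h3
  exact zero_ne_one h3

theorem pr_eq_zero {w} {K : KP X} (hK : RealK w K) (hβ : Ps σ u β) {j : ℕ}
    (h0 : ∀ y ≠ 0, ∀ q, pt j q (u.1 y) = 0) : K.pr j β = 0 := by
  refine G1H.ext _ _ fun m => ⟨_, at_chart m, ?_⟩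
  have h := at_chart (n := n) m
  rw [hK.pr j β _ m h, hβ _ m h, ps_apply, Matrix.mulVec_mulVec,
    pm_lr_jc (D.an _ m h).differentiableAt, ← Matrix.mulVec_mulVec, ← sum_pt (u.1 _), map_sum,
    Matrix.mulVec_sum, Finset.sum_eq_zero, Matrix.mulVec_zero, vl_zero]
  intro a _
  rw [map_sum, Matrix.mulVec_sum]
  refine Finset.sum_eq_zero fun q _ => ?_
  by_cases e : (j : ℤ) = a
  · rw [← e, h0 _ (D.mem _ m h).1, map_zero, Matrix.mulVec_zero]
  · exact fk_Eg (pt_mem a q _).1 e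

end ExP1

open ExP1 P281Z.Hg

theorem Mdl.exists_Ps {k : ℤ} (hu : u ∈ Ak k) : ∃ β, Ps σ u β := by
  refine (G1H.mkf (ps σ u) (fun e m h => k1b'.pbk_smooth (u := fun y => fk (u.1 y)) (sm_σ D h)
    (sm_fk (u.sm (D.mem e m h).1))) fun e e' m h h' => ?_).imp
      fun _ k e m h => k e h.1 _ (e.map_source h.2)
  obtain ⟨h1, h2⟩ := cpr_σ D h h'
  have h3 := sm_diff (an_sm (an_cpr h1))
  have h4 := lr_jc_comp (φ := σ e') (sm_diff (G1H.tr_sm h h'))
    (by rw [e.left_inv h.2]; exact sm_diff (sm_σ D h'))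
  rw [e.left_inv h.2] at h4
  rw [ps_apply, ps_apply, ← pb_cpr_eq hu h1 (D.mem e m h).1, fk_pb h3, pbk, h2,
    Matrix.mulVec_mulVec, Matrix.mulVec_mulVec, ← lr_jc_comp (sm_diff (sm_σ D h)) h3]
  refine congrArg (· *ᵥ _) (Eq.trans (lr_jc_id ?_) h4)
  filter_upwards [ev_at h h'] with z k
  rw [← (cpr_σ D k.1 k.2.1).2, k.2.2]

theorem Mdl.Ps_d (hX : RealX X) (hβ : Ps σ u β) : Ps σ (DD u) (X.d β) := fun e m h => by
  have h0 := (D.mem e m h).1
  have h1 : vl β e =ᶠ[𝓝 (e m)] ps σ u e := (ev_at h h).mono fun z k => k.2.2 ▸ hβ e _ k.1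
  rw [hX.d β e m h, (k1a f1a f1b).congr h1, ps_eq, k1b'.nat (sm_σ D h) (sm_fk (u.sm h0)), pbk,
    ps_apply, DD_apply u h0, fk_dd (u.df h0)]

theorem Mdl.Ps_dg (hX : RealX X) {k : ℕ} (hu : u ∈ Ak k) (hβ : Ps σ u β) : X.dg k β = β := by
  refine G1H.ext _ _ fun m => ⟨_, at_chart m, ?_⟩
  have h := at_chart (n := n) m
  rw [hX.dg k β _ m h, hβ _ m h, ps_apply, Matrix.mulVec_mulVec, f1a.lr_dg,
    ← Matrix.mulVec_mulVec, fk_Dg.1 (hu.2 _ (D.mem _ m h).1)]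

theorem Mdl.Ps_pr {w} {K : KP X} (hK : RealK w K) {r k : ℤ} (hu : u ∈ Fk true r k)
    (hβ : Ps σ u β) {j : ℕ} (hj : (j : ℤ) < r) : K.pr j β = 0 :=
  pr_eq_zero D hK hβ fun y hy q => hu.2 j q hj y hy

theorem Mdl.Ps_pr' {w} {K : KP X} (hK : RealK w K) {r k : ℤ} (hu : u ∈ Fk false r k)
    (hβ : Ps σ u β) {j : ℕ} (hj : k - r < j) : K.pr j β = 0 :=
  pr_eq_zero D hK hβ fun y hy q => by
    by_cases e : j + q = k
    · exact hu.2 j q (show q < r by omega) y hy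
    · exact pt_of_Dg (hu.1.2 y hy) e

end Vale.Agent.P269.Hdg.Ex
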