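import Vale.Agent.P269.Hdg.ExP0

/-!
# The kernel of the passage from the cone to the manifold
-/

namespace Vale.Agent.P269.Hdg.Ex

open scoped Manifold ContDiff Matrix
open Topology Filter
open Vale.Agent.P281Z.Hg (Fo lr jc pbk vl Rw)
open Vale.Agent.P272.K (Cm Chart At)

variable {N : ℕ} {ι : Type} [Fintype ι] [DecidableEq ι] {F : ι → MP N} {d : ι → ℕ} {n : ℕ}
  {M : Type} [TopologicalSpace M] [ChartedSpace (Cm n) M] {ε : M → TT N}
  {b : Chart n M → E N} {σ : Chart n M → Cm n → E N} {p : Chart n M → E N → Cm n}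
  (h : IsCI F d) (D : Mdl F ε b σ p) {u : SM N} {β : SG n M} {e : Chart n M} {m : M}
include h D

omit h [Fintype ι] [DecidableEq ι] in
theorem P2.cpr_eq (hm : At e m) {y : E N} (hy : y ∈ cone F) (hy' : prP y = ε m) :
    lf (b e) y ≠ 0 ∧ cpr (b e) y = σ e (p e y) := by
  obtain ⟨t, -, ht⟩ := exists_smul_of_prP (D.mem e m hm).1 (hy'.trans (D.prp e m hm).symm)
  have h1 := D.lf1 e m hm
  rw [← ht, map_smul, smul_eq_mul] at h1
  rw [D.peq e m hm y hy hy', ← ht, cpr, eq_inv_of_mul_eq_one_left h1]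
  exact ⟨right_ne_zero_of_mul_eq_one h1, rfl⟩

omit h [Fintype ι] [DecidableEq ι] in
theorem P2.cpr_ev (hm : At e m) {y : E N} (hy : y ∈ cone F) (hy' : prP y = ε m) :
    ∀ᶠ z in 𝓝 y, z ∈ cone F → cpr (b e) z - σ e (p e z) = 0 := by
  obtain ⟨t, h1, h2⟩ := mem_comap.1 (D.emb.nhds_eq_comap m ▸ e.open_source.mem_nhds hm.2)
  filter_upwards [(sm_prP hy.1).continuousAt.tendsto.eventually (hy' ▸ h1)] with z h3 hz
  obtain ⟨m', h4⟩ := D.srj z hz
  exact sub_eq_zero.2 (P2.cpr_eq D ⟨hm.1, h2 (show ε m' ∈ t from h4 ▸ h3)⟩ hz h4.symm).2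

theorem Mdl.ps_of_ann (hm : At e m)
    (hu : u.1 (σ e (e m)) ∈ ann (pl (fullL F) (σ e (e m)))) : ps σ u e (e m) = 0 := by
  have hx := D.mem e m hm
  have ha := D.an e m hm
  obtain ⟨r, hr, hrx, hev⟩ := exists_retr h hx
  have h1 : (σ e) =ᶠ[𝓝 (e m)] fun z => r (σ e z) := by
    filter_upwards [ha.continuousAt.tendsto.eventually hev,
      e.open_target.mem_nhds (e.map_source hm.2)] with z h2 h3
    have h4 := D.mem e (e.symm z) ⟨hm.1, e.map_target h3⟩
    rw [e.right_inv h3] at h4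
    exact (h2.2.2 h4).1.symm
  have h2 : mp (tr (fderiv ℝ r (σ e (e m)))) (u.1 (σ e (e m))) = 0 := by
    refine mp_of_ann (h.dualL_full.hasDual hx) (forall_pl.2 fun a ha' => ?_) hu
    obtain ⟨j, hj⟩ := of_mem_fullL ha'
    have h3 := fun v => mem_tang.1 (hev.self_of_nhds.2.1 v) j
    rw [hrx] at h3
    ext v
    simp [an_fderiv hr, df, hj, h3]
  have d1 : DifferentiableAt ℝ r (σ e (e m)) := hr.differentiableAt.restrictScalars ℝ
  rw [ps_apply, lr_jc_id h1, lr_jc_comp (ha.differentiableAt.restrictScalars ℝ) d1,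
    ← Matrix.mulVec_mulVec, ← fk_mp d1, h2, map_zero, Matrix.mulVec_zero]

theorem Mdl.ann_of_ps {k : ℤ} (hu : u ∈ Ak k) (hm : At e m) (h0 : ps σ u e (e m) = 0) {y : E N}
    (hy : y ∈ cone F) (hy' : prP y = ε m) : u.1 y ∈ ann (pl (fullL F) y) := by
  obtain ⟨h1, h2⟩ := P2.cpr_eq D hm hy hy'
  have h3 := D.peq e m hm y hy hy'
  have d1 : DifferentiableAt ℝ (p e) y :=
    (D.pan e m hm y hy hy').differentiableAt.restrictScalars ℝ
  have d2 : DifferentiableAt ℝ (σ e) (p e y) :=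
    h3 ▸ (D.an e m hm).differentiableAt.restrictScalars ℝ
  have d3 : DifferentiableAt ℝ (fun z => σ e (p e z)) y := d2.comp y d1
  have d4 : DifferentiableAt ℝ (cpr (b e)) y := (an_cpr h1).differentiableAt.restrictScalars ℝ
  have h4 : mp (tr (fderiv ℝ (fun z => σ e (p e z)) y)) (u.1 (cpr (b e) y)) = 0 := by
    refine fk.injective ?_
    rw [fk_mp d3, lr_jc_comp d1 d2, ← Matrix.mulVec_mulVec, h2, h3, ← ps_apply, h0, map_zero,
      Matrix.mulVec_zero]
  rw [← pb_cpr_eq hu h1 hy.1, pb, ← sub_zero (mp _ _), ← h4]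
  refine mp_sub_mp (fun w => ?_) _
  have h5 : ∀ v ∈ tang F y, (tr (fderiv ℝ (cpr (b e)) y) w -
      tr (fderiv ℝ (fun z => σ e (p e z)) y) w) v = 0 := fun v hv => by
    have h6 := fderiv_tang h hy (d4.fun_sub d3) (P2.cpr_ev D hm hy hy') hv
    rw [fderiv_fun_sub d4 d3] at h6
    exact (map_sub w _ _).symm.trans ((congrArg w h6).trans (map_zero w))
  rw [← pr_add_pr (_ - _), map_add]
  exact add_mem (io_pr_mem_ann h hy (mem_fullL _) h5) (io_pr_mem_ann h hy (mem_fullL _) h5)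

theorem Mdl.Ps_nul (hu : u ∈ Nl F) (hβ : Ps σ u β) : β = 0 := by
  refine P281Z.Hg.vl_inj (funext fun e => funext fun z => ?_)
  by_cases hz : e ∈ atlas (Cm n) M ∧ z ∈ e.target
  · have hm : At e (e.symm z) := ⟨hz.1, e.map_target hz.2⟩
    have h1 := (hβ e _ hm).trans (D.ps_of_ann h hm (hu _ (D.mem e _ hm)))
    rwa [e.right_inv hz.2] at h1
  · exact (P281Z.Hg.vl_isF β).off e z hz

theorem Mdl.Ps_inj {k : ℤ} (hu : u ∈ Ak k) (hβ : Ps σ u 0) : u ∈ Nl F := by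
  intro y hy
  obtain ⟨m, hm⟩ := D.srj y hy
  have h1 : At (chartAt (Cm n) m) m := ⟨chart_mem_atlas _ _, mem_chart_source _ _⟩
  exact D.ann_of_ps h hu h1 (hβ _ m h1).symm hy hm.symm

end Vale.Agent.P269.Hdg.Ex
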