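import Vale.Agent.P269.Hdg.ExP1
import Vale.Agent.P269.Hdg.ExP2

/-!
# Every form on the manifold comes from a basic form on the cone
-/

namespace Vale.Agent.P269.Hdg.Ex

open scoped Manifold ContDiff Matrix
open Topology Filter
open Vale.Agent.P281Z.Hg (Fo lr jc pbk vl Rw RealX vl_isF k1b' f1a)
open Vale.Agent.P281Z.Hg.G1H (at_tg zp)
open Vale.Agent.P272.K (Cm Chart At)

variable {N : ℕ} {ι : Type} [Fintype ι] [DecidableEq ι] {F : ι → MP N} {d : ι → ℕ} {n : ℕ}
  {M : Type} [TopologicalSpace M] [ChartedSpace (Cm n) M] [T2Space M] [CompactSpace M]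
  [IsManifold 𝓘(ℂ, Cm n) ω M] {ε : M → TT N}
  {b : Chart n M → E N} {σ : Chart n M → Cm n → E N} {p : Chart n M → E N → Cm n}
  (h : IsCI F d) (D : Mdl F ε b σ p) {β : SG n M} {X : P281Z.Hg.Cx (SG n M) n}

omit [T2Space M] [CompactSpace M] [IsManifold 𝓘(ℂ, Cm n) ω M] in
/-- The families of values that vanish at the points over a neighbourhood of `t`. -/
def ExP3.Vt (n : ℕ) [ChartedSpace (Cm n) M] (ε : M → TT N) (t : TT N) :
    Submodule ℂ (Rw n M (Fo n)) where
  carrier := {r | ∀ᶠ t' in 𝓝 t, ∀ m, ε m = t' → ∀ e, At e m → r e (e m) = 0}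
  zero_mem' := .of_forall fun _ _ _ _ _ => rfl
  add_mem' a c := (Eventually.and a c).mono fun _ k m hm e he => by
    rw [Pi.add_apply, Pi.add_apply, k.1 m hm e he, k.2 m hm e he, add_zero]
  smul_mem' _ _ a := Eventually.mono a fun _ k m hm e he => by
    rw [Pi.smul_apply, Pi.smul_apply, k m hm e he, smul_zero]

include h D

omit [Fintype ι] [DecidableEq ι] in
theorem ExP3.loc (hX : RealX X) {k : ℕ} (hβ : X.dg k β = β) {e : Chart n M} {m : M} (hm : At e m) :
    ∃ u ∈ Ak k, ∀ᶠ z in 𝓝 (e m), vl β e z = ps σ u e z := by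
  have x0 := (D.mem e m hm).1
  have tg := e.open_target.mem_nhds (e.map_source hm.2)
  have pa := D.pan e m hm _ (D.mem e m hm) (D.prp e m hm)
  obtain ⟨u, hu, e₁⟩ := exists_ext_Ak (k := k) x0 (w := fun y => fk.symm (pbk (p e) (vl β e) y)) (by
    filter_upwards [pa.eventually_analyticAt, pa.continuousAt.eventually_mem
      ((D.peq e m hm _ (D.mem e m hm) (D.prp e m hm)).symm ▸ tg)] with y a c
    have s := (vl_isF β).sm e _ (at_tg hm.1 c)
    have g := hX.dg k β e _ (at_tg hm.1 c)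
    rw [e.right_inv c] at s g
    refine ⟨sm_fk_symm (k1b'.pbk_smooth (an_sm a) s), fk_Dg.2 ?_⟩
    rw [LinearEquiv.apply_symm_apply, pbk, Matrix.mulVec_mulVec, f1a.lr_dg, ← Matrix.mulVec_mulVec,
      ← g, hβ])
  have c := (D.an e m hm).continuousAt
  have k : ∀ᶠ z in 𝓝 (e m), lf (σ e (e m)) (σ e z) ≠ 0 ∧ AnalyticAt ℂ (σ e) z ∧
      AnalyticAt ℂ (p e) (cpr (σ e (e m)) (σ e z)) ∧ p e (cpr (σ e (e m)) (σ e z)) = z := by
    filter_upwards [tg, c.eventually (lf_ne_ev x0)] with z a l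
    have t := at_tg hm.1 a
    have q := (cone_smul h (inv_ne_zero l)).2 (e.right_inv a ▸ D.mem e _ t)
    have r := (prP_smul (inv_ne_zero l) _).trans (e.right_inv a ▸ D.prp e _ t)
    exact ⟨l, e.right_inv a ▸ D.an e _ t, D.pan e _ t _ q r, (D.peq e _ t _ q r).trans (e.right_inv a)⟩
  refine ⟨u, hu, ?_⟩
  filter_upwards [k.eventually_nhds, c.eventually e₁] with z a g
  obtain ⟨a₁, a₂, a₃, a₄⟩ := a.self_of_nhds
  have d₁ := sm_diff (an_sm (an_cpr a₁))
  have d₂ := a₂.differentiableAt.restrictScalars ℝ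
  rw [ps_apply, g, fk_pb d₁, pbk, LinearEquiv.apply_symm_apply, pbk, Matrix.mulVec_mulVec,
    Matrix.mulVec_mulVec, ← lr_jc_comp d₂ d₁,
    ← lr_jc_comp (ψ := fun y => cpr _ (σ e y)) (d₁.comp z d₂) (sm_diff (an_sm a₃)), lr_jc_one (a.mono fun _ k => k.2.2.2), Matrix.one_mulVec, a₄]

open ExP3 in
theorem Mdl.Ps_surj (hX : RealX X) {k : ℕ} (hβ : X.dg k β = β) : ∃ u ∈ Ak k, Ps σ u β := by
  obtain ⟨u, hu, a⟩ := (dR h).fine.glue (Vt n ε) (ps σ) (vl β) k
    (fun _ u a => Eventually.mono a fun _ c m hm e he => D.ps_of_ann h he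
      (c _ (D.mem e m he).1 ((D.prp e m he).trans hm) (D.mem e m he)))
    (fun _ _ a => eventually_eventually_nhds.2 a)
    (fun _ u hu a => Eventually.mono a fun _ c y _ e hy =>
      let ⟨m, hm⟩ := D.srj y hy
      have t : At (chartAt _ m) m := ⟨chart_mem_atlas _ m, mem_chart_source _ m⟩
      D.ann_of_ps h hu t (c m (hm.trans e) _ t) hy hm.symm)
    (fun t => by
      rcases X_cases h t with a | ⟨x, hx, rfl⟩
      · exact ⟨0, zero_mem _, Eventually.mono a fun _ c m hm e he =>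
          (c _ (D.mem e m he).1 ((D.prp e m he).trans hm) (D.mem e m he)).elim⟩
      obtain ⟨m, hm⟩ := D.srj x hx
      have t : At (chartAt (Cm n) m) m := ⟨chart_mem_atlas _ m, mem_chart_source _ m⟩
      obtain ⟨u, hu, a⟩ := loc h D hX hβ t
      obtain ⟨γ, c⟩ := D.exists_Ps hu
      refine ⟨u, hu, hm ▸ eventually_comap.1 (D.emb.isInducing.nhds_eq_comap m ▸ ?_)⟩
      filter_upwards [((chartAt _ m).continuousAt t.2).eventually a,
        (chartAt _ m).open_source.mem_nhds t.2] with m' g s e he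
      exact (congrArg (_ - ·) (c e m' he).symm).trans (zp (β - γ) ⟨t.1, s⟩
        (sub_eq_zero.2 (g.trans (c _ m' ⟨t.1, s⟩).symm)) e he))
    ⟨KK N, isCompact_KK, fun t ht => eq_top_iff.2 fun _ _ => by
      filter_upwards [isCompact_KK.isClosed.isOpen_compl.mem_nhds ht] with _ a m hm e he
      exact (a (hm ▸ D.prp e m he ▸ prP_mem_KK (D.mem e m he).1)).elim⟩
  exact ⟨u, hu, fun e m hm => sub_eq_zero.1 ((a (ε m)).self_of_nhds m rfl e hm)⟩

end Vale.Agent.P269.Hdg.Ex
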