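import Vale.Agent.P269.Hdg.Filt

/-!
# The Hodge filtration on cohomology; Hodge bases of complete intersections
-/

namespace Vale.Agent.P269.Hdg

open Topology Filter MvPolynomial Module

variable {N : ℕ} {ι : Type} [Fintype ι] [DecidableEq ι] {F : ι → MP N} {d : ι → ℕ}
  {X : Type} [TopologicalSpace X] {π : cone F → X} (h : IsCI F d) (hπ : IsProj π)
  {s : Bool} {r r' k l : ℤ} {a b c : P291Z.H X}

/-- The Hodge filtration `F^r H^k` (for `s = true`) and its conjugate (for `s = false`). -/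
noncomputable def FH (s : Bool) (r k : ℤ) : Submodule ℂ (P291Z.H X) :=
  LinearMap.range (cmp h hπ k ∘ₗ (toA h s r).map k)

theorem mem_FH : c ∈ FH h hπ s r k ↔
    ∃ u, ∃ hu : u ∈ (Ac h).Z k, u ∈ Fk s r k ∧ cmp h hπ k (Cx.cl u hu) = c := by
  constructor
  · rintro ⟨x, rfl⟩
    obtain ⟨u, hu, rfl⟩ := Cx.exists_cl x
    exact ⟨u, (toA h s r).map_Z hu, hu.1, rfl⟩
  · rintro ⟨u, hu, h1, rfl⟩
    exact ⟨Cx.cl (C := Fc h s r) u ⟨h1, hu.2⟩, rfl⟩

variable {h hπ}

theorem FH_deg (hc : c ∈ FH h hπ s r k) : P291Z.H.IsDeg k c := by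
  obtain ⟨u, hu, -, rfl⟩ := (mem_FH h hπ).1 hc
  exact (cmp_range h hπ).1 ⟨_, rfl⟩

theorem FH_of_deg (hr : r ≤ 0) (hc : P291Z.H.IsDeg k c) : c ∈ FH h hπ s r k := by
  obtain ⟨x, rfl⟩ := (cmp_range h hπ).2 hc
  obtain ⟨u, hu, rfl⟩ := Cx.exists_cl x
  exact (mem_FH h hπ).2 ⟨u, hu, Fk_of_Ak hr hu.1, rfl⟩

theorem FH_mono (hr : r ≤ r') (hc : c ∈ FH h hπ s r' k) : c ∈ FH h hπ s r k := by
  obtain ⟨u, hu, h1, rfl⟩ := (mem_FH h hπ).1 hc
  exact (mem_FH h hπ).2 ⟨u, hu, Fk_mono hr h1, rfl⟩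

theorem FH_mul (ha : a ∈ FH h hπ s r k) (hb : b ∈ FH h hπ s r' l) :
    a * b ∈ FH h hπ s (r + r') (k + l) := by
  obtain ⟨u, hu, h1, rfl⟩ := (mem_FH h hπ).1 ha
  obtain ⟨v, hv, h2, rfl⟩ := (mem_FH h hπ).1 hb
  exact (mem_FH h hπ).2 ⟨_, ML_Z h hu hv, ML_Fk h1 h2, cmp_mul h hπ hu hv⟩

theorem FH_big (hr : (N : ℤ) - Fintype.card ι < r) (hc : c ∈ FH h hπ s r k) : c = 0 := by
  obtain ⟨u, hu, h1, rfl⟩ := (mem_FH h hπ).1 hc
  rw [(Cx.cl_eq_zero hu).2 (Cx.nul_le_B ((Ac_nul h).2 (Fk_Nl h hr h1))), map_zero]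

theorem FH_pow (hc : c ∈ FH h hπ s 1 2) (m : ℕ) : c ^ m ∈ FH h hπ s m (2 * m) := by
  induction m with
  | zero => simpa using FH_of_deg le_rfl P291Z.H.isDeg_one
  | succ m ih => simpa [pow_succ, mul_add] using FH_mul ih hc

variable (h hπ)

theorem IsHodge.mem_FH {p q : ℕ} (hc : IsHodge F π p q c) (s : Bool) :
    c ∈ FH h hπ s (cond s p q) (p + q) := by
  obtain ⟨u, hu, h1, rfl⟩ := cmp_hodge h hπ hc
  exact (Hdg.mem_FH h hπ).2 ⟨u, hu, Om_le_Fk h1 rfl le_rfl, rfl⟩

/-- A class of degree two of type `(1, 1)`. -/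
def Is11 (c : P291Z.H X) : Prop := ∀ s, c ∈ FH h hπ s 1 2

theorem Is11.smul (hc : Is11 h hπ c) (t : ℂ) : Is11 h hπ (t • c) :=
  fun s => Submodule.smul_mem _ _ (hc s)

theorem Is11.neg (hc : Is11 h hπ c) : Is11 h hπ (-c) := fun s => neg_mem (hc s)

/-- Classes of degree two restricted from projective space have type `(1, 1)`. -/
theorem is11_of_amb {ι' : Type} [Fintype ι'] [DecidableEq ι'] [IsEmpty ι'] {F' : ι' → MP N}
    {X' : Type} [TopologicalSpace X'] {π' : cone F' → X'} (hπ' : IsProj π') (i : C(X, X'))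
    (hi : ∀ y : cone F, i (π y) = π' ⟨y.1, y.2.1, fun j => isEmptyElim j⟩) {c' : P291Z.H X'}
    (hc : P291Z.H.IsDeg 2 c') : Is11 h hπ (P291Z.H.map i c') := fun s => by
  have h' : IsCI F' fun _ => 1 :=
    ⟨fun j => isEmptyElim j, fun j => isEmptyElim j, fun _ _ => linearIndependent_empty_type⟩
  obtain ⟨x, rfl⟩ := (cmp_range h' hπ').2 hc
  obtain ⟨w, hw, rfl⟩ := Cx.exists_cl x
  obtain ⟨u, hu, e⟩ := toA_surj_two h' s w hw
  have hu' := (toA h' s 1).map_Z hu
  rw [(Cx.cl_eq_cl hw hu').2 e]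
  obtain ⟨h1, h2⟩ := cmp_incl h hπ h' hπ' (fun y hy => ⟨hy.1, fun j => isEmptyElim j⟩) i hi hu'
  exact (mem_FH h hπ).2 ⟨_, h1, hu.1, h2⟩

variable {n : ℕ} (hn : n + Fintype.card ι = N)
include hn

/-- (A) Orthogonality of Hodge types. -/
theorem hodge_orth {p q p' q' m : ℕ} (ha : IsHodge F π p q a) (hb : IsHodge F π p' q' b)
    (hc : Is11 h hπ c) (hm : n < m + p + p' ∨ n < m + q + q') : c ^ m * a * b = 0 := by
  have key := fun s => FH_mul (FH_mul (FH_pow (hc s) m) (ha.mem_FH h hπ s)) (hb.mem_FH h hπ s)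
  rcases hm with hm | hm
  · exact FH_big (by simp; omega) (key true)
  · exact FH_big (by simp; omega) (key false)

omit hn in
theorem FH_zero (s : Bool) (k : ℤ) : FH h hπ s 0 k = P291Z.H.deg X k :=
  le_antisymm (fun _ => FH_deg) fun _ => FH_of_deg le_rfl

omit hn in
instance fin_FH (s : Bool) (r k : ℤ) : FiniteDimensional ℂ (FH h hπ s r k) := by
  have : FiniteDimensional ℂ ((dR h).sh.gl.H k) := (Ac_good h).1 k
  exact Submodule.finiteDimensional_of_le (LinearMap.range_comp_le_range _ _)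

omit hn in
include h hπ in
theorem fin_deg (k : ℤ) : FiniteDimensional ℂ (P291Z.H.deg X k) :=
  FH_zero h hπ true k ▸ fin_FH h hπ true 0 k

omit hn in
include hπ in
theorem finrank_deg (k : ℤ) : finrank ℂ (P291Z.H.deg X k) = (Ac h).h k := by
  rw [show P291Z.H.deg X k = LinearMap.range (cmp h hπ k) from
    Submodule.ext fun _ => (cmp_range h hπ).symm]
  exact LinearMap.finrank_range_of_inj (cmp_inj h hπ)

omit hn in
theorem finrank_FH_le (r k : ℤ) : finrank ℂ (FH h hπ true r k) ≤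
    finrank ℂ (FH h hπ true (r + 1) k) + (Wc h r).h (k - r) := by
  have : FiniteDimensional ℂ ((Fc h true r).H k) := (Fc_good h r).1 k
  have : FiniteDimensional ℂ (((Wc h r).shift (-r)).H k) :=
    ((Cx.shift_good _).2 (Wc_good h r)).1 k
  have h1 := rank_le ((F_ses h r).exact_mid k) (cmp h hπ k ∘ₗ (toA h true r).map k)
  have h2 : (cmp h hπ k ∘ₗ (toA h true r).map k) ∘ₗ (incF h true r).map k =
      cmp h hπ k ∘ₗ (toA h true (r + 1)).map k := LinearMap.ext fun x => by
    obtain ⟨u, hu, rfl⟩ := Cx.exists_cl x; rfl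
  rw [h2] at h1
  exact h1.trans (add_le_add le_rfl (Cx.shift_h (-r)).le)

include h hπ in
theorem deg_big (hk : 2 * (n : ℤ) < k) (hc : P291Z.H.IsDeg k c) : c = 0 := by
  obtain ⟨x, rfl⟩ := (cmp_range h hπ).2 hc
  have := Cx.exact_iff.1 (Ac_exact h (k := k) (by omega))
  rw [Subsingleton.elim x 0, map_zero]

include h hπ in
/-- Total cohomology is finite dimensional. -/
theorem fin_H : FiniteDimensional ℂ (P291Z.H X) := by
  have := fin_deg h hπ
  have e : ⨆ k ∈ Finset.range (2 * n + 1), P291Z.H.deg X k = ⊤ := by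
    refine eq_top_iff.2 fun c _ => P291Z.H.induction_deg c (zero_mem _) (fun _ _ => add_mem)
      fun k => ?_
    have hk := P291Z.H.isDeg_comp k c
    by_cases h1 : k < 0
    · rw [hk.eq_zero h1]; exact zero_mem _
    by_cases h2 : 2 * (n : ℤ) < k
    · rw [deg_big h hπ hn h2 hk]; exact zero_mem _
    lift k to ℕ using by omega
    exact Submodule.mem_iSup_of_mem k (Submodule.mem_iSup_of_mem (by simp; omega) hk)
  exact ⟨e ▸ Submodule.fg_biSup _ _ fun k _ => (Submodule.fg_iff_finiteDimensional _).2 (this k)⟩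

theorem finrank_FH_le_one (hk : k ≠ n) (r : ℤ) :
    finrank ℂ (FH h hπ true r k) ≤ if Even k ∧ 2 * r ≤ k then 1 else 0 := by
  induction r using Int.inductionOn' (b := n + 1) with
  | zero =>
    rw [(Submodule.eq_bot_iff _).2 fun _ => FH_big (by omega), finrank_bot]; exact Nat.zero_le _
  | succ r _ _ =>
    rw [(Submodule.eq_bot_iff _).2 fun _ => FH_big (by omega), finrank_bot]; exact Nat.zero_le _
  | pred r _ ih =>
    have h1 := finrank_FH_le h hπ (r - 1) k
    have h2 := Wc_h h (p := r - 1) (q := k - (r - 1)) (by omega)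
    rw [sub_add_cancel] at h1
    simp only [Int.even_iff] at ih ⊢
    split_ifs at ih h2 ⊢ <;> omega

include h hπ in
/-- (B) The Betti numbers outside the middle degree, upper bound. -/
theorem lefschetz_le (hk : k ≠ n) :
    finrank ℂ (P291Z.H.deg X k) ≤ if Even k ∧ 0 ≤ k ∧ k ≤ 2 * n then 1 else 0 := by
  by_cases h2 : 2 * (n : ℤ) < k
  · rw [(Submodule.eq_bot_iff (P291Z.H.deg X k)).2 fun _ => deg_big h hπ hn h2, finrank_bot]
    exact Nat.zero_le _
  have := finrank_FH_le_one h hπ hn hk 0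
  rw [FH_zero] at this
  simp only [Int.even_iff] at this ⊢
  split_ifs at this ⊢ <;> omega

include h hπ in
/-- (B) The Betti numbers outside the middle degree. -/
theorem lefschetz (hb : ∀ j ≤ n, ∃ c : P291Z.H X, P291Z.H.IsDeg (2 * j : ℕ) c ∧ c ≠ 0) (hk : k ≠ n) :
    finrank ℂ (P291Z.H.deg X k) = if Even k ∧ 0 ≤ k ∧ k ≤ 2 * n then 1 else 0 := by
  have := lefschetz_le h hπ hn hk
  split_ifs at this ⊢ with e
  · obtain ⟨⟨j, rfl⟩, h1, h2⟩ := e
    lift j to ℕ using by omega
    obtain ⟨c, hc, h0⟩ := hb j (by omega)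
    have := fin_deg h hπ (j + j)
    have : 0 < finrank ℂ (P291Z.H.deg X (j + j)) := finrank_pos_iff_exists_ne_zero.2
      ⟨⟨c, P291Z.H.mem_deg.2 (by simpa [two_mul] using hc)⟩, fun e => h0 (congrArg Subtype.val e)⟩
    omega
  · omega

include h hπ in
theorem deg_odd (hk : k ≠ n) (ho : Odd k) (hc : P291Z.H.IsDeg k c) : c = 0 := by
  have := lefschetz_le h hπ hn hk
  rw [if_neg (fun e => Int.not_even_iff_odd.2 ho e.1), Nat.le_zero] at this
  have _ := fin_deg h hπ k
  exact (Submodule.eq_bot_iff _).1 (Submodule.finrank_eq_zero.1 this) c hc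

include h hπ in
theorem deg_smul (hk : k ≠ n) (ha : P291Z.H.IsDeg k a) (h0 : a ≠ 0) (hc : P291Z.H.IsDeg k c) :
    ∃ t : ℂ, c = t • a := by
  have _ := fin_deg h hπ k
  have h1 : finrank ℂ (P291Z.H.deg X k) ≤ 1 :=
    (lefschetz_le h hπ hn hk).trans (by split_ifs <;> omega)
  obtain ⟨v, hv⟩ := finrank_le_one_iff.1 h1
  obtain ⟨t, ht⟩ := hv ⟨a, ha⟩
  obtain ⟨t', ht'⟩ := hv ⟨c, hc⟩
  have e : t • v.1 = a := congrArg Subtype.val ht
  have e' : t' • v.1 = c := congrArg Subtype.val ht'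
  have : t ≠ 0 := by rintro rfl; exact h0 (by rw [← e, zero_smul])
  exact ⟨t' * t⁻¹, by rw [← e, ← e', smul_smul, inv_mul_cancel_right₀ this]⟩

/-! ## Hodge bases -/

variable {B : Type} [Fintype B] (φ : Basis B ℂ (P291Z.H X)) {p q : B → ℕ}
  (hφ : ∀ a, IsHodge F π (p a) (q a) (φ a))
include h hπ hφ

omit [Fintype B] in
theorem type_le (a : B) : p a ≤ n ∧ q a ≤ n := by
  have h1 := fun s => mt (fun e => FH_big e ((hφ a).mem_FH h hπ s)) (φ.ne_zero a)
  have h2 := h1 true
  have h3 := h1 false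
  simp only [cond_true, cond_false] at h2 h3
  omega

variable {J : P291Z.H X →ₗ[ℂ] ℂ} (hJ : ∀ k c, k ≠ 2 * (n : ℤ) → P291Z.H.IsDeg k c → J c = 0)
include hJ

omit [Fintype B] in
/-- The pairing of two basis vectors. -/
theorem pair_type (hc : Is11 h hπ c) {m : ℕ} {a b : B} (h0 : J (c ^ m * φ a * φ b) ≠ 0) :
    m + p a + p b = n ∧ m + q a + q b = n := by
  have h1 := mt (fun e => congrArg J (hodge_orth h hπ hn (m := m) (hφ a) (hφ b) hc e))
    (by rwa [map_zero])
  have h2 := mt (fun e => hJ _ _ e (FH_deg (FH_mul (FH_mul (FH_pow (hc true) m)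
    ((hφ a).mem_FH h hπ true)) ((hφ b).mem_FH h hπ true)))) h0
  omega

omit [Fintype B] in
theorem pair_type₀ {a b : B} (h0 : J (φ a * φ b) ≠ 0) : p a + p b = n ∧ q a + q b = n := by
  simpa using pair_type h hπ hn φ hφ hJ (c := 0) (fun _ => zero_mem _) (m := 0) (by simpa using h0)

variable (pd : ∀ c, (∀ c', J (c * c') = 0) → c = 0)
include pd

theorem repr_FH (hc : c ∈ FH h hπ s r k) {a : B} (ha : φ.repr c a ≠ 0) :
    (p a + q a : ℤ) = k ∧ r ≤ cond s (p a : ℤ) (q a) := by
  classical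
  let P : B → Prop := fun a => (p a + q a : ℤ) = k ∧ r ≤ cond s (p a : ℤ) (q a)
  let c' := ∑ a with ¬P a, φ.repr c a • φ a
  have h1 : c' ∈ FH h hπ s r k := by
    have h2 : ∑ a with P a, φ.repr c a • φ a ∈ FH h hπ s r k :=
      Submodule.sum_mem _ fun a ha => Submodule.smul_mem _ _ (by
        have ha := (Finset.mem_filter.1 ha).2
        exact ha.1 ▸ FH_mono ha.2 ((hφ a).mem_FH h hπ s))
    refine mem_of_eq (sub_mem hc h2) (eq_sub_of_add_eq' ?_)
    rw [Finset.sum_filter_add_sum_filter_not, φ.sum_repr]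
  have h2 : ∀ b, J (c' * φ b) = 0 := fun b => by
    have h3 := FH_mul h1 ((hφ b).mem_FH h hπ s)
    by_contra h4
    have h5 := mt (fun e => hJ _ _ e (FH_deg h3)) h4
    have h6 := mt (fun e => congrArg J (FH_big e h3)) (by rwa [map_zero])
    refine h4 ?_
    simp only [c', Finset.sum_mul, map_sum, smul_mul_assoc, map_smul]
    refine Finset.sum_eq_zero fun a ha => smul_eq_zero_of_right _ ?_
    by_contra h7
    have h8 := pair_type₀ h hπ hn φ hφ hJ h7
    refine (Finset.mem_filter.1 ha).2 ?_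
    cases s <;> simp only [P, cond_true, cond_false] at h6 ⊢ <;> omega
  have h3 : c' = 0 := pd _ fun b => by
    rw [← φ.sum_repr b]
    simp only [Finset.mul_sum, mul_smul_comm, map_sum, map_smul, h2, smul_zero,
      Finset.sum_const_zero]
  by_contra h4
  have := congrArg (fun x => φ.repr x a) h3
  simp only [c', map_sum, map_smul, Basis.repr_self, Finsupp.coe_finsetSum, Finset.sum_apply,
    Finsupp.smul_single, smul_eq_mul, mul_one, Finsupp.single_apply, Finset.sum_ite_eq',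
    Finset.mem_filter, Finset.mem_univ, true_and, map_zero, Finsupp.zero_apply] at this
  exact ha (by rwa [if_pos h4] at this)

/-- Multiplication by a class of type `(1, 1)` raises the type by `(1, 1)`. -/
theorem repr_mul (hc : Is11 h hπ c) {m : ℕ} {a b : B} (h0 : φ.repr (c ^ m * φ a) b ≠ 0) :
    p b = m + p a ∧ q b = m + q a := by
  have h1 := fun s => repr_FH h hπ hn φ hφ hJ pd
    (FH_mul (FH_pow (hc s) m) ((hφ a).mem_FH h hπ s)) h0
  have h2 := h1 true
  have h3 := h1 false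
  simp only [cond_true, cond_false] at h2 h3
  omega

theorem repr_pow (hc : Is11 h hπ c) {m : ℕ} {b : B} (h0 : φ.repr (c ^ m) b ≠ 0) :
    p b = m ∧ q b = m := by
  have h1 := fun s => repr_FH h hπ hn φ hφ hJ pd (FH_pow (hc s) m) h0
  have h2 := h1 true
  have h3 := h1 false
  simp only [cond_true, cond_false] at h2 h3
  omega

/-- A class of type `(p', q')` is a combination of basis vectors of that type. -/
theorem repr_hodge {p' q' : ℕ} (hc : IsHodge F π p' q' c) {b : B} (h0 : φ.repr c b ≠ 0) :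
    p b = p' ∧ q b = q' := by
  have h1 := fun s => repr_FH h hπ hn φ hφ hJ pd (hc.mem_FH h hπ s) h0
  have h2 := h1 true
  have h3 := h1 false
  simp only [cond_true, cond_false] at h2 h3
  omega

theorem finrank_FH (s : Bool) (r k : ℤ) : finrank ℂ (FH h hπ s r k) =
    (Finset.univ.filter fun a => (p a + q a : ℤ) = k ∧ r ≤ cond s (p a : ℤ) (q a)).card := by
  have e : FH h hπ s r k = Submodule.span ℂ (Set.range fun a : {a // (p a + q a : ℤ) = k ∧
      r ≤ cond s (p a : ℤ) (q a)} => φ a) := by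
    refine le_antisymm (fun c hc => ?_) (Submodule.span_le.2 ?_)
    · rw [← φ.sum_repr c]
      refine Submodule.sum_mem _ fun a _ => ?_
      by_cases h0 : φ.repr c a = 0
      · rw [h0, zero_smul]; exact zero_mem _
      · exact Submodule.smul_mem _ _
          (Submodule.subset_span ⟨⟨a, repr_FH h hπ hn φ hφ hJ pd hc h0⟩, rfl⟩)
    · rintro _ ⟨⟨a, ha⟩, rfl⟩
      have := FH_mono ha.2 ((hφ a).mem_FH h hπ s)
      rwa [ha.1] at this
  rw [e, ← Fintype.card_subtype]
  exact finrank_span_eq_card (φ.linearIndependent.comp _ Subtype.val_injective)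

theorem card_type_le (i j : ℕ) :
    (Finset.univ.filter fun a => p a = i ∧ q a = j).card ≤ (Wc h i).h j := by
  have h1 := finrank_FH_le h hπ i (i + j)
  rw [finrank_FH h hπ hn φ hφ hJ pd, finrank_FH h hπ hn φ hφ hJ pd, add_sub_cancel_left,
    ← Finset.card_filter_add_card_filter_not (fun a => p a = i), Finset.filter_filter,
    Finset.filter_filter, add_comm] at h1
  have e1 : (Finset.univ.filter fun a => ((p a + q a : ℤ) = i + j ∧
      (i : ℤ) ≤ cond true (p a : ℤ) (q a)) ∧ p a = i) =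
      Finset.univ.filter fun a => p a = i ∧ q a = j :=
    Finset.filter_congr fun a _ => by simp only [cond_true]; omega
  have e2 : (Finset.univ.filter fun a => ((p a + q a : ℤ) = i + j ∧
      (i : ℤ) ≤ cond true (p a : ℤ) (q a)) ∧ ¬p a = i) = Finset.univ.filter fun a =>
      (p a + q a : ℤ) = i + j ∧ (i : ℤ) + 1 ≤ cond true (p a : ℤ) (q a) :=
    Finset.filter_congr fun a _ => by simp only [cond_true]; omega
  rw [e1, e2] at h1
  omega

/-- (C1) Outside the middle degree only the types `(k, k)` occur. -/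
theorem type_eq {a : B} (ha : p a + q a ≠ n) : p a = q a := by
  have h1 := card_type_le h hπ hn φ hφ hJ pd (p a) (q a)
  have h2 := Wc_h h (p := p a) (q := q a) (by omega)
  have h3 : 0 < (Finset.univ.filter fun b => p b = p a ∧ q b = q a).card :=
    Finset.card_pos.2 ⟨a, by simp⟩
  split_ifs at h2 <;> omega

theorem euler_eq : ∑ a, (-1 : ℤ) ^ (p a + q a) =
    ∑ r ∈ Finset.range (n + 1), (-1) ^ r * chiP N (degL d : Multiset ℕ) r := by
  rw [← Ac_chi h hn, Cx.chi_eq_sum ((Finset.range (2 * n + 1)).map Nat.castEmbedding)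
    fun k hk => (Ac_exact h (by
      by_contra h1
      lift k to ℕ using by omega
      simp at hk; omega)).h_eq, Finset.sum_map,
    ← Finset.sum_fiberwise_of_maps_to (t := Finset.range (2 * n + 1)) (g := fun a => p a + q a)
      fun a _ => by have := type_le h hπ hn φ hφ a; simp; omega]
  refine Finset.sum_congr rfl fun k _ => ?_
  rw [Nat.castEmbedding_apply, Int.coe_negOnePow_natCast, ← finrank_deg h hπ, ← FH_zero h hπ true,
    finrank_FH h hπ hn φ hφ hJ pd, Finset.sum_congr rfl (g := fun _ => (-1) ^ k)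
      fun a ha => by rw [(Finset.mem_filter.1 ha).2], Finset.sum_const, nsmul_eq_mul, mul_comm]
  congr 3
  exact Finset.filter_congr fun a _ => by simp only [cond_true]; omega

variable (hb : ∀ j ≤ n, ∃ c : P291Z.H X, P291Z.H.IsDeg (2 * j : ℕ) c ∧ c ≠ 0)
include hb

/-- (C2) There is exactly one basis vector of type `(j, j)` outside the middle degree. -/
theorem card_diag {j : ℕ} (hj : j ≤ n) (hj' : 2 * j ≠ n) :
    (Finset.univ.filter fun a => p a = j ∧ q a = j).card = 1 := by
  have h1 := lefschetz h hπ hn hb (k := 2 * j) (by omega)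
  rw [if_pos ⟨even_two_mul _, by omega, by omega⟩, ← FH_zero h hπ true,
    finrank_FH h hπ hn φ hφ hJ pd] at h1
  rw [← h1]
  congr 1
  refine Finset.filter_congr fun a _ => ⟨fun e => by simp only [cond_true]; omega, fun e => ?_⟩
  have := type_eq h hπ hn φ hφ hJ pd (a := a) (by omega)
  omega

theorem card_type (i j : ℕ) :
    (Finset.univ.filter fun a => p a = i ∧ q a = j).card = (Wc h i).h j := by
  let e : ℕ → ℕ → ℕ := fun i j => (Finset.univ.filter fun a => p a = i ∧ q a = j).card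
  have le : ∀ i j, e i j ≤ (Wc h i).h j := card_type_le h hπ hn φ hφ hJ pd
  have off : ∀ i j, i + j ≠ n → e i j = (Wc h i).h j := fun i j hij => by
    refine le_antisymm (le i j) ?_
    have h2 := Wc_h h (p := i) (q := j) (by omega)
    by_cases h3 : n < i
    · rw [(Wc_exact h (by omega)).h_eq]; omega
    split_ifs at h2 with h4
    · obtain rfl : i = j := by omega
      exact h2.trans (card_diag h hπ hn φ hφ hJ pd hb (by omega) (by omega)).ge
    · omega
  by_cases hij : i + j = n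
  swap
  · exact off i j hij
  have h1 : ∀ r : ℕ, chiP N (degL d : Multiset ℕ) r =
      ∑ j ∈ Finset.range (n + 1), (-1) ^ j * ((Wc h r).h j : ℤ) := fun r => by
    rw [← Wc_chi h, Cx.chi_eq_sum ((Finset.range (n + 1)).map Nat.castEmbedding)
      fun k hk => (Wc_exact h (by
        by_contra h1
        lift k to ℕ using by omega
        simp at hk; omega)).h_eq, Finset.sum_map]
    simp [Int.coe_negOnePow_natCast]
  have h2 : ∑ a, (-1 : ℤ) ^ (p a + q a) = ∑ r ∈ Finset.range (n + 1),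
      ∑ j ∈ Finset.range (n + 1), (-1) ^ (r + j) * (e r j : ℤ) := by
    rw [← Finset.sum_product', ← Finset.sum_fiberwise_of_maps_to
      (t := Finset.range (n + 1) ×ˢ Finset.range (n + 1)) (g := fun a => (p a, q a))
      fun a _ => by have := type_le h hπ hn φ hφ a; simp; omega]
    refine Finset.sum_congr rfl fun x _ => ?_
    rw [Finset.sum_congr rfl (g := fun _ => (-1) ^ (x.1 + x.2))
      fun a ha => by rw [← (Finset.mem_filter.1 ha).2], Finset.sum_const, nsmul_eq_mul, mul_comm]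
    simp [e, Prod.ext_iff]
  have h3 : ∑ r ∈ Finset.range (n + 1), (-1 : ℤ) ^ n * ((Wc h r).h (n - r : ℕ) - e r (n - r)) = 0 := by
    rw [← sub_eq_zero.2 ((euler_eq h hπ hn φ hφ hJ pd).symm.trans h2), ← Finset.sum_sub_distrib]
    refine Finset.sum_congr rfl fun r hr => ?_
    have hr := Finset.mem_range.1 hr
    rw [h1, Finset.mul_sum, ← Finset.sum_sub_distrib, Finset.sum_eq_single_of_mem (n - r)
      (Finset.mem_range.2 (by omega)) fun j _ hj => by rw [off r j (by omega)]; ring,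
      ← mul_assoc, ← pow_add, show r + (n - r) = n by omega, mul_sub]
  rw [← Finset.mul_sum, mul_eq_zero, Finset.sum_eq_zero_iff_of_nonneg
    fun r _ => sub_nonneg.2 (by exact_mod_cast le r (n - r))] at h3
  have h4 := h3.resolve_left (by simp) i (Finset.mem_range.2 (by omega))
  rw [show n - i = j by omega] at h4
  change e i j = _
  omega

/-- (C3) The Hirzebruch numbers. -/
theorem hodge_count (r : ℕ) :
    ∑ a with p a = r, (-1 : ℤ) ^ q a = chiP N (Finset.univ.val.map d) r := by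
  have e : (degL d : Multiset ℕ) = Finset.univ.val.map d := by
    rw [degL, ← Multiset.map_coe, Finset.coe_toList]
  rw [← e, ← Wc_chi h, Cx.chi_eq_sum ((Finset.range (n + 1)).map Nat.castEmbedding)
    fun k hk => (Wc_exact h (by
      by_contra h1
      lift k to ℕ using by omega
      simp at hk; omega)).h_eq, Finset.sum_map,
    ← Finset.sum_fiberwise_of_maps_to (t := Finset.range (n + 1)) (g := q)
      fun a _ => by have := type_le h hπ hn φ hφ a; simp; omega]
  refine Finset.sum_congr rfl fun j _ => ?_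
  rw [Nat.castEmbedding_apply, Int.coe_negOnePow_natCast, ← card_type h hπ hn φ hφ hJ pd hb,
    Finset.sum_congr rfl (g := fun _ => (-1) ^ j) fun a ha => by rw [(Finset.mem_filter.1 ha).2],
    Finset.sum_const, nsmul_eq_mul, mul_comm, Finset.filter_filter]

end Vale.Agent.P269.Hdg
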