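import Vale.Agent.P269.Hdg.ExK
import Vale.Agent.P269.Hdg.ExM2
import Vale.Agent.P269.Hdg.ExM3
import Vale.Agent.P269.Hdg.ExP1
import Vale.Agent.P269.Hdg.ExP3
import Vale.Agent.P269.Hdg.Final

/-!
# The Hodge filtration of a complete intersection is opposed to its conjugate
-/

namespace Vale.Agent.P269.Hdg.Ex

variable {N : ℕ} {ι : Type} [Fintype ι] [DecidableEq ι] {F : ι → MP N} {d : ι → ℕ}
  (h : IsCI F d) {n : ℕ} (hn : n + Fintype.card ι = N)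
include hn

theorem B_of_opp {k p q : ℤ} (e : p + q = k + 1) {u v : SM N} (hu : u ∈ (Ac h).Z k)
    (h1 : u ∈ Fk true p k) (h2 : v ∈ Fk false q k) (h3 : u - v ∈ (Ac h).B k) :
    u ∈ (Ac h).B k := by
  by_cases hk : k < 0
  · exact Cx.nul_le_B ((Ac_nul h).2 (Z0_le_Nl fun _ hx => Ak_neg hk hu.1 hx))
  lift k to ℕ using by omega
  obtain ⟨M, _, _, _, _, ε, b, σ, p', D⟩ := exists_mdl h hn
  obtain ⟨w, hw⟩ := D.exists_isKahler h
  obtain ⟨X, K, hX, hok, hK, key⟩ := kahler_opp hw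
  obtain ⟨y, hy, h4⟩ := Cx.mem_B.1 h3
  obtain ⟨z, hz⟩ := D.exists_Ps hu.1
  obtain ⟨z', hz'⟩ := D.exists_Ps h2.1
  obtain ⟨y', hy'⟩ := D.exists_Ps hy
  have h5 : X.dg k z = z := D.Ps_dg hX hu.1 hz
  obtain ⟨β, hβ⟩ := key p.toNat k z z' y'
    ⟨D.Ps_nul h ((Ac_nul h).1 hu.2) (D.Ps_d hX hz), h5⟩
    (fun j hj => D.Ps_pr hK h1 hz (by omega)) (fun j hj => D.Ps_pr' hK h2 hz' (by omega))
    (sub_eq_zero.1 (D.Ps_nul h ((Ac_nul h).1 h4) ((hz.sub hz').sub (D.Ps_d hX hy'))))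
  cases k with
  | zero =>
    have h6 : z = 0 := by
      rw [← h5, hβ]; exact LinearMap.congr_fun hok.dg0_d β
    exact Cx.nul_le_B ((Ac_nul h).2 (D.Ps_inj h hu.1 (h6 ▸ hz)))
  | succ k =>
    obtain ⟨a, ha, h6⟩ := D.Ps_surj h hX (k := k) (β := X.dg k β)
      (LinearMap.congr_fun ((hok.dg_mul k k).trans (if_pos rfl)) β)
    have h7 : z - X.d (X.dg k β) = 0 := by
      rw [← h5, hβ]; exact sub_eq_zero.2 (LinearMap.congr_fun (hok.dg_d k) β)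
    have h8 := hz.sub (D.Ps_d hX h6)
    rw [h7] at h8
    have h9 : u - DD a ∈ Ak ((k : ℤ) + 1) := sub_mem (show u ∈ Ak _ from hu.1) (DD_Ak ha)
    exact Cx.mem_B.2 ⟨a, show a ∈ Ak _ by simpa using ha, (Ac_nul h).2 (D.Ps_inj h h9 h8)⟩

theorem FH_disjoint {X : Type} [TopologicalSpace X] {π : cone F → X} (hπ : IsProj π)
    {k p q : ℤ} (e : p + q = k + 1) : Disjoint (FH h hπ true p k) (FH h hπ false q k) := by
  refine Submodule.disjoint_def.2 fun c h1 h2 => ?_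
  obtain ⟨u, hu, h3, rfl⟩ := (mem_FH h hπ).1 h1
  obtain ⟨v, hv, h4, h5⟩ := (mem_FH h hπ).1 h2
  rw [(Cx.cl_eq_zero hu).2 (B_of_opp h hn e hu h3 h4
    ((Cx.cl_eq_cl hu hv).1 (cmp_inj h hπ h5.symm))), map_zero]

end Vale.Agent.P269.Hdg.Ex
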