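import Vale.Agent.P269.Hdg.Final
import Vale.Agent.P269.Defs.Vir

/-!
# The Hodge theory of the target `ci F`
-/

namespace Vale.Agent.P269.Hdg

open Topology Filter MvPolynomial Module

variable {N c : ℕ} {F : Fin c → MP N} {d : Fin c → ℕ}

theorem cone_eq (F : Fin c → MP N) : (ci F).cone = cone F := rfl

/-- The projection from the cone to the target. -/
noncomputable def piC (F : Fin c → MP N) : cone F → (ci F).X := fun x => Quo.mk (ci F).act x

theorem ci_act (t : Unit → ℂ) (x : E N) : (ci F).act t x = t () • x := by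
  funext j; simp [Tgt.act, ci]

theorem isProj_ci (F : Fin c → MP N) : IsProj (piC F) where
  quot := isQuotientMap_quot_mk
  fib x y := by
    have e : ∀ x y : cone F, (∃ a : Unit → ℂ, IsUnit a ∧ y.1 = (ci F).act a x.1) ↔
        ∃ t : ℂ, t • x.1 = y.1 := fun x y =>
      ⟨fun ⟨a, _, h⟩ => ⟨a (), by rw [h, ci_act]⟩, fun ⟨t, h⟩ => ⟨fun _ => t,
        Pi.isUnit_iff.2 fun _ => isUnit_iff_ne_zero.2 fun h0 => y.2.1 (by rw [← h, h0, zero_smul]),
        by rw [ci_act, h]⟩⟩
    refine (Quot.eq.trans (Equivalence.eqvGen_iff ⟨fun x => (e x x).2 ⟨1, one_smul _ _⟩,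
      fun {x y} h => ?_, fun {x y z} h h' => ?_⟩)).trans (e x y)
    · obtain ⟨t, ht⟩ := (e x y).1 h
      have : t ≠ 0 := fun h0 => y.2.1 (by rw [← ht, h0, zero_smul])
      exact (e y x).2 ⟨t⁻¹, by rw [← ht, smul_smul, inv_mul_cancel₀ this, one_smul]⟩
    · obtain ⟨t, ht⟩ := (e x y).1 h
      obtain ⟨t', ht'⟩ := (e y z).1 h'
      exact (e x z).2 ⟨t' * t, by rw [mul_smul, ht, ht']⟩

theorem tan_eq (x : E N) : (ci F).tan x = tang F x := by
  ext v; simp [Tgt.tan, tang, ci, mul_comm]

theorem isHodge_ci {p q : ℕ} {a : P291Z.H (ci F).X} :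
    (ci F).IsHodge p q a ↔ IsHodge F (piC F) p q a := by
  refine exists_congr fun a => and_congr (by rw [Nat.cast_add]) (and_congr Iff.rfl
    (forall_congr' fun x => exists_congr fun f => and_congr Iff.rfl (and_congr
      ⟨fun h => h.mono fun _ e => e.symm, fun h => h.mono fun _ e => e.symm⟩ ?_)))
  simp only [tan_eq, form, zsmul_eq_mul]
  exact ⟨fun h t v hv => h v t hv, fun h v t hv => h t v hv⟩

/-- The Jacobian criterion gives `IsCI` when the variety is not empty. -/
theorem isCI_ci (hF : ∀ k, (F k).IsHomogeneous (d k)) (hs : ∀ x ∈ (ci F).cone,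
    LinearIndependent ℂ fun k j => eval x (pderiv j (F k))) (hne : (ci F).cone.Nonempty) :
    IsCI F d := by
  refine ⟨hF, fun k => Nat.one_le_iff_ne_zero.2 fun h0 => ?_, hs⟩
  obtain ⟨x, hx⟩ := hne
  refine (hs x hx).ne_zero k (funext fun j => ?_)
  have := hF k
  rw [h0, ← totalDegree_zero_iff_isHomogeneous, totalDegree_eq_zero_iff_eq_C] at this
  rw [this]; simp

/-- Projective space. -/
noncomputable abbrev PN' (N : ℕ) : Tgt Unit (Fin (N + 1)) (Fin 0) := ci Fin.elim0

theorem cone_subset (F : Fin c → MP N) : (ci F).cone ⊆ (PN' N).cone :=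
  fun _ hy => ⟨hy.1, fun j => j.elim0⟩

/-- The inclusion in projective space. -/
noncomputable def inclP (F : Fin c → MP N) : C((ci F).X, (PN' N).X) :=
  ⟨Quo.incl (ci F).act (cone_subset F), continuous_quot_lift _
    (continuous_quot_mk.comp (continuous_inclusion _))⟩

/-- Classes of degree two restricted from projective space have type `(1, 1)`. -/
theorem is11_ci (h : IsCI F d) {c' : P291Z.H (PN' N).X} (hc : P291Z.H.IsDeg 2 c') :
    Is11 h (isProj_ci F) (P291Z.H.map (inclP F) c') :=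
  is11_of_amb h (isProj_ci F) (isProj_ci Fin.elim0) (inclP F) (fun _ => rfl) hc

end Vale.Agent.P269.Hdg
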