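import Vale.Agent.P269.Hdg.Num

/-!
# Primitive Hodge numbers of complete intersections
-/

namespace Vale.Agent.P269.Hdg

open LaurentPolynomial

/-- The dimension. -/
def dm (N : ℕ) (d : Multiset ℕ) : ℤ := N - d.card

/-- `χ(Ω^r)` with an integer index. -/
noncomputable def cz (N : ℕ) (d : Multiset ℕ) (r : ℤ) : ℤ := if r < 0 then 0 else chiP N d r.toNat

/-- The sign `(-1)^k`. -/
def sn (k : ℤ) : ℤ := (k.negOnePow : ℤˣ)

/-- The primitive Hodge number `h^{r, n - r}`. -/
noncomputable def hp (N : ℕ) (d : Multiset ℕ) (r : ℤ) : ℤ :=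
  sn (dm N d + r) * cz N d r - if 0 ≤ r ∧ r ≤ dm N d then sn (dm N d) else 0

theorem sn_add (k l : ℤ) : sn (k + l) = sn k * sn l := by simp [sn, Int.negOnePow_add]

theorem sn_sub (k l : ℤ) : sn (k - l) = sn k * sn l := by simp [sn, Int.negOnePow_sub]

theorem sn_one : sn 1 = -1 := rfl

theorem sn_zero : sn 0 = 1 := rfl

theorem sn_sq (k : ℤ) : sn k * sn k = 1 := by
  rw [← sn_add, ← two_mul]; simp [sn, Int.negOnePow_two_mul]

theorem sn_nat (k : ℕ) : sn k = (-1) ^ k := Int.coe_negOnePow_natCast k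

variable {N : ℕ} {d : Multiset ℕ} {r : ℤ} {a b : ℕ}

theorem cz_nat (r : ℕ) : cz N d r = chiP N d r := by rw [cz, if_neg (by omega), Int.toNat_natCast]

theorem cz_neg (h : r < 0) : cz N d r = 0 := if_pos h

theorem cz_eq (r : ℤ) : cz N d r =
    (if 0 ≤ r ∧ r ≤ dm N d then sn r else 0) + sn (dm N d + r) * hp N d r := by
  have h1 := sn_sq (dm N d)
  have h2 := sn_sq r
  rw [hp, sn_add]
  split_ifs
  · linear_combination (-(sn r * sn r) * cz N d r + sn r) * h1 - cz N d r * h2
  · linear_combination (-(sn r * sn r) * cz N d r) * h1 - cz N d r * h2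

theorem cz_add (r : ℤ) : cz N (d + {a + b}) r = cz N (d + {a}) r + cz N (d + {b}) r -
    cz N (d + {a, b}) r + cz N (d + {a, b}) (r - 1) - cz N (d + {a, b, a + b}) (r - 1) := by
  rcases lt_trichotomy r 0 with h | rfl | h
  · simp [cz_neg h, cz_neg (show r - 1 < 0 by omega)]
  · simpa [cz_neg (show (-1 : ℤ) < 0 by omega), cz] using chiP_add_zero N d a b
  · obtain ⟨r, rfl⟩ : ∃ s : ℕ, r = (s + 1 : ℕ) := ⟨(r - 1).toNat, by omega⟩
    rw [show ((r + 1 : ℕ) : ℤ) - 1 = r by omega]
    simp only [cz_nat, chiP_add_succ]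

theorem dm_add (e : Multiset ℕ) : dm N (d + e) = dm N d - e.card := by simp [dm]; ring

theorem hp_neg (h : r < 0) : hp N d r = 0 := by rw [hp, cz_neg h, if_neg (by omega)]; simp

theorem hp_add (r : ℤ) : hp N (d + {a + b}) r = hp N (d + {a}) r + hp N (d + {b}) r +
    hp N (d + {a, b}) r + hp N (d + {a, b}) (r - 1) + hp N (d + {a, b, a + b}) (r - 1) +
      if dm N d = 1 ∧ r = 0 then 1 else 0 := by
  simp only [hp, cz_add, dm_add, Multiset.card_singleton, Multiset.insert_eq_cons,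
    Multiset.card_cons, Nat.cast_add, Nat.cast_one, sn_add, sn_sub, sn_one]
  by_cases h : dm N d = 1 ∧ r = 0
  · simp [h.1, h.2, sn_one, sn_zero]; ring
  · split_ifs <;> first | ring1 | omega

theorem hp_one (r : ℤ) : hp (N + 1) (d + {1}) r = hp N d r := by
  have : dm (N + 1) (d + {1}) = dm N d := by simp [dm]
  simp only [hp, cz, this, chiP_one]

theorem hp_zero (r : ℤ) : hp N 0 r = 0 := by
  by_cases h : r < 0
  · exact hp_neg h
  lift r to ℕ using by omega
  rw [hp, cz_nat, chiP_zero, sn_add, ← sn_nat]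
  simp only [dm, Multiset.card_zero, Nat.cast_zero, sub_zero, Nat.cast_le, Nat.cast_nonneg, true_and]
  split_ifs
  · rw [mul_assoc, sn_sq]; simp
  · simp

theorem chiN_kill (N : ℕ) (s : LaurentPolynomial ℤ) : chiN N ((1 - T (-1)) ^ (N + 1) * s) = 0 := by
  induction N with
  | zero =>
    induction s using LaurentPolynomial.induction_on' with
    | add p q hp hq => rw [mul_add, map_add, hp, hq, add_zero]
    | C_mul_T n a =>
      rw [← LaurentPolynomial.smul_eq_C_mul, mul_smul_comm, map_smul, zero_add, pow_one, sub_mul,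
        one_mul, ← T_add, map_sub, chiN_T, chiN_T]
      simp
  | succ N ih => rw [pow_succ', mul_assoc, chiN_succ, ih]

theorem dvd_prod_rSer (d : Multiset ℕ) :
    PowerSeries.C ((1 - T (-1) : LaurentPolynomial ℤ) ^ d.card) ∣ (d.map rSer).prod := by
  induction d using Multiset.induction_on with
  | empty => simp
  | cons a d ih =>
    rw [Multiset.map_cons, Multiset.prod_cons, Multiset.card_cons, pow_succ', map_mul]
    refine mul_dvd_mul (Dvd.dvd.mul_right (map_dvd _ ?_) _) ih
    have := one_sub_dvd_one_sub_pow (T (-1) : LaurentPolynomial ℤ) a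
    rwa [T_pow, mul_neg_one] at this

theorem chiP_big (h : N < d.card) (r : ℕ) : chiP N d r = 0 := by
  obtain ⟨S, hS⟩ := dvd_prod_rSer d
  obtain ⟨k, hk⟩ := Nat.exists_eq_add_of_lt h
  rw [chiP, chiSer, hS, mul_left_comm, PowerSeries.coeff_C_mul, hk, add_right_comm, pow_add,
    mul_assoc, chiN_kill]

theorem hp_of_dm_neg (h : dm N d < 0) (r : ℤ) : hp N d r = 0 := by
  rw [hp, if_neg (by omega), cz, chiP_big (by simp [dm] at h; omega)]; simp

/-- All degrees are positive. -/
def Pos (d : Multiset ℕ) : Prop := ∀ x ∈ d, 1 ≤ x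

theorem pos_add {e : Multiset ℕ} : Pos (d + e) ↔ Pos d ∧ Pos e := by
  simp [Pos, or_imp, forall_and]

theorem Pos.card_le (h : Pos d) : d.card ≤ d.sum := by
  simpa using Multiset.card_nsmul_le_sum h

theorem Pos.split (h : Pos d) (h' : d.card < d.sum) : ∃ o a, 1 ≤ a ∧ Pos o ∧ d = o + {a + 1} := by
  obtain ⟨x, hx, h1⟩ : ∃ x ∈ d, ¬x ≤ 1 := by
    by_contra hc
    have := Multiset.sum_le_card_nsmul d 1 (by simpa using hc)
    simp at this; omega
  obtain ⟨o, rfl⟩ := Multiset.exists_cons_of_mem hx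
  exact ⟨o, x - 1, by omega, fun y hy => h y (by simp [hy]), by
    rw [show x - 1 + 1 = x by omega, add_comm]; rfl⟩

theorem ci_ind {P : ℕ → Multiset ℕ → Prop} (neg : ∀ N d, dm N d < 0 → P N d) (zero : ∀ N, P N 0)
    (one : ∀ N d, Pos d → P N d → P (N + 1) (d + {1}))
    (step : ∀ N d a, Pos d → 1 ≤ a → 1 ≤ dm N d → P N (d + {a}) → P N (d + {1}) →
      P N (d + {a, 1}) → P N (d + {a, 1, a + 1}) → P N (d + {a + 1}))
    (N : ℕ) (d : Multiset ℕ) (hd : Pos d) : P N d := by
  induction h1 : (dm N d + 1).toNat using Nat.strong_induction_on generalizing N d with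
  | _ m ih =>
  induction h2 : d.sum using Nat.strong_induction_on generalizing N d with
  | _ s ih' =>
  by_cases h3 : dm N d < 0
  · exact neg N d h3
  rcases hd.card_le.eq_or_lt with h4 | h4
  · rcases d.empty_or_exists_mem with rfl | ⟨x, hx⟩
    · exact zero N
    obtain ⟨o, rfl⟩ := Multiset.exists_cons_of_mem hx
    have h5 : Pos o := fun y hy => hd y (by simp [hy])
    have h6 := h5.card_le
    have h7 := hd x hx
    simp only [Multiset.card_cons, Multiset.sum_cons, dm] at h1 h2 h3 h4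
    obtain rfl : x = 1 := by omega
    obtain ⟨N, rfl⟩ : ∃ M, N = M + 1 := ⟨N - 1, by omega⟩
    rw [← Multiset.singleton_add, add_comm {1}]
    exact one N o h5 (ih' o.sum (by omega) N o h5 (by simp only [dm]; omega) rfl)
  · obtain ⟨o, a, ha, ho, rfl⟩ := hd.split h4
    simp only [dm_add, Multiset.card_singleton, Multiset.sum_add, Multiset.sum_singleton] at h1 h2 h3
    refine step N o a ho ha (by omega)
      (ih' _ ?_ N _ (pos_add.2 ⟨ho, by simp [Pos, ha]⟩) (by simpa [dm_add] using h1) rfl)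
      (ih' _ ?_ N _ (pos_add.2 ⟨ho, by simp [Pos]⟩) (by simpa [dm_add] using h1) rfl)
      (ih _ ?_ N _ (pos_add.2 ⟨ho, by simp [Pos, ha]⟩) rfl)
      (ih _ ?_ N _ (pos_add.2 ⟨ho, by simp [Pos, ha]⟩) rfl) <;> simp [dm] at * <;> omega

theorem hp_nonneg (hd : Pos d) (r : ℤ) : 0 ≤ hp N d r := by
  revert r
  refine ci_ind (P := fun N d => ∀ r, 0 ≤ hp N d r) ?_ ?_ ?_ ?_ N d hd
  · intro N d h r
    rw [hp_of_dm_neg h]
  · intro N r
    rw [hp_zero]
  · intro N d _ ih r
    rw [hp_one]; exact ih r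
  · intro N d a _ _ _ h1 h2 h3 h4 r
    rw [hp_add]
    have := h1 r; have := h2 r; have := h3 r; have := h3 (r - 1); have := h4 (r - 1)
    split_ifs <;> omega

theorem hp_symm (hd : Pos d) (r : ℤ) : hp N d (dm N d - r) = hp N d r := by
  revert r
  refine ci_ind (P := fun N d => ∀ r, hp N d (dm N d - r) = hp N d r) ?_ ?_ ?_ ?_ N d hd
  · intro N d h r
    rw [hp_of_dm_neg h, hp_of_dm_neg h]
  · intro N r
    rw [hp_zero, hp_zero]
  · intro N d _ ih r
    rw [hp_one, hp_one, ← ih r]; simp [dm]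
  · intro N d a _ _ _ h1 h2 h3 h4 r
    rw [hp_add, hp_add, ← h1 r, ← h2 r, ← h3 r, ← h3 (r - 1), ← h4 (r - 1)]
    simp only [dm_add, Multiset.card_singleton, Multiset.insert_eq_cons, Multiset.card_cons]
    rw [show dm N d - (1 + 1 : ℕ) - r = dm N d - (1 : ℕ) - r - 1 by omega,
      show dm N d - (1 + 1 : ℕ) - (r - 1) = dm N d - (1 : ℕ) - r by omega,
      show dm N d - (1 + 1 + 1 : ℕ) - (r - 1) = dm N d - (1 : ℕ) - r - 1 by omega]
    split_ifs <;> omega

theorem hp_big (hd : Pos d) (h : dm N d < r) : hp N d r = 0 := by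
  rw [← hp_symm hd, hp_neg (by omega)]

/-- There are no gaps. -/
theorem hp_pos_of (hd : Pos d) {r' : ℤ} (h : 0 < hp N d r) (h1 : r ≤ r') (h2 : r' ≤ dm N d - r) :
    0 < hp N d r' := by
  revert r r'
  refine ci_ind (P := fun N d => ∀ {r r' : ℤ}, 0 < hp N d r → r ≤ r' →
    r' ≤ dm N d - r → 0 < hp N d r') ?_ ?_ ?_ ?_ N d hd
  · intro N d h0 r r' h h1 h2
    simp [hp_of_dm_neg h0] at h
  · intro N r r' h h1 h2
    simp [hp_zero] at h
  · intro N d _ ih r r' h h1 h2
    rw [hp_one] at h ⊢; exact ih h h1 (by simpa [dm] using h2)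
  · intro N d a hd ha _ i1 i2 i3 i4 r r' h h1 h2
    have p1 : Pos (d + {a}) := pos_add.2 ⟨hd, by simp [Pos, ha]⟩
    have p2 : Pos (d + {1}) := pos_add.2 ⟨hd, by simp [Pos]⟩
    have p3 : Pos (d + {a, 1}) := pos_add.2 ⟨hd, by simp [Pos, ha]⟩
    have p4 : Pos (d + {a, 1, a + 1}) := pos_add.2 ⟨hd, by simp [Pos, ha]⟩
    have n1 := hp_nonneg (N := N) p1
    have n2 := hp_nonneg (N := N) p2
    have n3 := hp_nonneg (N := N) p3
    have n4 := hp_nonneg (N := N) p4
    have s3 := hp_symm (N := N) p3 r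
    simp only [dm_add, Multiset.card_singleton, Multiset.insert_eq_cons,
      Multiset.card_cons] at h2 i1 i2 i3 i4 s3
    rw [hp_add] at h ⊢
    have j1 := fun h => i1 (r := r) (r' := r') h h1 h2
    have j2 := fun h => i2 (r := r) (r' := r') h h1 h2
    have j3 := fun h h' => i3 (r := r) (r' := r') h h1 h'
    have j3' := fun h => i3 (r := r - 1) (r' := r') h (by omega) (by omega)
    have j4 := fun h => i4 (r := r - 1) (r' := r' - 1) h (by omega) (by omega)
    have := n1 r; have := n2 r; have := n3 r; have := n3 (r - 1); have := n4 (r - 1)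
    have := n1 r'; have := n2 r'; have := n3 r'; have := n3 (r' - 1); have := n4 (r' - 1)
    simp only [Multiset.insert_eq_cons] at *
    by_cases e : r' - 1 = dm N d - (1 + 1 : ℕ) - r
    · rw [← e] at s3
      split_ifs at h ⊢ <;> omega
    · split_ifs at h ⊢ <;> omega

/-! ## Small degrees -/

theorem hp_lin (hd : Pos d) (h : d.sum = d.card) (r : ℤ) : hp N d r = 0 := by
  revert h
  refine ci_ind (P := fun N d => d.sum = d.card → hp N d r = 0) ?_ ?_ ?_ ?_ N d hd
  · intro N d h0 h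
    exact hp_of_dm_neg h0 r
  · intro N h
    exact hp_zero r
  · intro N d _ ih h
    rw [hp_one]; exact ih (by simpa using h)
  · intro N d a hd _ _ _ _ _ _ h
    have := hd.card_le; simp at h; omega

theorem hp_quad (hd : Pos d) (h : d.sum = d.card + 1) (r : ℤ) :
    hp N d r = if 0 ≤ r ∧ 2 * r = dm N d then 1 else 0 := by
  revert h r
  refine ci_ind (P := fun N d => d.sum = d.card + 1 → ∀ r,
    hp N d r = if 0 ≤ r ∧ 2 * r = dm N d then 1 else 0) ?_ ?_ ?_ ?_ N d hd
  · intro N d h0 h r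
    rw [hp_of_dm_neg h0, if_neg (by omega)]
  · intro N h r
    simp at h
  · intro N d _ ih h r
    rw [hp_one, ih (by simp at h; omega), show dm (N + 1) (d + {1}) = dm N d by simp [dm]]
  · intro N d a hd ha _ _ _ _ i4 h r
    have := hd.card_le
    simp only [Multiset.sum_add, Multiset.sum_singleton, Multiset.card_add,
      Multiset.card_singleton] at h
    obtain rfl : a = 1 := by omega
    rw [hp_add, i4 (by simp; omega), hp_lin (pos_add.2 ⟨hd, by simp [Pos]⟩) (by simp; omega),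
      hp_lin (pos_add.2 ⟨hd, by simp [Pos]⟩) (by simp; omega),
      hp_lin (pos_add.2 ⟨hd, by simp [Pos]⟩) (by simp; omega)]
    simp only [dm_add, Multiset.card_singleton, Multiset.insert_eq_cons, Multiset.card_cons]
    split_ifs <;> omega

theorem hp_le (hd : Pos d) (ha : 1 ≤ a) (r : ℤ) : hp N (d + {a}) r + hp N (d + {a, 1}) r ≤
    hp N (d + {a + 1}) r := by
  rw [hp_add]
  have := hp_nonneg (N := N) (pos_add.2 ⟨hd, show Pos {1} by simp [Pos]⟩) r
  have := hp_nonneg (N := N) (pos_add.2 ⟨hd, show Pos {a, 1} by simp [Pos, ha]⟩) (r - 1)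
  have := hp_nonneg (N := N) (pos_add.2 ⟨hd, show Pos {a, 1, a + 1} by simp [Pos, ha]⟩) (r - 1)
  split_ifs <;> omega

theorem hp_pos_even (hd : Pos d) (h : d.card + 1 ≤ d.sum) (h0 : 0 ≤ r) (hr : 2 * r = dm N d) :
    0 < hp N d r := by
  induction h2 : d.sum using Nat.strong_induction_on generalizing d with
  | _ s ih =>
  rcases h.eq_or_lt with h | h
  · rw [hp_quad hd h.symm, if_pos ⟨h0, hr⟩]; exact one_pos
  obtain ⟨o, a, ha, ho, rfl⟩ := hd.split (by omega)
  have h1 := hp_le (N := N) ho ha r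
  have h3 := hp_nonneg (N := N) (pos_add.2 ⟨ho, show Pos {a, 1} by simp [Pos, ha]⟩) r
  have h4 := ih _ (by simp at h2 ⊢; omega) (pos_add.2 ⟨ho, show Pos {a} by simp [Pos, ha]⟩)
    (by simp at h ⊢; omega) (by simpa [dm_add] using hr) rfl
  omega

theorem hp_pos_odd (hd : Pos d) (h : d.card + 2 ≤ d.sum) (h0 : 0 ≤ r) (hr : 2 * r + 1 = dm N d) :
    0 < hp N d r := by
  obtain ⟨o, a, ha, ho, rfl⟩ := hd.split (by omega)
  have h1 := hp_le (N := N) ho ha r
  have h3 := hp_nonneg (N := N) (pos_add.2 ⟨ho, show Pos {a} by simp [Pos, ha]⟩) r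
  have h4 := hp_pos_even (N := N) (pos_add.2 ⟨ho, show Pos {a, 1} by simp [Pos, ha]⟩)
    (by simp at h ⊢; omega) h0 (by simp [dm] at hr ⊢; omega)
  omega

theorem hp_pos_level (hd : Pos d) (h : d.card + 3 ≤ d.sum) (h0 : 0 ≤ r)
    (hr : 2 * r + 2 = dm N d) : 0 < hp N d r := by
  obtain ⟨o, a, ha, ho, rfl⟩ := hd.split (by omega)
  have h1 := hp_le (N := N) ho ha r
  have h3 := hp_nonneg (N := N) (pos_add.2 ⟨ho, show Pos {a} by simp [Pos, ha]⟩) r
  have h4 := hp_pos_odd (N := N) (pos_add.2 ⟨ho, show Pos {a, 1} by simp [Pos, ha]⟩)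
    (by simp at h ⊢; omega) h0 (by simp [dm] at hr ⊢; omega)
  omega

theorem hp_odd_small (hd : Pos d) (h : d.sum ≤ d.card + 1) (ho : Odd (dm N d)) (r : ℤ) :
    hp N d r = 0 := by
  rcases h.eq_or_lt with h | h
  · rw [hp_quad hd h, if_neg]; obtain ⟨k, hk⟩ := ho; omega
  · exact hp_lin hd (by have := hd.card_le; omega) r

theorem hp_ell (hd : Pos d) (h : d.sum = d.card + 2) (h1 : dm N d = 1) (r : ℤ) :
    hp N d r = if r = 0 ∨ r = 1 then 1 else 0 := by
  obtain ⟨o, a, ha, ho, rfl⟩ := hd.split (by omega)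
  simp only [Multiset.sum_add, Multiset.sum_singleton, Multiset.card_add,
    Multiset.card_singleton, dm_add] at h h1
  have p3 : Pos (o + {a, 1}) := pos_add.2 ⟨ho, by simp [Pos, ha]⟩
  rw [hp_add, hp_odd_small (pos_add.2 ⟨ho, by simp [Pos, ha]⟩) (by simp; omega)
      (by rw [dm_add, Multiset.card_singleton, h1]; exact odd_one),
    hp_odd_small (pos_add.2 ⟨ho, by simp [Pos]⟩) (by simp; omega)
      (by rw [dm_add, Multiset.card_singleton, h1]; exact odd_one),
    hp_quad p3 (by simp; omega), hp_quad p3 (by simp; omega),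
    hp_of_dm_neg (by simp [dm] at h1 ⊢; omega)]
  simp only [dm_add, Multiset.insert_eq_cons, Multiset.card_cons, Multiset.card_singleton]
  split_ifs <;> omega

/-! ## The multiset of eigenvalues -/

/-- The holomorphic degrees of a Hodge basis of primitive cohomology. -/
noncomputable def ms (N : ℕ) (d : Multiset ℕ) : Multiset ℤ :=
  ∑ r ∈ Finset.Icc 0 (dm N d), Multiset.replicate (hp N d r).toNat r

theorem count_ms (hd : Pos d) (r : ℤ) : ((ms N d).count r : ℤ) = hp N d r := by
  simp only [ms, Multiset.count_sum', Multiset.count_replicate, Finset.sum_ite_eq',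
    Finset.mem_Icc]
  split_ifs with h
  · exact Int.toNat_of_nonneg (hp_nonneg hd r)
  · by_cases h' : r < 0
    · simp [hp_neg h']
    · simp [hp_big hd (show dm N d < r by omega)]

theorem mem_ms (hd : Pos d) : r ∈ ms N d ↔ 0 < hp N d r := by
  rw [← count_ms hd, ← Multiset.count_pos, Nat.cast_pos]

theorem sum_ms (hd : Pos d) {M : Type} [AddCommGroup M] (f : ℤ → M) :
    ((ms N d).map f).sum = ∑ r ∈ Finset.Icc 0 (dm N d), hp N d r • f r := by
  rw [ms, ← Multiset.coe_mapAddMonoidHom, map_sum, ← Multiset.coe_sumAddMonoidHom, map_sum]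
  refine Finset.sum_congr rfl fun r _ => ?_
  rw [Multiset.coe_mapAddMonoidHom, Multiset.coe_sumAddMonoidHom, Multiset.map_replicate,
    Multiset.sum_replicate, ← natCast_zsmul,
    Int.toNat_of_nonneg (hp_nonneg hd r)]

theorem card_ms (hd : Pos d) : ((ms N d).card : ℤ) = ∑ r ∈ Finset.Icc 0 (dm N d), hp N d r := by
  simpa using sum_ms (N := N) hd fun _ => (1 : ℤ)

theorem ms_add (hd : Pos d) (ha : 1 ≤ a) (hb : 1 ≤ b) (hn : dm N d ≠ 1) :
    ms N (d + {a + b}) = ms N (d + {a}) + ms N (d + {b}) + (ms N (d + {a, b, a + b})).map (· + 1) +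
      ms N (d + {a, b}) + (ms N (d + {a, b})).map (· + 1) := by
  ext r
  have e : ∀ s : Multiset ℤ, (s.map (· + 1)).count r = s.count (r - 1) := fun s => by
    simpa using Multiset.count_map_eq_count' (· + 1) s (add_left_injective 1) (r - 1)
  have p3 : Pos (d + {a, b}) := pos_add.2 ⟨hd, by simp [Pos, ha, hb]⟩
  zify
  simp only [Multiset.count_add, e, Nat.cast_add]
  rw [count_ms (pos_add.2 ⟨hd, by simp [Pos]; omega⟩), count_ms (pos_add.2 ⟨hd, by simp [Pos, ha]⟩),
    count_ms (pos_add.2 ⟨hd, by simp [Pos, hb]⟩), count_ms p3, count_ms p3,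
    count_ms (pos_add.2 ⟨hd, by simp [Pos, ha, hb]; omega⟩), hp_add, if_neg (by omega)]
  ring

/-- The eigenvalues `p - n / 2` of the Hodge grading on primitive cohomology. -/
noncomputable def eig (N : ℕ) (d : Multiset ℕ) : Multiset ℝ :=
  (ms N d).map fun r : ℤ => (r : ℝ) - dm N d / 2

theorem card_eig : (eig N d).card = (ms N d).card := Multiset.card_map _ _

theorem mem_eig (hd : Pos d) {x : ℝ} : x ∈ eig N d ↔ ∃ r, 0 < hp N d r ∧ (r : ℝ) - dm N d / 2 = x := by
  simp only [eig, Multiset.mem_map, mem_ms hd]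

theorem eig_one : eig (N + 1) (d + {1}) = eig N d := by
  have : dm (N + 1) (d + {1}) = dm N d := by simp [dm]
  simp only [eig, ms, this, hp_one]

theorem eig_zero : eig N 0 = 0 := by simp [eig, ms, hp_zero]

theorem eig_of_dm_neg (h : dm N d < 0) : eig N d = 0 := by simp [eig, ms, hp_of_dm_neg h]

theorem eig_neg (hd : Pos d) : (eig N d).map (fun x => -x) = eig N d := by
  have : (ms N d).map (fun r => dm N d - r) = ms N d := by
    ext r
    have := Multiset.count_map_eq_count' (fun r => dm N d - r) (ms N d) sub_right_injective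
      (dm N d - r)
    rw [sub_sub_cancel] at this
    zify
    rw [this, count_ms hd, count_ms hd, hp_symm hd]
  conv_rhs => rw [eig, ← this]
  rw [eig, Multiset.map_map, Multiset.map_map]
  exact Multiset.map_congr rfl fun r _ => by simp; ring

/-- The eigenvalues that come from the two components. -/
noncomputable def eigW (N : ℕ) (d : Multiset ℕ) (a b : ℕ) : Multiset ℝ :=
  eig N (d + {a}) + eig N (d + {b}) + eig N (d + {a, b, a + b})

theorem eig_add (hd : Pos d) (ha : 1 ≤ a) (hb : 1 ≤ b) (hn : dm N d ≠ 1) :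
    eig N (d + {a + b}) = eigW N d a b + (eig N (d + {a, b})).map (· - 1 / 2) +
      (eig N (d + {a, b})).map (· + 1 / 2) := by
  simp only [eigW, eig, ms_add hd ha hb hn, Multiset.map_add, Multiset.map_map, dm_add,
    Multiset.insert_eq_cons, Multiset.card_cons, Multiset.card_singleton]
  congr 1
  · congr 1
    · congr 1
      exact Multiset.map_congr rfl fun r _ => by simp; ring
    · exact Multiset.map_congr rfl fun r _ => by simp; ring
  · exact Multiset.map_congr rfl fun r _ => by simp; ring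

/-- The supertrace of `f (μ)` on the total cohomology. -/
noncomputable def st (N : ℕ) (d : Multiset ℕ) {M : Type} [AddCommGroup M] (f : ℝ → M) : M :=
  ∑ j ∈ Finset.range (dm N d + 1).toNat, f (j - dm N d / 2) + sn (dm N d) • ((eig N d).map f).sum

theorem st_add (hd : Pos d) (ha : 1 ≤ a) (hb : 1 ≤ b) (hn : 2 ≤ dm N d) {M : Type}
    [AddCommGroup M] (f : ℝ → M) : st N (d + {a + b}) f = st N (d + {a}) f +
      st N (d + {a, b, a + b}) f + st N (d + {b}) f - st N (d + {a, b}) (fun x => f (x - 1 / 2)) -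
        st N (d + {a, b}) fun x => f (x + 1 / 2) := by
  obtain ⟨m, hm⟩ : ∃ m : ℕ, dm N d = m + 2 := ⟨(dm N d - 2).toNat, by omega⟩
  simp only [st, eig_add (N := N) hd ha hb (by omega), eigW, Multiset.map_add, Multiset.sum_add,
    Multiset.map_map, dm_add, Multiset.insert_eq_cons, Multiset.card_cons, Multiset.card_singleton,
    hm, sn_sub, sn_nat, Function.comp_def]
  rw [show ((m : ℤ) + 2 - (1 : ℕ) + 1).toNat = m + 1 + 1 by omega,
    show ((m : ℤ) + 2 - (1 + 1 : ℕ) + 1).toNat = m + 1 by omega,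
    show ((m : ℤ) + 2 - (1 + 1 + 1 : ℕ) + 1).toNat = m by omega]
  let g : ℕ → M := fun j => f (j - ((m : ℤ) + 2 - (1 : ℕ) : ℤ) / 2)
  have e1 : ∑ j ∈ Finset.range (m + 1), f (j - ((m : ℤ) + 2 - (1 + 1 : ℕ) : ℤ) / 2 - 1 / 2) =
      ∑ j ∈ Finset.range (m + 1), g j := Finset.sum_congr rfl fun j _ => by
    simp only [g]; congr 1; push_cast; ring
  have e2 : ∑ j ∈ Finset.range (m + 1), f (j - ((m : ℤ) + 2 - (1 + 1 : ℕ) : ℤ) / 2 + 1 / 2) =
      ∑ j ∈ Finset.range (m + 1), g (j + 1) := Finset.sum_congr rfl fun j _ => by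
    simp only [g]; congr 1; push_cast; ring
  have e3 : ∑ j ∈ Finset.range m, f (j - ((m : ℤ) + 2 - (1 + 1 + 1 : ℕ) : ℤ) / 2) =
      ∑ j ∈ Finset.range m, g (j + 1) := Finset.sum_congr rfl fun j _ => by
    simp only [g]; congr 1; push_cast; ring
  rw [e1, e2, e3, Finset.sum_range_succ g, Finset.sum_range_succ fun j => g (j + 1)]
  simp only [smul_add, pow_succ, pow_zero, mul_neg, mul_one, neg_neg, neg_smul]
  abel

theorem st_eq (hd : Pos d) {n : ℕ} (hn : dm N d = n) {M : Type} [AddCommGroup M] (f : ℝ → M) :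
    st N d f = ∑ r ∈ Finset.range (n + 1), ((-1) ^ r * chiP N d r) • f (r - n / 2) := by
  rw [st, eig, Multiset.map_map, sum_ms hd, hn, Int.toNat_natCast_add_one, Finset.smul_sum,
    show Finset.Icc (0 : ℤ) n = (Finset.range (n + 1)).map Nat.castEmbedding by
      ext r
      simp only [Finset.mem_Icc, Finset.mem_map, Finset.mem_range, Nat.castEmbedding_apply]
      exact ⟨fun h => ⟨r.toNat, by omega, by omega⟩, fun ⟨_, _, _⟩ => by omega⟩,
    Finset.sum_map, ← Finset.sum_add_distrib]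
  refine Finset.sum_congr rfl fun r hr => ?_
  rw [← cz_nat, cz_eq, hn, if_pos (by have := Finset.mem_range.1 hr; omega), ← sn_nat, mul_add,
    sn_sq, add_smul, one_smul, sn_add, smul_smul]
  simp only [Nat.castEmbedding_apply, Function.comp_apply, Int.cast_natCast]
  congr 2
  linear_combination (-(sn n) * hp N d r) * sn_sq r

end Vale.Agent.P269.Hdg
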