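import Vale.Agent.P269.Hdg.Final
import Vale.Agent.P269.Hdg.Prim

/-!
# Betti numbers and Hodge numbers in terms of the primitive Hodge numbers
-/

namespace Vale.Agent.P269.Hdg

open Module

variable {N : ℕ} {ι : Type} [Fintype ι] [DecidableEq ι] {F : ι → MP N} {d : ι → ℕ}
  {X : Type} [TopologicalSpace X] {π : cone F → X} (h : IsCI F d) (hπ : IsProj π)
  {n : ℕ} (hn : n + Fintype.card ι = N)

omit [DecidableEq ι] in
theorem coe_degL : (degL d : Multiset ℕ) = Finset.univ.val.map d := by
  rw [degL, ← Multiset.map_coe, Finset.coe_toList]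

omit [DecidableEq ι] in
include h in
theorem IsCI.pos_map : Pos (Finset.univ.val.map d) := fun x hx => by
  obtain ⟨j, -, rfl⟩ := Multiset.mem_map.1 hx; exact h.pos j

omit [DecidableEq ι] in
include hn in
theorem dm_map : dm N (Finset.univ.val.map d) = n := by simp [dm]; omega

include h hπ hn

/-- The topological Euler characteristic. -/
theorem euler_deg : ∑ k ∈ Finset.range (2 * n + 1), (-1 : ℤ) ^ k * finrank ℂ (P291Z.H.deg X k) =
    ∑ r ∈ Finset.range (n + 1), (-1) ^ r * chiP N (Finset.univ.val.map d) r := by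
  rw [← coe_degL, ← Ac_chi h hn, Cx.chi_eq_sum ((Finset.range (2 * n + 1)).map Nat.castEmbedding)
    fun k hk => (Ac_exact h (by
      by_contra h1
      lift k to ℕ using by omega
      simp at hk; omega)).h_eq, Finset.sum_map]
  refine Finset.sum_congr rfl fun k _ => ?_
  rw [Nat.castEmbedding_apply, Int.coe_negOnePow_natCast, finrank_deg h hπ]

/-- The middle Betti number. -/
theorem finrank_mid (hb : ∀ j ≤ n, ∃ c : P291Z.H X, P291Z.H.IsDeg (2 * j : ℕ) c ∧ c ≠ 0) :
    finrank ℂ (P291Z.H.deg X n) =
      (if Even n then 1 else 0) + (eig N (Finset.univ.val.map d)).card := by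
  have h1 := euler_deg h hπ hn
  have h2 := st_eq h.pos_map (dm_map hn) fun _ => (1 : ℤ)
  simp only [smul_eq_mul, mul_one, st, dm_map hn, Int.toNat_natCast_add_one, Finset.sum_const,
    Finset.card_range, Multiset.map_const', Multiset.sum_replicate, sn_nat, nsmul_eq_mul] at h2
  have h3 : ∀ m : ℕ, ∑ k ∈ Finset.range (2 * m + 1), (if Even k then 1 else 0 : ℤ) = m + 1 := by
    intro m
    induction m with
    | zero => rw [mul_zero, zero_add, Finset.sum_range_one]; simp
    | succ m ih =>
      rw [show 2 * (m + 1) + 1 = 2 * m + 1 + 1 + 1 by ring, Finset.sum_range_succ,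
        Finset.sum_range_succ, ih, if_neg (by simp), if_pos (by simp [Nat.even_add_one])]
      push_cast; ring
  have h4 : ∑ k ∈ Finset.range (2 * n + 1), ((-1 : ℤ) ^ k * finrank ℂ (P291Z.H.deg X k) -
      if Even k then 1 else 0) =
      (-1 : ℤ) ^ n * finrank ℂ (P291Z.H.deg X n) - if Even n then 1 else 0 := by
    refine Finset.sum_eq_single_of_mem n (by simp; omega) fun k hk hkn => ?_
    have := Finset.mem_range.1 hk
    rw [lefschetz h hπ hn hb (by omega)]
    by_cases e : Even k
    · rw [if_pos ⟨by exact_mod_cast e, by omega, by omega⟩, if_pos e, e.neg_one_pow]; simp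
    · rw [if_neg fun e' => e (by exact_mod_cast e'.1), if_neg e]; simp
  rw [Finset.sum_sub_distrib, h1, ← h2, h3] at h4
  zify
  rcases Nat.even_or_odd n with e | e
  · rw [e.neg_one_pow] at h4; simp only [if_pos e] at h4 ⊢; push_cast at h4 ⊢; linarith
  · rw [e.neg_one_pow] at h4
    simp only [if_neg (Nat.not_even_iff_odd.2 e)] at h4 ⊢; push_cast at h4 ⊢; linarith

variable {B : Type} [Fintype B] (φ : Basis B ℂ (P291Z.H X)) {p q : B → ℕ}
  (hφ : ∀ a, IsHodge F π (p a) (q a) (φ a)) {J : P291Z.H X →ₗ[ℂ] ℂ}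
  (hJ : ∀ k c, k ≠ 2 * (n : ℤ) → P291Z.H.IsDeg k c → J c = 0)
  (pd : ∀ c, (∀ c', J (c * c') = 0) → c = 0)
  (hb : ∀ j ≤ n, ∃ c : P291Z.H X, P291Z.H.IsDeg (2 * j : ℕ) c ∧ c ≠ 0)
include hφ hJ pd hb

/-- The supertrace of a function of the grading operator. -/
theorem str_hodge {M : Type} [AddCommGroup M] (f : ℝ → M) :
    ∑ a, (-1 : ℤ) ^ (p a + q a) • f (p a - n / 2) = st N (Finset.univ.val.map d) f := by
  rw [st_eq h.pos_map (dm_map hn), ← Finset.sum_fiberwise_of_maps_to (t := Finset.range (n + 1))
    (g := p) fun a _ => by have := type_le h hπ hn φ hφ a; simp; omega]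
  refine Finset.sum_congr rfl fun r _ => ?_
  rw [← hodge_count h hπ hn φ hφ hJ pd hb, Finset.mul_sum, Finset.sum_smul]
  exact Finset.sum_congr rfl fun a ha => by rw [(Finset.mem_filter.1 ha).2, pow_add]

/-- The Hodge numbers in the middle degree. -/
theorem card_mid (r : ℕ) : ((Finset.univ.filter fun a => p a = r ∧ p a + q a = n).card : ℤ) =
    hp N (Finset.univ.val.map d) r + if 2 * r = n then 1 else 0 := by
  by_cases hr : n < r
  · rw [hp_big h.pos_map (by rw [dm_map hn]; omega), if_neg (by omega),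
      Finset.filter_false_of_mem fun a _ => by omega]; rfl
  have h1 := hodge_count h hπ hn φ hφ hJ pd hb r
  rw [← Finset.sum_filter_add_sum_filter_not _ fun a => p a + q a = n, Finset.filter_filter,
    Finset.filter_filter, Finset.sum_congr rfl (g := fun _ => (-1 : ℤ) ^ (n - r)) fun a ha => by
      have := (Finset.mem_filter.1 ha).2; rw [show q a = n - r by omega],
    Finset.sum_congr rfl (s₁ := Finset.univ.filter fun a => p a = r ∧ ¬p a + q a = n)
      (g := fun _ => (-1 : ℤ) ^ r) fun a ha => by
        have := (Finset.mem_filter.1 ha).2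
        rw [← type_eq h hπ hn φ hφ hJ pd this.2, this.1],
    Finset.sum_const, Finset.sum_const, ← cz_nat, cz_eq, dm_map hn, if_pos (by omega), sn_add,
    sn_nat, sn_nat, nsmul_eq_mul, nsmul_eq_mul] at h1
  have h2 : (Finset.univ.filter fun a => p a = r ∧ ¬p a + q a = n).card =
      if 2 * r = n then 0 else 1 := by
    split_ifs with e
    · rw [Finset.card_eq_zero, Finset.filter_eq_empty_iff]
      intro a _ ha
      have := type_eq h hπ hn φ hφ hJ pd ha.2
      omega
    · rw [← card_diag h hπ hn φ hφ hJ pd hb (j := r) (by omega) e]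
      congr 1
      refine Finset.filter_congr fun a _ => ⟨fun ha => ?_, fun ha => by omega⟩
      have := type_eq h hπ hn φ hφ hJ pd ha.2
      omega
  obtain ⟨s, rfl⟩ : ∃ s, n = r + s := ⟨n - r, by omega⟩
  have h3 : ((-1 : ℤ) ^ r) * (-1) ^ r = 1 := by rw [← mul_pow]; simp
  have h4 : ((-1 : ℤ) ^ s) * (-1) ^ s = 1 := by rw [← mul_pow]; simp
  rw [h2, add_tsub_cancel_left, pow_add] at h1
  split_ifs at h1 ⊢ with e
  · obtain rfl : s = r := by omega
    push_cast at h1
    linear_combination (-1) ^ s * h1 + (1 + (1 + (-1) ^ s * (-1) ^ s) * hp N _ s - _) * h4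
  · push_cast at h1
    linear_combination (-1) ^ s * h1 + ((-1) ^ s * (-1) ^ s * hp N _ r) * h3 + (hp N _ r - _) * h4

/-- The eigenvalues of the grading operator in the middle degree. -/
theorem eig_mid : (Finset.univ.filter fun a => p a + q a = n).val.map
    (fun a => (p a : ℝ) - n / 2) = eig N (Finset.univ.val.map d) + if Even n then {0} else 0 := by
  have e : (Finset.univ.filter fun a => p a + q a = n).val.map (fun a => (p a : ℤ)) =
      ms N (Finset.univ.val.map d) + if Even n then {(n / 2 : ℤ)} else 0 := by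
    ext r
    zify
    rw [Multiset.count_add, Nat.cast_add, count_ms h.pos_map, Multiset.count_map]
    by_cases hr : r < 0
    · rw [hp_neg hr, Multiset.filter_eq_nil.2 fun a _ => by omega]
      split_ifs <;> simp [Multiset.count_singleton]; omega
    lift r to ℕ using by omega
    have h1 := card_mid h hπ hn φ hφ hJ pd hb r
    rw [← Finset.filter_val, Finset.card_val, Finset.filter_filter,
      Finset.filter_congr (q := fun a => p a = r ∧ p a + q a = n) fun a _ => by omega, h1]
    simp only [Nat.even_iff]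
    split_ifs <;> simp [Multiset.count_singleton] <;> omega
  have := congrArg (Multiset.map fun r : ℤ => (r : ℝ) - n / 2) e
  rw [Multiset.map_map, Multiset.map_add] at this
  rw [eig, dm_map hn]
  refine this.trans (congrArg₂ _ rfl ?_)
  split_ifs with e'
  · obtain ⟨k, rfl⟩ := e'
    rw [Multiset.map_singleton, show ((k + k : ℕ) : ℤ) / 2 = k by omega]; simp
  · rfl

end Vale.Agent.P269.Hdg
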