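import Mathlib

/-!
# The Hirzebruch `χ_y` numbers of complete intersections: definitions
-/

namespace Vale.Agent.P269.Hdg

open PowerSeries LaurentPolynomial

/-- `1 / (1 + u y)`. -/
noncomputable def geo {R : Type} [CommRing R] (u : R) : PowerSeries R := PowerSeries.mk fun n => (-u) ^ n

/-- `(1 - L^{-e}) / (1 + y L^{-e})`. -/
noncomputable def rSer (e : ℕ) : PowerSeries (LaurentPolynomial ℤ) :=
  PowerSeries.C (1 - T (-(e : ℤ))) * geo (T (-(e : ℤ)))

/-- `(1 + y L^{-1})^{N+1} / (1 + y) * ∏ (1 - L^{-d_j}) / (1 + y L^{-d_j})`. -/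
noncomputable def chiSer (N : ℕ) (d : Multiset ℕ) : PowerSeries (LaurentPolynomial ℤ) :=
  (1 + PowerSeries.C (T (-1)) * PowerSeries.X) ^ (N + 1) * geo 1 * (d.map rSer).prod

/-- The Euler characteristic on `ℙ^N`: `L^k ↦ binom (N + k) N`. -/
noncomputable def chiN (N : ℕ) : LaurentPolynomial ℤ →ₗ[ℤ] ℤ :=
  (Finsupp.linearCombination ℤ fun k : ℤ => Ring.choose (k + N) N).comp
    (AddMonoidAlgebra.coeffLinearEquiv ℤ).toLinearMap

/-- `χ(X, Ω^p)` for a complete intersection of multidegree `d` in `ℙ^N`. -/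
noncomputable def chiP (N : ℕ) (d : Multiset ℕ) (p : ℕ) : ℤ :=
  chiN N (PowerSeries.coeff p (chiSer N d))

end Vale.Agent.P269.Hdg
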