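import Vale.Agent.P269.Hdg.Defs

/-!
# The exterior algebra of the complexified cotangent space of `ℂ^{N+1}`
-/

namespace Vale.Agent.P269.Hdg

open scoped ComplexConjugate
open Complex (I)

variable {N : ℕ}

/-- Complexified covectors. -/
abbrev W (N : ℕ) : Type := E N →L[ℝ] ℂ

/-- The exterior algebra. -/
def Λ (N : ℕ) : Type := ExteriorAlgebra ℂ (W N)

noncomputable instance : Ring (Λ N) := inferInstanceAs (Ring (ExteriorAlgebra ℂ (W N)))

noncomputable instance : Algebra ℂ (Λ N) := inferInstanceAs (Algebra ℂ (ExteriorAlgebra ℂ (W N)))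

instance : FiniteDimensional ℂ (W N) := by
  have : Module.Finite ℝ (W N) := inferInstance
  exact Module.Finite.of_restrictScalars_finite ℝ ℂ (W N)

/-- A basis of the exterior algebra. -/
noncomputable def bΛ (N : ℕ) : Module.Basis (Finset (Fin (Module.finrank ℂ (W N)))) ℂ (Λ N) :=
  (Module.finBasis ℂ (W N)).ExteriorAlgebra

instance : FiniteDimensional ℂ (Λ N) := Module.Finite.of_basis (bΛ N)

attribute [local instance] Matrix.linftyOpNormedRing Matrix.linftyOpNormedAlgebra in
noncomputable instance : NormedRing (Λ N) :=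
  NormedRing.induced (Λ N) _ (Algebra.leftMulMatrix (bΛ N)) (Algebra.leftMulMatrix_injective _)

attribute [local instance] Matrix.linftyOpNormedRing Matrix.linftyOpNormedAlgebra in
noncomputable instance : NormedAlgebra ℂ (Λ N) :=
  NormedAlgebra.induced ℂ (Λ N) _ (Algebra.leftMulMatrix (bΛ N))

instance : CompleteSpace (Λ N) := FiniteDimensional.complete ℂ _

instance : FiniteDimensional ℝ (Λ N) := Module.Finite.trans ℂ (Λ N)

/-- One-forms. -/
noncomputable def io : W N →ₗ[ℂ] Λ N := ExteriorAlgebra.ι ℂ

/-- Contraction. -/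
noncomputable def ct : Module.Dual ℂ (W N) →ₗ[ℂ] Λ N →ₗ[ℂ] Λ N :=
  CliffordAlgebra.contractLeft (Q := (0 : QuadraticForm ℂ (W N)))

/-- Functoriality. -/
noncomputable def mp (A : W N →ₗ[ℂ] W N) : Λ N →ₐ[ℂ] Λ N := ExteriorAlgebra.map A

/-- The parity involution. -/
noncomputable def par : Λ N →ₐ[ℂ] Λ N := mp (-LinearMap.id)

theorem io_sq (w : W N) : io w * io w = 0 := ExteriorAlgebra.ι_sq_zero w

theorem io_swap (v w : W N) : io v * io w = -(io w * io v) :=
  eq_neg_of_add_eq_zero_left (ExteriorAlgebra.ι_add_mul_swap v w)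

theorem io_io (w : W N) (a : Λ N) : io w * (io w * a) = 0 := by
  rw [← mul_assoc, io_sq, zero_mul]

theorem io_io_swap (v w : W N) (a : Λ N) : io v * (io w * a) = -(io w * (io v * a)) := by
  rw [← mul_assoc, io_swap, neg_mul, mul_assoc]

theorem ct_io_mul (f : Module.Dual ℂ (W N)) (w : W N) (a : Λ N) :
    ct f (io w * a) = f w • a - io w * ct f a := CliffordAlgebra.contractLeft_ι_mul f w a

theorem ct_one (f : Module.Dual ℂ (W N)) : ct f (1 : Λ N) = 0 :=
  CliffordAlgebra.contractLeft_one _ f

theorem ct_io (f : Module.Dual ℂ (W N)) (w : W N) : ct f (io w) = f w • (1 : Λ N) := by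
  have := ct_io_mul f w 1
  rwa [mul_one, ct_one, mul_zero, sub_zero] at this

theorem ct_ct (f : Module.Dual ℂ (W N)) (a : Λ N) : ct f (ct f a) = 0 :=
  CliffordAlgebra.contractLeft_contractLeft f a

theorem ct_comm (f g : Module.Dual ℂ (W N)) (a : Λ N) : ct f (ct g a) = -ct g (ct f a) :=
  CliffordAlgebra.contractLeft_comm f g a

theorem mp_io (A : W N →ₗ[ℂ] W N) (w : W N) : mp A (io w) = io (A w) :=
  ExteriorAlgebra.map_apply_ι A w

theorem ind {P : Λ N → Prop} (one : P 1) (smul : ∀ (c : ℂ) a, P a → P (c • a))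
    (add : ∀ a b, P a → P b → P (a + b)) (mul : ∀ w a, P a → P (io w * a)) (a : Λ N) : P a := by
  refine CliffordAlgebra.left_induction (Q := (0 : QuadraticForm ℂ (W N))) (P := P) ?_ add
    (fun a w h => mul w a h) a
  intro r
  have := smul r 1 one
  rwa [← Algebra.algebraMap_eq_smul_one] at this

/-- Two linear maps out of the exterior algebra agree if they agree at one and the equality is
inherited by left multiplication with one-forms. -/
theorem ind_eq {M : Type} [AddCommGroup M] [Module ℂ M] (f g : Λ N →ₗ[ℂ] M) (one : f 1 = g 1)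
    (mul : ∀ w a, f a = g a → f (io w * a) = g (io w * a)) (a : Λ N) : f a = g a :=
  ind (P := fun a => f a = g a) one (fun c a h => by rw [map_smul, map_smul, h])
    (fun a b ha hb => by rw [map_add, map_add, ha, hb]) mul a

theorem mp_mp (A B : W N →ₗ[ℂ] W N) (a : Λ N) : mp A (mp B a) = mp (A ∘ₗ B) a := by
  have := ExteriorAlgebra.map_comp_map B A
  exact DFunLike.congr_fun this a

theorem mp_id (a : Λ N) : mp LinearMap.id a = a := by
  have := ExteriorAlgebra.map_id (R := ℂ) (M := W N)
  exact DFunLike.congr_fun this a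

theorem par_io (w : W N) : par (io w) = -io w := by
  simp [par, mp_io]

theorem par_par (a : Λ N) : par (par a) = a := by
  unfold par; rw [mp_mp]
  have : (-LinearMap.id : W N →ₗ[ℂ] W N) ∘ₗ (-LinearMap.id) = LinearMap.id := by ext; simp
  rw [this, mp_id]

theorem par_mp (A : W N →ₗ[ℂ] W N) (a : Λ N) : par (mp A a) = mp A (par a) := by
  unfold par; rw [mp_mp, mp_mp]; simp

theorem io_mul_par (w : W N) (a : Λ N) : io w * par a = a * io w := by
  induction a using ind with
  | one => simp
  | smul c a h => simp [h]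
  | add a b ha hb => simp [mul_add, add_mul, ha, hb]
  | mul v a h => rw [map_mul, par_io, neg_mul, mul_neg, io_io_swap, neg_neg, h, mul_assoc]

theorem io_mul_eq (w : W N) (a : Λ N) : io w * a = par a * io w := by
  rw [← io_mul_par, par_par]

theorem ct_mul (f : Module.Dual ℂ (W N)) (a b : Λ N) :
    ct f (a * b) = ct f a * b + par a * ct f b := by
  induction a using ind with
  | one => simp [ct_one]
  | smul c a h => simp [h]
  | add a a' ha hb => simp only [add_mul, map_add, ha, hb]; abel
  | mul v a h =>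
    rw [mul_assoc, ct_io_mul, h, ct_io_mul, map_mul, par_io]
    simp only [mul_add, sub_mul, smul_mul_assoc, mul_assoc, neg_mul]; abel

theorem ct_mp (f : Module.Dual ℂ (W N)) (A : W N →ₗ[ℂ] W N) (a : Λ N) :
    ct f (mp A a) = mp A (ct (f ∘ₗ A) a) := by
  induction a using ind with
  | one => simp [ct_one]
  | smul c a h => simp [h]
  | add a a' ha hb => simp only [map_add, ha, hb]
  | mul v a h => rw [map_mul, mp_io, ct_io_mul, ct_io_mul, h]; simp [mp_io]

theorem ct_par (f : Module.Dual ℂ (W N)) (a : Λ N) : ct f (par a) = -par (ct f a) := by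
  unfold par; rw [ct_mp]; simp

/-- A rank one perturbation of the identity. -/
theorem mp_rank_one (f : Module.Dual ℂ (W N)) (w : W N) (a : Λ N) :
    mp (LinearMap.id + f.smulRight w) a = a + io w * ct f a := by
  induction a using ind with
  | one => simp [ct_one]
  | smul c a h => simp [h]
  | add a a' ha hb => simp only [map_add, ha, hb, mul_add]; abel
  | mul v a h =>
    rw [map_mul, mp_io, h, ct_io_mul]
    simp only [LinearMap.add_apply, LinearMap.id_apply, LinearMap.smulRight_apply, map_add,
      map_smul, add_mul, mul_add, smul_mul_assoc, io_io, mul_sub, mul_smul_comm, smul_zero]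
    rw [io_io_swap w v]; abel

/-! ## Holomorphic and antiholomorphic directions -/

/-- The identity (`true`) or complex conjugation (`false`). -/
noncomputable def sg (s : Bool) : ℂ →+* ℂ := if s then RingHom.id ℂ else starRingEnd ℂ

/-- `sg` as a real linear map. -/
noncomputable def sgL (s : Bool) : ℂ →L[ℝ] ℂ :=
  if s then ContinuousLinearMap.id ℝ ℂ else Complex.conjCLE.toContinuousLinearMap

@[simp] theorem sg_true (z : ℂ) : sg true z = z := rfl
@[simp] theorem sg_false (z : ℂ) : sg false z = conj z := rfl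
@[simp] theorem sgL_apply (s : Bool) (z : ℂ) : sgL s z = sg s z := by cases s <;> rfl

theorem sg_ofReal (s : Bool) (r : ℝ) : sg s (r : ℂ) = r := by cases s <;> simp

theorem sg_ne_zero (s : Bool) {z : ℂ} (hz : z ≠ 0) : sg s z ≠ 0 := by cases s <;> simpa

theorem norm_sg (s : Bool) (z : ℂ) : ‖sg s z‖ = ‖z‖ := by cases s <;> simp

/-- The covector `ℓ` or its conjugate. -/
noncomputable def cv (s : Bool) (l : E N →L[ℂ] ℂ) : W N := (sgL s).comp (l.restrictScalars ℝ)

@[simp] theorem cv_apply (s : Bool) (l : E N →L[ℂ] ℂ) (x : E N) : cv s l x = sg s (l x) := by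
  simp [cv]

/-- The basis covectors `dz_j`, `d\bar z_j`. -/
noncomputable def dz (s : Bool) (j : Fin (N + 1)) : W N := cv s (ContinuousLinearMap.proj j)

@[simp] theorem dz_apply (s : Bool) (j : Fin (N + 1)) (x : E N) : dz s j x = sg s (x j) := by
  simp [dz]

/-- The basis vectors. -/
noncomputable def ee (j : Fin (N + 1)) : E N := Pi.single j 1

/-- The `(1,0)` or `(0,1)` part of a real vector, as a functional on covectors. -/
noncomputable def vec (s : Bool) (v : E N) : Module.Dual ℂ (W N) where
  toFun w := (w v - sg s I * w (I • v)) / 2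
  map_add' a b := by simp; ring
  map_smul' c a := by simp; ring

theorem vec_apply (s : Bool) (v : E N) (w : W N) :
    vec s v w = (w v - sg s I * w (I • v)) / 2 := rfl

theorem W_smul (w : W N) (t : ℂ) (v : E N) : w (t • v) = t.re * w v + t.im * w (I • v) := by
  have : t • v = t.re • v + t.im • (I • v) := by
    conv_lhs => rw [← Complex.re_add_im t]
    rw [add_smul, mul_smul]; rfl
  rw [this, map_add, map_smul, map_smul]; simp

theorem vec_smul (s : Bool) (t : ℂ) (v : E N) : vec s (t • v) = sg s t • vec s v := by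
  ext w
  simp only [vec_apply, LinearMap.smul_apply, smul_eq_mul]
  rw [smul_smul, W_smul w t, W_smul w (I * t)]
  obtain ⟨a, b⟩ := t
  rw [Complex.mk_eq_add_mul_I]
  cases s
  · simp
    linear_combination ((b : ℂ) * w (I • v) / 2) * Complex.I_mul_I
  · simp
    linear_combination ((b : ℂ) * w (I • v) / 2) * Complex.I_mul_I

theorem vec_add (s : Bool) (u v : E N) : vec s (u + v) = vec s u + vec s v := by
  ext w; simp [vec_apply]; ring

theorem vec_zero (s : Bool) : vec s (0 : E N) = 0 := by
  ext w; simp [vec_apply]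

theorem vec_sum (s : Bool) {α : Type} (t : Finset α) (v : α → E N) :
    vec s (∑ a ∈ t, v a) = ∑ a ∈ t, vec s (v a) := by
  classical
  induction t using Finset.induction_on with
  | empty => simp [vec_zero]
  | insert a t ha ih => rw [Finset.sum_insert ha, Finset.sum_insert ha, vec_add, ih]

theorem vec_cv (s s' : Bool) (v : E N) (l : E N →L[ℂ] ℂ) :
    vec s v (cv s' l) = if s = s' then sg s (l v) else 0 := by
  simp only [vec_apply, cv_apply, map_smul, smul_eq_mul, map_mul]
  cases s <;> cases s' <;> simp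
  · linear_combination (-(conj (l v)) / 2) * Complex.I_mul_I
  · linear_combination (l v) * Complex.I_mul_I
  · linear_combination (conj (l v)) * Complex.I_mul_I
  · linear_combination (-(l v) / 2) * Complex.I_mul_I

theorem vec_dz (s s' : Bool) (v : E N) (j : Fin (N + 1)) :
    vec s v (dz s' j) = if s = s' then sg s (v j) else 0 := vec_cv s s' v _

theorem vec_ee_dz (s s' : Bool) (i j : Fin (N + 1)) :
    vec s (ee i) (dz s' j) = if s = s' ∧ i = j then 1 else 0 := by
  rw [vec_dz]
  by_cases h : s = s' <;> by_cases h' : i = j <;> simp [h, h', ee, Ne.symm]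

theorem sum_ee (v : E N) : ∑ j, v j • ee j = v := by
  funext i; simp [ee, Finset.sum_apply, Pi.single_apply]

theorem vec_eq_sum (s : Bool) (v : E N) : vec s v = ∑ j, sg s (v j) • vec s (ee j) := by
  conv_lhs => rw [← sum_ee v, vec_sum]
  simp [vec_smul]

theorem vec_add_vec (v : E N) (w : W N) : vec true v w + vec false v w = w v := by
  simp [vec_apply]; ring

/-- Projection to the linear or antilinear part. -/
noncomputable def pr (s : Bool) : W N →ₗ[ℂ] W N := ∑ j, (vec s (ee j)).smulRight (dz s j)

theorem pr_eq (s : Bool) (w : W N) : pr s w = ∑ j, vec s (ee j) w • dz s j := by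
  simp [pr]

theorem pr_apply (s : Bool) (w : W N) (v : E N) : pr s w v = vec s v w := by
  rw [pr_eq, vec_eq_sum s v]; simp [mul_comm]

theorem pr_add_pr (w : W N) : pr true w + pr false w = w := by
  ext v; simp [pr_apply, vec_add_vec]

theorem vec_pr (s s' : Bool) (v : E N) (w : W N) :
    vec s v (pr s' w) = if s = s' then vec s v w else 0 := by
  rw [pr_eq, map_sum]
  simp only [map_smul, vec_dz, smul_eq_mul]
  split_ifs with h
  · subst h; rw [vec_eq_sum s v]; simp [mul_comm]
  · simp

theorem vec_comp_pr (s s' : Bool) (v : E N) :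
    vec s v ∘ₗ pr s' = if s = s' then vec s v else 0 := by
  ext w; simp only [LinearMap.comp_apply, vec_pr]; split_ifs <;> simp

theorem pr_pr (s s' : Bool) (w : W N) : pr s (pr s' w) = if s = s' then pr s w else 0 := by
  ext v; rw [pr_apply, vec_pr]; split_ifs <;> simp [pr_apply]

theorem pr_cv (s s' : Bool) (l : E N →L[ℂ] ℂ) :
    pr s (cv s' l) = if s = s' then cv s' l else 0 := by
  ext v; rw [pr_apply, vec_cv]; split_ifs with h
  · subst h; simp
  · simp

theorem cv_eq_sum (s : Bool) (l : E N →L[ℂ] ℂ) : cv s l = ∑ j, sg s (l (ee j)) • dz s j := by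
  have := pr_cv s s l
  rw [if_pos rfl, pr_eq] at this
  rw [← this]; simp [vec_cv]

/-- Transpose of a real linear map. -/
noncomputable def tr (L : E N →L[ℝ] E N) : W N →ₗ[ℂ] W N where
  toFun w := w.comp L
  map_add' a b := by ext; simp
  map_smul' c a := by ext; simp

@[simp] theorem tr_apply (L : E N →L[ℝ] E N) (w : W N) (v : E N) : tr L w v = w (L v) := rfl

theorem tr_comp (L M : E N →L[ℝ] E N) : tr L ∘ₗ tr M = tr (M.comp L) := rfl

theorem tr_id : tr (ContinuousLinearMap.id ℝ (E N)) = LinearMap.id := rfl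

theorem vec_comp_tr (s : Bool) (v : E N) (L : E N →L[ℂ] E N) :
    vec s v ∘ₗ tr (L.restrictScalars ℝ) = vec s (L v) := by
  ext w; simp [vec_apply]

theorem pr_tr (s : Bool) (L : E N →L[ℂ] E N) (w : W N) :
    pr s (tr (L.restrictScalars ℝ) w) = tr (L.restrictScalars ℝ) (pr s w) := by
  ext v
  rw [pr_apply, tr_apply, pr_apply]
  exact LinearMap.congr_fun (vec_comp_tr s v L) w

theorem tr_cv (s : Bool) (l : E N →L[ℂ] ℂ) (L : E N →L[ℂ] E N) :
    tr (L.restrictScalars ℝ) (cv s l) = cv s (l.comp L) := by
  ext v; simp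

end Vale.Agent.P269.Hdg
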