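import Vale.Agent.P269.Hdg.AnchorB

/-!
# Vanishing of the Dolbeault cohomology of `O(k)` on projective space for `-N ≤ k ≤ -1`
-/

namespace Vale.Agent.P269.Hdg.Anc

open scoped ContDiff Interval ComplexConjugate Real
open Complex (I)
open Topology Filter MeasureTheory

variable {N : ℕ}

/-- The squared Euclidean norm. -/
noncomputable def nr (y : E N) : ℝ := ∑ l, ‖y l‖ ^ 2

theorem sq_le_nr (y : E N) (l : Fin (N + 1)) : ‖y l‖ ^ 2 ≤ nr y :=
  Finset.single_le_sum (f := fun l => ‖y l‖ ^ 2) (fun _ _ => by positivity) (Finset.mem_univ l)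

theorem norm_sq_le_nr (y : E N) : ‖y‖ ^ 2 ≤ nr y := by
  have h0 : 0 ≤ nr y := Finset.sum_nonneg fun _ _ => by positivity
  rw [← Real.le_sqrt (norm_nonneg _) h0, pi_norm_le_iff_of_nonneg (Real.sqrt_nonneg _)]
  exact fun l => Real.le_sqrt_of_sq_le (sq_le_nr y l)

theorem nr_le (y : E N) : nr y ≤ (N + 1) * ‖y‖ ^ 2 := by
  have := Finset.sum_le_card_nsmul Finset.univ (fun l => ‖y l‖ ^ 2) (‖y‖ ^ 2) fun l _ =>
    pow_le_pow_left₀ (norm_nonneg _) (norm_le_pi_norm y l) 2
  simpa [nr] using this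

theorem nr_pos {y : E N} (hy : y ≠ 0) : 0 < nr y :=
  (pow_pos (norm_pos_iff.2 hy) 2).trans_le (norm_sq_le_nr y)

theorem contDiff_nr : ContDiff ℝ ∞ (nr : E N → ℝ) :=
  ContDiff.sum fun l _ => (contDiff_norm_sq ℂ).comp (contDiff_apply ℝ ℂ l)

theorem nr_mul {t : E N} {r : ℝ} (ht : ∀ l, ‖t l‖ = r) (y : E N) : nr (t * y) = r ^ 2 * nr y := by
  simp only [nr, Pi.mul_apply, norm_mul, ht, mul_pow, Finset.mul_sum]

theorem nr_update (j : Fin (N + 1)) (x : E N) (w : ℂ) :
    nr (Function.update x j w) + ‖x j‖ ^ 2 = nr x + ‖w‖ ^ 2 := by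
  simp only [nr]
  rw [← Finset.add_sum_erase _ _ (Finset.mem_univ j),
    ← Finset.add_sum_erase _ (fun l => ‖x l‖ ^ 2) (Finset.mem_univ j),
    Finset.sum_congr rfl (g := fun l => ‖x l‖ ^ 2) fun l hl => by
      rw [Function.update_of_ne (Finset.ne_of_mem_erase hl)] ]
  simp only [Function.update_self]; ring

/-- The cut-off function. -/
noncomputable def cf (z : E N × E N) : ℝ := Real.smoothTransition (4 * (nr z.2 / nr z.1) - 1)

theorem cf_zero {z : E N × E N} (h : 4 * nr z.2 < nr z.1) : cf z = 0 := by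
  have h0 : 0 ≤ nr z.2 := Finset.sum_nonneg fun _ _ => by positivity
  refine Real.smoothTransition.zero_of_nonpos ?_
  rw [← mul_div_assoc, sub_nonpos, div_le_one (by linarith)]; exact h.le

theorem cf_origin {x : E N} (hx : x ≠ 0) : cf (x, 0) = 0 := cf_zero (by simpa [nr] using nr_pos hx)

theorem cf_one {z : E N × E N} (h0 : z.1 ≠ 0) (h : nr z.1 ≤ 2 * nr z.2) : cf z = 1 := by
  refine Real.smoothTransition.one_of_one_le ?_
  rw [← mul_div_assoc, le_sub_iff_add_le, le_div_iff₀ (nr_pos h0)]; linarith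

theorem cf_mul {t : E N} {r : ℝ} (hr : r ≠ 0) (ht : ∀ l, ‖t l‖ = r) (x y : E N) :
    cf (t * x, t * y) = cf (x, y) := by
  simp only [cf, nr_mul ht, mul_div_mul_left _ _ (pow_ne_zero 2 hr)]

/-- A map of the second variable, cut off near the origin. -/
noncomputable def cut (g : E N → Λ N) (z : E N × E N) : Λ N := (cf z : ℂ) • g z.2

theorem sm_cut {Y : Type} [NormedAddCommGroup Y] [NormedSpace ℝ Y] {G : Y → Λ N}
    {z : Y → E N × E N} {y : Y} (hz : ContDiffAt ℝ ∞ z y) (h0 : (z y).1 ≠ 0)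
    (hG : (z y).2 ≠ 0 → ContDiffAt ℝ ∞ G y) :
    ContDiffAt ℝ ∞ (fun y => (cf (z y) : ℂ) • G y) y := by
  have h1 := contDiff_nr.contDiffAt.comp y hz.fst
  have h2 := contDiff_nr.contDiffAt.comp y hz.snd
  by_cases h : (z y).2 = 0
  · have : ∀ᶠ y' in 𝓝 y, 4 * nr (z y').2 < nr (z y').1 :=
      (continuousAt_const.mul h2.continuousAt).eventually_lt h1.continuousAt (by
        simpa [h, nr] using nr_pos h0)
    exact (contDiffAt_const (c := 0)).congr_of_eventuallyEq (this.mono fun y' hy => by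
      simp [cf_zero hy])
  · exact sm_smul (Complex.ofRealCLM.contDiff.contDiffAt.comp y
      (Real.smoothTransition.contDiffAt.comp y ((contDiffAt_const.mul
        (h2.div h1 (nr_pos h0).ne')).sub contDiffAt_const))) (hG h)

/-- Admissible kernels for the Cauchy transform. -/
def Pc (j : Fin (N + 1)) (U : Set (E N)) (H : E N × E N → Λ N) : Prop :=
  (∀ x ∈ U, ∀ ζ : ℂ, ContDiffAt ℝ ∞ H (x, x + ζ • ee j)) ∧
    ∃ (g : E N → Λ N) (s : ℤ) (c : ℝ), s ≤ -2 ∧ 0 ≤ c ∧ Sm g ∧ Hr s g ∧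
      ∀ z : E N × E N, z.1 ≠ 0 → c * ‖z.1‖ < ‖z.2‖ → H z = g z.2

variable {j : Fin (N + 1)} {U : Set (E N)} {H : E N × E N → Λ N} {u v g : E N → Λ N} {x : E N}
  {q k s : ℤ}

theorem fderiv_snd' {z : E N × E N} (h : DifferentiableAt ℝ g z.2) (w : E N × E N) :
    fderiv ℝ (fun z : E N × E N => g z.2) z w = fderiv ℝ g z.2 w.2 :=
  DFunLike.congr_fun (h.hasFDerivAt.comp z hasFDerivAt_snd).fderiv w

theorem Pc.deriv (h : Pc j U H) (w : E N) : Pc j U fun z => fderiv ℝ H z (w, w) := by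
  obtain ⟨h1, g, s, c, hs, hc, hg, hr, h2⟩ := h
  refine ⟨fun x hx ζ => (sm_fderiv (h1 x hx ζ)).clm_apply contDiffAt_const,
    fun y => fderiv ℝ g y w, s - 1, c, by omega, hc,
    fun y hy => (sm_fderiv (hg y hy)).clm_apply contDiffAt_const,
    fun r y hr' hy => by simp only [hr.fderiv r y hr' hy]; rfl, fun z h0 h3 => ?_⟩
  have e : H =ᶠ[𝓝 z] fun z => g z.2 := by
    filter_upwards [continuous_fst.continuousAt.eventually_ne h0, (show ContinuousAt
      (fun z : E N × E N => c * ‖z.1‖) z by fun_prop).eventually_lt continuousAt_snd.norm h3]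
      with z a b
    exact h2 z a b
  have h4 : z.2 ≠ 0 := norm_pos_iff.1 ((mul_nonneg hc (norm_nonneg _)).trans_lt h3)
  simp only [e.fderiv_eq, fderiv_snd' (sm_diff (hg _ h4))]

theorem Pc.bound (h : Pc j U H) (hU : IsOpen U) (h0 : ∀ x ∈ U, x ≠ 0) (hx : x ∈ U) :
    ∃ C, ∀ᶠ x' in 𝓝 x, ∀ ζ : ℂ, ‖H (x', x' + ζ • ee j)‖ ≤ C * ((1 + ‖ζ‖) ^ 2)⁻¹ := by
  obtain ⟨h1, g, s, c, hs, hc, hg, hr, h2⟩ := h
  obtain ⟨K, hK, hKU, hKc⟩ := local_compact_nhds (hU.mem_nhds hx)
  obtain ⟨C, hC⟩ := far hKc j (x := id) continuousOn_id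
    (H := fun z => H (z.1, z.1 + z.2 • ee j))
    (fun z hz => ((h1 z.1 (hKU hz.1) z.2).continuousAt.comp
      (f := fun z : E N × ℂ => (z.1, z.1 + z.2 • ee j)) (by fun_prop)).continuousWithinAt)
    (g := fun z => g z.2) (fun z hz => ((hg z.2 hz.2).continuousAt.comp
      continuousAt_snd).continuousWithinAt) (n := 2) hs (fun _ _ => hr) (c := c)
    fun y hy ζ h => h2 _ (h0 y (hKU hy)) h
  exact ⟨C, eventually_of_mem hK hC⟩

theorem integrable_of_bound {F : ℂ → Λ N} (hF : Continuous F) {C : ℝ}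
    (h : ∀ ζ, ‖F ζ‖ ≤ C * ((1 + ‖ζ‖) ^ 2)⁻¹) : Integrable fun ζ : ℂ => ζ⁻¹ • F ζ :=
  (integrable_cau_bound.const_mul C).mono'
    (measurable_inv.aestronglyMeasurable.smul hF.aestronglyMeasurable) (.of_forall fun ζ => by
      rw [norm_smul, norm_inv, mul_left_comm]
      exact mul_le_mul_of_nonneg_left (h ζ) (by positivity))

theorem Pc.integrable (h : Pc j U H) (hU : IsOpen U) (h0 : ∀ x ∈ U, x ≠ 0) (hx : x ∈ U) :
    Integrable fun ζ : ℂ => ζ⁻¹ • H (x, x + ζ • ee j) := by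
  obtain ⟨C, hC⟩ := h.bound hU h0 hx
  exact integrable_of_bound (continuous_iff_continuousAt.2 fun ζ => (h.1 x hx ζ).continuousAt.comp
    (f := fun ζ : ℂ => (x, x + ζ • ee j)) (by fun_prop)) hC.self_of_nhds

theorem Pc.smooth (h : Pc j U H) (hU : IsOpen U) (h0 : ∀ x ∈ U, x ≠ 0) (hx : x ∈ U) :
    ContDiffAt ℝ ∞ (cau j H) x ∧
      ∀ w, fderiv ℝ (cau j H) x w = cau j (fun z => fderiv ℝ H z (w, w)) x :=
  cau_smooth j hU (Pc j U) (fun _ h => h.1) (fun _ h => h.deriv)
    (fun _ h _ hx => h.bound hU h0 hx) H h x hx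

theorem cf_far {z : E N × E N} (h0 : z.1 ≠ 0) (h : (N + 1 : ℝ) * ‖z.1‖ < ‖z.2‖) : cf z = 1 := by
  refine cf_one h0 ?_
  have h1 := nr_le z.1
  have h2 := norm_sq_le_nr z.2
  have h3 : ((N + 1 : ℝ) * ‖z.1‖) ^ 2 ≤ ‖z.2‖ ^ 2 := pow_le_pow_left₀ (by positivity) h.le 2
  have h4 : 0 ≤ (N + 1 : ℝ) * N * ‖z.1‖ ^ 2 := by positivity
  nlinarith [sq_nonneg ‖z.2‖]

theorem pc_cut (j : Fin (N + 1)) (hg : Sm g) (hs : s ≤ -2) (hr : Hr s g) :
    Pc j {x | x ≠ 0} (cut g) :=
  ⟨fun _ hx _ => sm_cut contDiffAt_id hx fun h => (hg _ h).comp _ contDiffAt_snd,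
    g, s, N + 1, hs, by positivity, hg, hr, fun z h0 h => by simp [cut, cf_far h0 h]⟩

/-- The complement of a coordinate axis. -/
def off (j : Fin (N + 1)) : Set (E N) := {x | ∃ i ≠ j, x i ≠ 0}

theorem isOpen_off (j : Fin (N + 1)) : IsOpen (off j) := by
  have : off j = ⋃ i, ⋃ (_ : i ≠ j), {x : E N | x i ≠ 0} := by ext; simp [off]
  rw [this]
  exact isOpen_iUnion fun i => isOpen_iUnion fun _ => isOpen_ne_fun (by fun_prop) continuous_const

theorem off_ne : ∀ x ∈ off j, x ≠ 0 := by rintro x ⟨i, _, h⟩ rfl; exact h rfl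

theorem off_line (hx : x ∈ off j) (ζ : ℂ) : x + ζ • ee j ≠ 0 := by
  obtain ⟨i, hi, h⟩ := hx
  exact off_ne _ ⟨i, hi, by simpa [ee, hi] using h⟩

theorem off_update (hx : x ∈ off j) (w : ℂ) : Function.update x j w ≠ 0 := by
  obtain ⟨i, hi, h⟩ := hx
  exact off_ne _ ⟨i, hi, by simpa [hi] using h⟩

theorem pc_off (j : Fin (N + 1)) (hg : Sm g) (hs : s ≤ -2) (hr : Hr s g) :
    Pc j (off j) fun z => g z.2 :=
  ⟨fun x hx ζ => (hg _ (off_line hx ζ)).comp (x, x + ζ • ee j) contDiffAt_snd,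
    g, s, 0, hs, le_rfl, hg, hr, fun _ _ _ => rfl⟩

theorem eq_of_off (hN : 1 ≤ N) (hu : ContinuousAt u x) (hv : ContinuousAt v x)
    (h : ∀ y ∈ off j, u y = v y) : u x = v x := by
  have : Nontrivial (Fin (N + 1)) := Fin.nontrivial_iff_two_le.2 (by omega)
  obtain ⟨i, hi⟩ := exists_ne j
  by_cases h0 : x i = 0
  · have t : Tendsto (fun ζ : ℂ => x + ζ • ee i) (𝓝[≠] 0) (𝓝 x) := by
      have : Continuous fun ζ : ℂ => x + ζ • ee i := by fun_prop
      simpa using (this.tendsto 0).mono_left nhdsWithin_le_nhds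
    exact tendsto_nhds_unique_of_eventuallyEq (hu.tendsto.comp t) (hv.tendsto.comp t)
      (eventually_nhdsWithin_of_forall fun ζ hζ => h _ ⟨i, hi, by simpa [ee, h0] using hζ⟩)
  · exact h x ⟨i, hi, h0⟩

theorem cau_mul {t : E N} {r : ℝ} (hr : r ≠ 0) (ht : ∀ l, ‖t l‖ = r) (g : E N → Λ N) (x : E N) :
    cau j (cut g) (t * x) = conj (t j) • cau j (cut fun y => g (t * y)) x := by
  have h0 : t j ≠ 0 := norm_ne_zero_iff.1 (ht j ▸ hr)
  have h1 := integral_comp_cmul (fun ζ => ζ⁻¹ • cut g (t * x, t * x + ζ • ee j)) h0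
  have h2 : ∀ ζ : ℂ, (t j * ζ)⁻¹ • cut g (t * x, t * x + (t j * ζ) • ee j) =
      (t j)⁻¹ • ζ⁻¹ • cut (fun y => g (t * y)) (x, x + ζ • ee j) := fun ζ => by
    rw [show t * x + (t j * ζ) • ee j = t * (x + ζ • ee j) by
      rw [mul_add, mul_smul_comm, mul_ee, smul_smul, mul_comm ζ], cut, cf_mul hr ht, smul_smul,
      smul_smul, cut, smul_smul, mul_inv, mul_comm (t j)⁻¹]
  simp only [h2, integral_smul] at h1
  rw [cau, cau, smul_comm (conj _), ← (eq_inv_smul_iff₀ (by positivity)).1 h1, ← Complex.coe_smul,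
    smul_smul ((_ : ℝ) : ℂ)]
  congr 2
  rw [Complex.ofReal_pow, ← Complex.conj_mul', mul_inv_cancel_right₀ h0]

/-- The coefficient of `d\bar z_j`. -/
noncomputable def cj (j : Fin (N + 1)) (u : E N → Λ N) (y : E N) : Λ N := ct (vec false (ee j)) (u y)

theorem Sm.cj (hu : Sm u) (j : Fin (N + 1)) : Sm (cj j u) := fun y hy => sm_T _ (hu y hy)

theorem hr_of_hm {a b : ℤ} (h : Hm a b u) : Hr (a + b) u := fun r y hr hy => by
  have h0 : (r : ℂ) ≠ 0 := by exact_mod_cast hr.ne'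
  have := h r y h0 hy
  rwa [Complex.conj_ofReal, ← zpow_add₀ h0, ← Complex.ofReal_zpow, Complex.coe_smul,
    Complex.coe_smul] at this

theorem Gd.cj_zero (h : Gd q k u) (hq : q ≤ 0) (j : Fin (N + 1)) (hx : x ≠ 0) : cj j u x = 0 :=
  Eg_neg (by rw [dl_self]; omega) (ct_mem (h.ty x hx).2 false (ee j))

theorem Gd.hr (h : Gd q k u) (hk : k ≤ -1) (j : Fin (N + 1)) : ∃ s ≤ -2, Hr s (cj j u) := by
  rcases le_or_gt q 0 with hq | hq
  · exact ⟨-2, le_rfl, fun r y hr hy => by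
      rw [h.cj_zero hq j hy, h.cj_zero hq j (smul_ne_zero hr.ne' hy), smul_zero]⟩
  · exact ⟨_, by omega, hr_of_hm (h.hm.lin _)⟩

theorem Gd.pc (h : Gd q k u) (hk : k ≤ -1) (j : Fin (N + 1)) : Pc j {x | x ≠ 0} (cut (cj j u)) :=
  let ⟨_, h1, h2⟩ := h.hr hk j
  pc_cut j (h.sm.cj j) h1 h2

theorem Gd.pc' (h : Gd q k u) (hk : k ≤ -1) (j : Fin (N + 1)) : Pc j (off j) fun z => cj j u z.2 :=
  let ⟨_, h1, h2⟩ := h.hr hk j
  pc_off j (h.sm.cj j) h1 h2

/-- The homotopy operator. -/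
noncomputable def TT (j : Fin (N + 1)) (u : E N → Λ N) : E N → Λ N := cau j (cut (cj j u))

theorem cut_congr (hx : x ≠ 0) (h : ∀ y ≠ 0, u y = v y) (y : E N) : cut u (x, y) = cut v (x, y) := by
  by_cases hy : y = 0
  · simp [cut, hy, cf_origin hx]
  · simp only [cut, h y hy]

theorem Gd.TT (h : Gd q k u) (hk : k ≤ -1) (j : Fin (N + 1)) : Gd (q - 1) k (TT j u) := by
  have key : ∀ (K : Submodule ℂ (Λ N)) x, x ≠ 0 →
      (∀ ζ : ℂ, x + ζ • ee j ≠ 0 → cj j u (x + ζ • ee j) ∈ K) → Anc.TT j u x ∈ K :=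
    fun K x hx hK => K.smul_mem _ (integral_mem _ _ fun ζ => K.smul_mem _ (by
      by_cases hy : x + ζ • ee j = 0
      · simp [cut, hy, cf_origin hx]
      · exact K.smul_mem _ (hK ζ hy)))
  refine ⟨fun x hx => ((h.pc hk j).smooth isOpen_ne (fun _ h => h) hx).1,
    fun x hx => key _ x hx fun ζ hy => by simpa [cj] using ct_mem_Ty (h.ty _ hy) false (ee j),
    fun x hx => key (LinearMap.ker (ct (vec false x))) x hx fun ζ hy => ?_, fun t x ht hx => ?_⟩
  · have := congrArg (ct (vec false (ee j))) (h.hz _ hy)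
    rw [vec_add, vec_smul, map_add, map_smul, LinearMap.add_apply, LinearMap.smul_apply, map_add,
      map_smul, ct_ct, smul_zero, add_zero, map_zero, ct_comm, neg_eq_zero] at this
    exact this
  · have hc : conj t ≠ 0 := by simpa
    have e : ∀ y, cut (fun y => cj j u ((fun _ => t) * y)) (x, y) =
        (t ^ k * conj t ^ (-q)) • cut (cj j u) (x, y) := fun y => by
      exact (cut_congr hx (v := fun y => (t ^ k * conj t ^ (-q)) • cj j u y)
        (fun y hy => h.hm.lin (ct (vec false (ee j))) t y ht hy) y).trans (smul_comm _ _ _)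
    rw [Anc.TT, show t • x = (fun _ => t) * x from rfl, cau_mul (norm_ne_zero_iff.2 ht) fun _ => rfl]
    simp only [cau, e, smul_comm _ (t ^ k * conj t ^ (-q)), integral_smul]
    rw [smul_comm, smul_smul, neg_sub, sub_eq_add_neg, zpow_add₀ hc, zpow_one]
    congr 1; ring

theorem cj_rt (j : Fin (N + 1)) (t : E N) (u : E N → Λ N) (y : E N) :
    cj j (rt t u) y = conj (t j) • md t (cj j u (t * y)) := by
  rw [cj, rt, ct_md, mul_ee, vec_smul, map_smul, LinearMap.smul_apply, map_smul]; rfl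

theorem norm_ex (θ : Fin (N + 1) → ℝ) (l : Fin (N + 1)) : ‖ex θ l‖ = 1 := norm_chr 1 _

theorem rt_TT (h : Gd q k u) (hk : k ≤ -1) (j : Fin (N + 1)) (θ : Fin (N + 1) → ℝ) (hx : x ≠ 0) :
    rt (ex θ) (TT j u) x = TT j (rt (ex θ) u) x := by
  have h1 : md (ex θ) (TT j u (ex θ * x)) =
      cau j (cut fun y => md (ex θ) (cj j u y)) (ex θ * x) := by
    rw [TT, cau, cau, map_smul, ← toR_apply, ← (toR _).integral_comp_comm
      ((h.pc hk j).integrable isOpen_ne (fun _ h => h) (ex_ne θ hx))]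
    simp only [toR_apply, cut, map_smul]
  rw [rt, h1, cau_mul one_ne_zero (norm_ex θ)]
  simp only [TT, cau, cut, cj_rt, smul_comm _ (conj (ex θ j)), integral_smul]

theorem avg_TT (h : Gd q k u) (hk : k ≤ -1) (i j : Fin (N + 1)) (m : ℤ) (hx : x ≠ 0) :
    avg i m (TT j u) x = TT j (avg i m u) x := by
  obtain ⟨s, hs, hr⟩ := h.hr hk j
  let G : ℝ × E N → Λ N := fun z =>
    ct (vec false (ee j)) (chr m z.1 • rt (ex (Pi.single i z.1)) u z.2)
  have hG : ∀ z : ℝ × E N, z.2 ≠ 0 → ContDiffAt ℝ ∞ G z := fun z hz =>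
    sm_T _ (h.sm.rt₁ i m z.1 hz)
  let F : ℝ × ℂ → Λ N := fun z => (cf (x, x + z.2 • ee j) : ℂ) • G (z.1, x + z.2 • ee j)
  have hl : ContDiff ℝ ∞ fun z : ℝ × ℂ => x + z.2 • ee j :=
    contDiff_const.add (contDiff_pi.2 fun l => contDiff_snd.mul contDiff_const)
  have hF : Continuous F := continuous_iff_continuousAt.2 fun z =>
    (sm_cut (contDiff_const.prodMk hl).contDiffAt hx fun h0 =>
      (hG _ h0).comp z (contDiff_fst.prodMk hl).contDiffAt).continuousAt
  obtain ⟨C, hC⟩ := far (isCompact_uIcc (a := (0 : ℝ)) (b := 2 * π)) j (x := fun _ => x)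
    continuousOn_const hF.continuousOn (g := G)
    (fun z hz => (hG z hz.2).continuousAt.continuousWithinAt) (n := 2) hs
    (fun φ _ r y hr' hy => by
      have := hr r _ hr' (ex_ne (Pi.single i φ) hy)
      simp only [G, map_smul]
      change _ • cj j _ _ = _ • _ • cj j _ _
      rw [cj_rt, cj_rt, mul_smul_comm, this, ← Complex.coe_smul, ← Complex.coe_smul, map_smul,
        smul_comm _ ((r ^ s : ℝ) : ℂ), smul_comm _ ((r ^ s : ℝ) : ℂ)]) (c := N + 1)
    fun φ _ ζ h0 => by simp [F, cf_far (z := (x, x + ζ • ee j)) hx h0]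
  have hi : Integrable (Function.uncurry fun (φ : ℝ) (ζ : ℂ) => ζ⁻¹ • F (φ, ζ))
      ((volume.restrict (Ι (0 : ℝ) (2 * π))).prod volume) := by
    have : IsFiniteMeasure (volume.restrict (Ι (0 : ℝ) (2 * π))) := by
      rw [Set.uIoc]; infer_instance
    refine ((integrable_cau_bound.const_mul C).comp_snd _).mono'
      ((measurable_inv.comp measurable_snd).aestronglyMeasurable.smul hF.aestronglyMeasurable) ?_
    rw [← Measure.restrict_univ (μ := (volume : Measure ℂ)), Measure.prod_restrict]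
    refine (ae_restrict_mem (measurableSet_uIoc.prod MeasurableSet.univ)).mono fun z hz => ?_
    rw [Function.uncurry, norm_smul, norm_inv, mul_left_comm]
    exact mul_le_mul_of_nonneg_left (hC z.1 (Set.uIoc_subset_uIcc hz.1) z.2) (by positivity)
  have h1 : ∀ φ : ℝ, chr m φ • rt (ex (Pi.single i φ)) (TT j u) x =
      (-(π : ℂ)⁻¹) • ∫ ζ : ℂ, ζ⁻¹ • F (φ, ζ) := fun φ => by
    rw [rt_TT h hk j _ hx]
    simp only [TT, cau, cut, cj, F, G, map_smul, smul_comm _ (chr m φ), integral_smul]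
  rw [avg]
  simp only [h1, intervalIntegral.integral_smul]
  rw [intervalIntegral_integral_swap hi, TT, cau]
  congr 2
  funext ζ
  simp only [F, intervalIntegral.integral_smul]
  congr 1
  refine cut_congr hx (u := fun y => ∫ φ in (0 : ℝ)..2 * π, G (φ, y)) (fun y hy => ?_) _
  exact (toR (ct (vec false (ee j)))).intervalIntegral_comp_comm (μ := volume)
    ((h.sm.cont i m hy).intervalIntegrable _ _)

theorem TT_eq (h : Gd q k u) (hk : k ≤ -1) {n : ℤ} (hn : 0 ≤ n)
    (hw : ∀ ψ, ∀ y ≠ 0, rt (ex (Pi.single j ψ)) u y = chr n ψ • u y) (hx : x ∈ off j) :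
    TT j u x = cau j (fun z => cj j u z.2) x := by
  have i1 := (h.pc hk j).integrable isOpen_ne (fun _ h => h) (off_ne x hx)
  have i2 := (h.pc' hk j).integrable (isOpen_off j) off_ne hx
  have e : ∀ ζ : ℂ, Function.update x j (x j + ζ) = x + ζ • ee j := fun ζ => funext fun i => by
    by_cases hi : i = j
    · simp [hi, ee]
    · simp [hi, ee]
  have e2 : ∀ (φ : ℝ) w, Function.update x j (chr 1 φ * w) =
      ex (Pi.single j φ) * Function.update x j w := fun φ w => funext fun i => by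
    by_cases hi : i = j
    · simp [hi, ex_single]
    · simp [hi, ex_single_ne j φ i hi]
  have key := cut_zero (F := fun w => cj j u (Function.update x j w) -
    cut (cj j u) (x, Function.update x j w)) (z := x j) (n := n + 1) (by omega) (fun φ w => ?_)
    (fun w hw => ?_) (by simp only [e, smul_sub]; exact i2.sub i1)
  · simp only [e, smul_sub] at key
    rw [integral_sub i2 i1, sub_eq_zero] at key
    rw [TT, cau, cau, key]
  · have hy := off_update hx w
    have h1 := cj_rt j (ex (Pi.single j φ)) u (Function.update x j w)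
    rw [md_update j (ex_single_ne j φ) (fun s => by
      cases s
      · exact ct_ct _ _
      · exact ct_of_Eg_zero (by simpa [cj] using (ct_mem_Ty (h.ty _ (ex_ne _ hy)) false (ee j)).1) _),
      cj, hw φ _ hy, map_smul, ex_single, conj_chr] at h1
    have h2 : cj j u (ex (Pi.single j φ) * Function.update x j w) =
        chr (n + 1) φ • cj j u (Function.update x j w) := by
      rw [add_comm n, chr_add', mul_smul, cj.eq_1 j u (Function.update x j w), h1, smul_smul,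
        mul_comm (chr 1 φ), chr_neg_mul, one_smul]
    have h3 : cf (x, ex (Pi.single j φ) * Function.update x j w) = cf (x, Function.update x j w) := by
      simp only [cf, nr_mul (norm_ex _), one_pow, one_mul]
    simp only [e2, cut, h2, h3, smul_sub, smul_comm (chr (n + 1) φ)]
  · have h1 := nr_update j x w
    have h2 := pow_le_pow_left₀ (norm_nonneg _) hw 2
    have h3 := nr_pos (off_ne x hx)
    simp [cut, cf_one (z := (x, Function.update x j w)) (off_ne x hx) (by simp only; linarith)]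

theorem db_cau (h : Gd q k u) (hk : k ≤ -1) (hc : ∀ y ≠ 0, db false idE u y = 0)
    (hx : x ∈ off j) : db false idE (cau j fun z => cj j u z.2) x = u x := by
  have hP := h.pc' hk j
  have e : ∀ (ζ : ℂ) w, fderiv ℝ (fun z : E N × E N => cj j u z.2) (x, x + ζ • ee j) (w, w) =
      fderiv ℝ (cj j u) (x + ζ • ee j) w := fun ζ w =>
    fderiv_snd' (sm_diff (h.sm.cj j _ (off_line hx ζ))) _
  have h1 : db false idE (cau j fun z => cj j u z.2) x =
      cau j (fun z => vv false (ee j) (fderiv ℝ u z.2)) x := by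
    rw [db_id, al_integral false volume
      (F := fun ζ : ℂ => (-(π : ℂ)⁻¹) • ζ⁻¹ • fderiv ℝ (cj j u) (x + ζ • ee j)) (fun w => ?_)
      fun w => ?_, cau, ← integral_smul]
    · congr 1
      funext ζ
      have := db_ct_vec (s := false) (L := idE) false (ee j) (sm_diff (h.sm _ (off_line hx ζ)))
      rw [hc _ (off_line hx ζ)] at this
      rw [al_smul, al_smul, ← db_id]
      congr 2
      exact this.trans (by simp)
    · have := ((hP.deriv w).integrable (isOpen_off j) off_ne hx).smul (-(π : ℂ)⁻¹)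
      simp only [e] at this
      exact this
    · rw [(hP.smooth (isOpen_off j) off_ne hx).2 w, cau, ← integral_smul]
      simp only [e]; rfl
  rcases lt_or_ge q 0 with hq | hq
  · have h0 : ∀ y ≠ 0, u y = 0 := fun y hy => Eg_neg hq (h.ty y hy).2
    have : ∀ ζ : ℂ, fderiv ℝ u (x + ζ • ee j) = 0 := fun ζ => by
      rw [EventuallyEq.fderiv_eq (f := fun _ => 0) ((ne_zero_ev (off_line hx ζ)).mono h0)]; simp
    simp [h1, cau, this, vv_zero, h0 x (off_ne x hx)]
  let L : ℂ →L[ℝ] E N := (ContinuousLinearMap.toSpanSingleton ℂ (ee j)).restrictScalars ℝ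
  have hl : ContDiff ℝ ∞ fun ζ : ℂ => x + ζ • ee j := contDiff_const.add L.contDiff
  have hb : ContDiff ℝ ∞ fun ζ : ℂ => u (x + ζ • ee j) := contDiff_iff_contDiffAt.2 fun ζ =>
    (h.sm _ (off_line hx ζ)).comp ζ hl.contDiffAt
  have hd : ∀ ζ : ℂ, fderiv ℝ (fun ζ : ℂ => u (x + ζ • ee j)) ζ =
      (fderiv ℝ u (x + ζ • ee j)).comp L := fun ζ =>
    ((sm_diff (h.sm _ (off_line hx ζ))).hasFDerivAt.comp ζ (L.hasFDerivAt.const_add x)).fderiv
  have hr := hr_of_hm h.hm
  obtain ⟨C, hC⟩ := far (isCompact_singleton (x := ())) j (x := fun _ => x) continuousOn_const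
    (H := fun z => u (x + z.2 • ee j)) (hb.continuous.comp continuous_snd).continuousOn
    (g := fun z => u z.2) (fun z hz => ((h.sm z.2 hz.2).continuousAt.comp
      continuousAt_snd).continuousWithinAt) (n := 1) (by omega) (fun _ _ => hr) (c := 0)
    fun _ _ _ _ => rfl
  obtain ⟨C', hC'⟩ := far (isCompact_singleton (x := ())) j (x := fun _ => x) continuousOn_const
    (H := fun z => fderiv ℝ (fun ζ : ℂ => u (x + ζ • ee j)) z.2)
    ((hb.continuous_fderiv (by simp)).comp continuous_snd).continuousOn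
    (g := fun z => (fderiv ℝ u z.2).comp L) (fun z hz => (((sm_fderiv
      (h.sm z.2 hz.2)).continuousAt.comp continuousAt_snd).clm_comp
        continuousAt_const).continuousWithinAt) (n := 2) (s := k + -q - 1) (by omega)
    (fun _ _ r y hr' hy => by simp only [hr.fderiv r y hr' hy]; rfl) (c := 0)
    fun _ _ ζ _ => hd ζ
  have h2 := pompeiu (hb.of_le (by exact_mod_cast le_top)) (squeeze_zero_norm (hC () rfl) (by
    have : Tendsto (fun ζ : ℂ => ((1 + ‖ζ‖) ^ 1)⁻¹) (cocompact ℂ) (𝓝 0) := by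
      simp only [pow_one]
      exact (tendsto_atTop_add_const_left _ 1
        (tendsto_norm_cocompact_atTop (E := ℂ))).inv_tendsto_atTop
    simpa using this.const_mul C)) (hC' () rfl)
  rw [h1, cau]
  simp only [zero_smul, add_zero] at h2
  rw [← h2]
  simp [hd, L, vv]

theorem kill (hN : 1 ≤ N) (h : Gd q k u) (hk : k ≤ -1) (hc : ∀ y ≠ 0, db false idE u y = 0)
    {n : ℤ} (hn : 0 ≤ n) (hw : ∀ ψ, ∀ y ≠ 0, rt (ex (Pi.single j ψ)) u y = chr n ψ • u y)
    (hx : x ≠ 0) : db false idE (TT j u) x = u x :=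
  eq_of_off (j := j) hN ((h.TT hk j).sm.db x hx).continuousAt (h.sm x hx).continuousAt
    fun y hy => by
      rw [db_congr (eventually_of_mem ((isOpen_off j).mem_nhds hy) fun _ hz => TT_eq h hk hn hw hz),
        db_cau h hk hc hy]

theorem main (hk : -(N : ℤ) ≤ k) (hk' : k ≤ -1) (h : Gd q k u)
    (hc : ∀ y ≠ 0, db false idE u y = 0) (S : Finset (Fin (N + 1))) :
    ∃ v, Gd (q - 1) k v ∧ ∀ i ∈ S, ∀ m ≤ 0, ∀ x ≠ 0,
      avg i m (fun y => u y - db false idE v y) x = 0 := by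
  induction S using Finset.induction_on with
  | empty => exact ⟨_, Gd.zero, by simp⟩
  | insert j S _ ih =>
    obtain ⟨v, hv, h0⟩ := ih
    have hw : Gd q k fun y => u y - db false idE v y := h.sub (by simpa using hv.db)
    have hwc : ∀ y ≠ 0, db false idE (fun y => u y - db false idE v y) y = 0 := fun y hy => by
      rw [db_sub (sm_diff (h.sm y hy)) (sm_diff (hv.sm.db y hy)), hc y hy, db_db_self (hv.sm y hy),
        sub_zero]
    generalize hw' : (fun y => u y - db false idE v y) = w at hw hwc h0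
    have hT := hw.TT hk' j
    refine ⟨_, hv.add hT, fun i hi m hm x hx => ?_⟩
    rw [avg_congr (v := fun y => w y - db false idE (TT j w) y) (fun y hy => by
        rw [db_add (sm_diff (hv.sm y hy)) (sm_diff (hT.sm y hy)), ← hw', sub_sub]) i m hx,
      avg_sub hw.sm hT.sm.db i m hx, ← db_avg hT.sm i m hx,
      db_congr ((ne_zero_ev hx).mono fun y hy => avg_TT hw hk' i j m hy), sub_eq_zero]
    have hc' : ∀ y ≠ 0, db false idE (avg i m w) y = 0 := fun y hy => by
      rw [db_avg hw.sm i m hy, avg_zero hwc i m hy]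
    rcases Finset.mem_insert.1 hi with rfl | hi
    · exact (kill (by omega) (hw.avg i m) hk' hc' (n := -m) (by omega)
        (fun ψ y hy => rt_avg_self hw.sm i m ψ hy) hx).symm
    · exact (kill (by omega) (hw.avg i m) hk' hc' le_rfl (fun ψ y hy => by
        rw [rt, h0 i hi m hm _ (ex_ne _ hy), h0 i hi m hm y hy, map_zero, smul_zero]) hx).symm

end Vale.Agent.P269.Hdg.Anc

namespace Vale.Agent.P269.Hdg

open Anc in
/-- `H^q(ℙ^N, O(k)) = 0` for `-N ≤ k ≤ -1`. -/
theorem anchor {N : ℕ} {k q : ℤ} (hk : -(N : ℤ) ≤ k) (hk' : k ≤ -1) {u : SM N}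
    (hu : u ∈ Fm 0 q k) (hc : ∀ x ≠ 0, (DB false u).1 x = 0) :
    ∃ v ∈ Fm 0 (q - 1) k, ∀ x ≠ 0, u.1 x = (DB false v).1 x := by
  obtain ⟨v, hv, h0⟩ := main hk hk' (gd_of_fm hu)
    (fun y hy => by rw [← DB_apply _ _ hy, hc y hy]) Finset.univ
  refine ⟨⟨v, hv.sm⟩, hv.fm, fun x hx => ?_⟩
  rw [DB_apply _ _ hx, ← sub_eq_zero]
  exact ((gd_of_fm hu).sub (by simpa using hv.db)).eq_zero hk
    (fun j => h0 j (Finset.mem_univ j)) hx

end Vale.Agent.P269.Hdg
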