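import Vale.Agent.P269.Hdg.Cau

/-!
# Analytic lemmas: Fourier uniqueness on tori, removal of a cut-off, decay of homogeneous maps
-/

namespace Vale.Agent.P269.Hdg.Anc

open scoped ContDiff Interval ComplexConjugate Real
open Complex (I)
open Topology Filter MeasureTheory

variable {N : ℕ} {B : Type} [NormedAddCommGroup B] [NormedSpace ℂ B] [CompleteSpace B]

/-- The characters of the circle. -/
noncomputable def chr (m : ℤ) (t : ℝ) : ℂ := Complex.exp (m * t * I)

theorem chr_add (m : ℤ) (s t : ℝ) : chr m (s + t) = chr m s * chr m t := by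
  simp only [chr, ← Complex.exp_add]; congr 1; push_cast; ring

theorem chr_add' (m n : ℤ) (t : ℝ) : chr (m + n) t = chr m t * chr n t := by
  simp only [chr, ← Complex.exp_add]; congr 1; push_cast; ring

theorem chr_zero (m : ℤ) : chr m 0 = 1 := by simp [chr]

theorem chr_zero' (t : ℝ) : chr 0 t = 1 := by simp [chr]

theorem chr_two_pi (m : ℤ) : chr m (2 * π) = 1 := by
  have := Complex.exp_int_mul_two_pi_mul_I m
  rw [chr, ← this]; congr 1; push_cast; ring

theorem chr_neg_mul (m : ℤ) (t : ℝ) : chr (-m) t * chr m t = 1 := by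
  rw [← chr_add', neg_add_cancel, chr_zero']

theorem norm_chr (m : ℤ) (t : ℝ) : ‖chr m t‖ = 1 := by
  have := Complex.norm_exp_ofReal_mul_I (m * t)
  rw [chr, ← this]; congr 2; push_cast; ring

theorem chr_ne_zero (m : ℤ) (t : ℝ) : chr m t ≠ 0 := Complex.exp_ne_zero _

theorem chr_one_zpow (m : ℤ) (t : ℝ) : chr 1 t ^ m = chr m t := by
  rw [chr, chr, ← Complex.exp_int_mul]; congr 1; push_cast; ring

theorem conj_chr (m : ℤ) (t : ℝ) : conj (chr m t) = chr (-m) t := by
  rw [chr, chr, ← Complex.exp_conj]; congr 1; simp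

theorem chr_half {m : ℤ} (hm : 0 < m) : chr m (π / m) = -1 := by
  have : (m : ℂ) ≠ 0 := by exact_mod_cast hm.ne'
  rw [chr, ← Complex.exp_pi_mul_I]; congr 1; push_cast; field_simp

theorem contDiff_chr (m : ℤ) : ContDiff ℝ ∞ (chr m) :=
  (Complex.contDiff_exp (𝕜 := ℝ)).comp
    ((contDiff_const.mul Complex.ofRealCLM.contDiff).mul contDiff_const)

@[fun_prop] theorem continuous_chr (m : ℤ) : Continuous (chr m) := (contDiff_chr m).continuous

omit [CompleteSpace B] in
theorem eq_zero_of_neg {a : B} (h : a = (-1 : ℂ) • a) : a = 0 := by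
  have h2 : (2 : ℂ) • a = 0 := by rw [two_smul]; nth_rw 1 [h]; simp
  exact (smul_eq_zero.1 h2).resolve_left two_ne_zero

theorem fourier_uniq {f : ℝ → B} (hf : Continuous f) (hp : Function.Periodic f (2 * π))
    (h : ∀ m : ℤ, ∫ t in (0 : ℝ)..2 * π, chr m t • f t = 0) (t : ℝ) : f t = 0 := by
  refine SeparatingDual.eq_zero_of_forall_dual_eq_zero (R := ℂ) fun L => ?_
  have : Fact (0 < 2 * π) := ⟨Real.two_pi_pos⟩
  have hq : Function.Periodic (fun t => L (f t)) (2 * π) := fun t => by simp only [hp t]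
  let F : C(AddCircle (2 * π), ℂ) := ⟨hq.lift, continuous_quot_lift _ (L.continuous.comp hf)⟩
  have hF : ∀ t : ℝ, F t = L (f t) := fun t => rfl
  have h0 : fourierCoeff F = fun _ => 0 := funext fun n => by
    rw [fourierCoeff_eq_intervalIntegral _ _ 0, zero_add]
    have e : ∀ x : ℝ, fourier (-n) (x : AddCircle (2 * π)) • F x = L (chr (-n) x • f x) := by
      intro x
      rw [hF, map_smul, fourier_coe_apply, chr]
      have : (π : ℂ) ≠ 0 := by simp
      congr 2; push_cast; field_simp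
    simp only [e]
    rw [L.intervalIntegral_comp_comm (Continuous.intervalIntegrable (by fun_prop) _ _), h]
    simp
  have := has_pointwise_sum_fourier_series_of_summable (f := F) (by rw [h0]; exact summable_zero) t
  rw [h0] at this
  simp only [zero_smul] at this
  exact (this.unique hasSum_zero)

omit [CompleteSpace B] in
theorem chr_shift (m : ℤ) {F : ℝ → B} (hp : Function.Periodic F (2 * π)) (ψ : ℝ) :
    ∫ φ in (0 : ℝ)..2 * π, chr m φ • F (ψ + φ) =
      chr (-m) ψ • ∫ φ in (0 : ℝ)..2 * π, chr m φ • F φ := by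
  have h1 : Function.Periodic (fun φ => chr m φ • F φ) (2 * π) := fun φ => by
    simp only [hp φ, chr_add, chr_two_pi, mul_one]
  have h2 := h1.intervalIntegral_add_eq ψ 0
  have h3 := intervalIntegral.integral_comp_add_left (a := 0) (b := 2 * π)
    (fun φ => chr m φ • F φ) ψ
  rw [zero_add] at h2
  rw [add_zero, h2] at h3
  rw [← h3, ← intervalIntegral.integral_smul]
  simp only [chr_add, smul_smul, ← mul_assoc, chr_neg_mul, one_mul]

theorem torus {ι : Type} [DecidableEq ι] (S : Finset ι) : ∀ (s : ℤ) (f : (ι → ℝ) → B),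
    Continuous f → (∀ j θ, f (θ + Pi.single j (2 * π)) = f θ) →
    (∀ j ∈ S, ∀ m ≤ 0, ∀ θ : ι → ℝ,
      ∫ φ in (0 : ℝ)..2 * π, chr m φ • f (θ + Pi.single j φ) = 0) →
    (∀ θ φ, f (θ + ∑ j ∈ S, Pi.single j φ) = chr s φ • f θ) → -(S.card : ℤ) < s →
    ∀ θ, f θ = 0 := by
  induction S using Finset.induction_on with
  | empty =>
    intro s f _ _ _ h hs θ
    have := h θ (π / s)
    rw [Finset.sum_empty, add_zero, chr_half (by simpa using hs)] at this
    exact eq_zero_of_neg this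
  | insert j S hj ih =>
    intro s f hc hp h0 h hs θ
    have hp' : ∀ θ : ι → ℝ, Function.Periodic (fun φ : ℝ => f (θ + Pi.single j φ)) (2 * π) :=
      fun θ φ => by simp only [Pi.single_add, ← add_assoc, hp]
    have hc' : ∀ i, Continuous (fun φ : ℝ => (Pi.single i φ : ι → ℝ)) := fun i =>
      continuous_single (A := fun _ => ℝ) i
    have := fourier_uniq (f := fun φ : ℝ => f (θ + Pi.single j φ)) (by fun_prop) (hp' θ) (fun m => ?_) 0
    · simpa using this
    rcases le_or_gt m 0 with hm | hm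
    · exact h0 j (Finset.mem_insert_self _ _) m hm θ
    refine ih (s + m) (fun θ => ∫ φ in (0 : ℝ)..2 * π, chr m φ • f (θ + Pi.single j φ))
      (intervalIntegral.continuous_parametric_intervalIntegral_of_continuous' (by
        unfold Function.uncurry; fun_prop) _ _)
      (fun i θ => by simp only [add_right_comm θ, hp]) (fun i hi n hn θ => ?_) (fun θ ψ => ?_)
      (by rw [Finset.card_insert_of_notMem hj] at hs; push_cast at hs; omega) θ
    · simp only [← intervalIntegral.integral_smul]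
      rw [intervalIntegral_intervalIntegral_swap]
      · simp only [smul_comm (chr n _), intervalIntegral.integral_smul, add_right_comm θ,
          h0 i (Finset.mem_insert_of_mem hi) n hn, smul_zero, intervalIntegral.integral_zero]
      · refine (ContinuousOn.integrableOn_compact (isCompact_uIcc.prod isCompact_uIcc)
          (Continuous.continuousOn ?_)).mono_set
          (Set.prod_mono Set.uIoc_subset_uIcc Set.uIoc_subset_uIcc)
        unfold Function.uncurry; fun_prop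
    · have h1 := chr_shift m (hp' (θ + ∑ i ∈ S, Pi.single i ψ)) ψ
      have h2 : ∀ φ : ℝ, f (θ + ∑ i ∈ S, Pi.single i ψ + Pi.single j (ψ + φ)) =
          chr s ψ • f (θ + Pi.single j φ) := fun φ => by
        rw [← h, Finset.sum_insert hj, Pi.single_add]; congr 1; abel
      simp only [h2, smul_comm (chr m _), intervalIntegral.integral_smul] at h1
      rw [add_comm s, chr_add', mul_smul, h1, smul_smul, mul_comm (chr m ψ), chr_neg_mul, one_smul]

omit [CompleteSpace B] in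
theorem cut_zero {F : ℂ → B} {z : ℂ} {n : ℤ} (hn : 1 ≤ n)
    (hr : ∀ (φ : ℝ) w, F (chr 1 φ * w) = chr n φ • F w) (hs : ∀ w, ‖z‖ ≤ ‖w‖ → F w = 0)
    (hi : Integrable fun ζ : ℂ => ζ⁻¹ • F (z + ζ)) : ∫ ζ : ℂ, ζ⁻¹ • F (z + ζ) = 0 := by
  by_cases hz : z = 0
  · simp [hs _ (by simp [hz])]
  let G : ℕ → ℂ → B := fun M ζ => ((z + ζ) / z) ^ M • ζ⁻¹ • F (z + ζ)
  have hm : ∀ M, AEStronglyMeasurable (G M) volume := fun M =>
    (Continuous.aestronglyMeasurable (by fun_prop)).smul hi.1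
  have hlt : ∀ ζ, ¬‖z‖ ≤ ‖z + ζ‖ → ‖(z + ζ) / z‖ < 1 := fun ζ h => by
    rw [norm_div, div_lt_one (norm_pos_iff.2 hz)]; exact not_le.1 h
  have hb : ∀ M ζ, ‖G M ζ‖ ≤ ‖ζ⁻¹ • F (z + ζ)‖ := fun M ζ => by
    by_cases h : ‖z‖ ≤ ‖z + ζ‖
    · simp [G, hs _ h]
    · rw [norm_smul, norm_pow]
      exact mul_le_of_le_one_left (norm_nonneg _) (pow_le_one₀ (norm_nonneg _) (hlt ζ h).le)
  have hG : ∀ M, Integrable (G M) := fun M => hi.norm.mono' (hm M) (.of_forall (hb M))
  have h1 : ∀ M, ∫ ζ, G (M + 1) ζ = ∫ ζ, G M ζ := fun M => by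
    rw [← sub_eq_zero, ← integral_sub (hG _) (hG _),
      integral_congr_ae (g := fun ζ => (((z + ζ) / z) ^ M * z⁻¹) • F (z + ζ)),
      integral_add_left_eq_self (fun w => ((w / z) ^ M * z⁻¹) • F w) z]
    · have h2 := integral_comp_cmul (fun w => ((w / z) ^ M * z⁻¹) • F w)
        (chr_ne_zero 1 (π / (M + n : ℤ)))
      have h3 : ∀ w, ((chr 1 (π / (M + n : ℤ)) * w / z) ^ M * z⁻¹) • F (chr 1 (π / (M + n : ℤ)) * w)
          = (-1 : ℂ) • ((w / z) ^ M * z⁻¹) • F w := fun w => by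
        rw [hr, ← chr_half (m := M + n) (by omega), chr_add', ← chr_one_zpow M, zpow_natCast,
          smul_smul, smul_smul]
        congr 1; ring
      simp only [h3, norm_chr, integral_smul] at h2
      exact eq_zero_of_neg (by simpa using h2.symm)
    · filter_upwards [Measure.ae_ne volume 0] with ζ hζ
      simp only [G, smul_smul, ← sub_smul]
      congr 1; rw [pow_succ]; generalize ((z + ζ) / z) ^ M = a; field_simp; ring
  have h2 : ∀ M, ∫ ζ, G M ζ = ∫ ζ : ℂ, ζ⁻¹ • F (z + ζ) := fun M => by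
    induction M with
    | zero => simp [G]
    | succ M ih => rw [h1, ih]
  have h3 := tendsto_integral_of_dominated_convergence (F := G) (f := fun _ => 0) _ hm hi.norm
    (fun M => .of_forall (hb M)) (.of_forall fun ζ => by
      by_cases h : ‖z‖ ≤ ‖z + ζ‖
      · simp [G, hs _ h]
      · simpa using (tendsto_pow_atTop_nhds_zero_of_norm_lt_one (hlt ζ h)).smul_const
          (ζ⁻¹ • F (z + ζ)))
  simp only [h2, integral_zero] at h3
  exact tendsto_nhds_unique tendsto_const_nhds h3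

/-! ## Decay of homogeneous maps -/

variable {D : Type} [NormedAddCommGroup D] [NormedSpace ℝ D]

/-- Real homogeneity. -/
def Hr (s : ℤ) (g : E N → D) : Prop := ∀ (r : ℝ) (y : E N), 0 < r → y ≠ 0 → g (r • y) = r ^ s • g y

theorem Hr.fderiv {s : ℤ} {g : E N → D} (h : Hr s g) : Hr (s - 1) (fderiv ℝ g) := by
  intro r y hr hy
  have e : (fun y => g (r • y)) =ᶠ[𝓝 y] (r ^ s • g) := (ne_zero_ev hy).mono fun y hy => h r y hr hy
  have := e.fderiv_eq (𝕜 := ℝ)
  rw [fderiv_comp_smul, fderiv_const_smul_field] at this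
  rw [zpow_sub_one₀ hr.ne', mul_comm, mul_smul]
  exact (eq_inv_smul_iff₀ hr.ne').2 this

theorem norm_ee (j : Fin (N + 1)) : ‖ee j‖ = 1 := by simp [ee, Pi.norm_single]

theorem far {Θ : Type} [TopologicalSpace Θ] {K : Set Θ} (hK : IsCompact K) (j : Fin (N + 1))
    {x : Θ → E N} (hx : ContinuousOn x K) {H : Θ × ℂ → D} (hH : ContinuousOn H (K ×ˢ Set.univ))
    {g : Θ × E N → D} (hg : ContinuousOn g (K ×ˢ {0}ᶜ)) {s : ℤ} {n : ℕ} (hs : s ≤ -n)
    (hr : ∀ θ ∈ K, Hr s fun y => g (θ, y)) {c : ℝ}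
    (h : ∀ θ ∈ K, ∀ ζ : ℂ, c * ‖x θ‖ < ‖x θ + ζ • ee j‖ → H (θ, ζ) = g (θ, x θ + ζ • ee j)) :
    ∃ C, ∀ θ ∈ K, ∀ ζ : ℂ, ‖H (θ, ζ)‖ ≤ C * ((1 + ‖ζ‖) ^ n)⁻¹ := by
  obtain ⟨ρ, hρ⟩ := hK.exists_bound_of_continuousOn hx
  obtain ⟨A, hA⟩ := (hK.prod (isCompact_sphere (0 : E N) 1)).exists_bound_of_continuousOn
    (hg.mono (Set.prod_mono subset_rfl fun y hy h0 => by simp_all))
  let R := 1 + 2 * |ρ| + 2 * (|c| * |ρ|) + 1
  obtain ⟨M, hM⟩ := (hK.prod (isCompact_closedBall (0 : ℂ) R)).exists_bound_of_continuousOn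
    (hH.mono (Set.prod_mono subset_rfl (Set.subset_univ _)))
  refine ⟨|M| * (1 + R) ^ n + |A| * 2 ^ n, fun θ hθ ζ => ?_⟩
  have p0 : 0 < 1 + ‖ζ‖ := by positivity
  rw [← div_eq_mul_inv, le_div_iff₀ (by positivity)]
  rcases le_or_gt ‖ζ‖ R with hR | hR
  · have h1 := (hM (θ, ζ) ⟨hθ, by simpa using hR⟩).trans (le_abs_self M)
    have h2 : (1 + ‖ζ‖) ^ n ≤ (1 + R) ^ n := pow_le_pow_left₀ p0.le (by linarith) n
    have := mul_le_mul h1 h2 (by positivity) (abs_nonneg M)
    have : 0 ≤ |A| * 2 ^ n := by positivity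
    linarith
  · set y := x θ + ζ • ee j with hy
    have h1 : ‖x θ‖ ≤ |ρ| := (hρ θ hθ).trans (le_abs_self ρ)
    have h2 : ‖ζ‖ ≤ ‖y‖ + ‖x θ‖ := by
      have := norm_sub_le y (x θ)
      rwa [hy, add_sub_cancel_left, norm_smul, norm_ee, mul_one] at this
    have h3 : c * ‖x θ‖ ≤ |c| * |ρ| :=
      mul_le_mul (le_abs_self c) h1 (norm_nonneg _) (abs_nonneg c)
    have p1 : 0 ≤ |c| * |ρ| := by positivity
    have p2 := abs_nonneg ρ
    have h4 : 1 ≤ ‖y‖ := by simp only [R] at hR; linarith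
    have h5 : 1 + ‖ζ‖ ≤ 2 * ‖y‖ := by simp only [R] at hR; linarith
    have p3 : 0 < ‖y‖ := by linarith
    have hu : ‖‖y‖⁻¹ • y‖ = 1 := by rw [norm_smul, norm_inv, norm_norm, inv_mul_cancel₀ p3.ne']
    have h6 := hr θ hθ ‖y‖ (‖y‖⁻¹ • y) p3 (by rintro h0; simp [h0] at hu)
    simp only [smul_inv_smul₀ p3.ne'] at h6
    have h7 := (hA (θ, ‖y‖⁻¹ • y) ⟨hθ, by simpa using hu⟩).trans (le_abs_self A)
    have h8 : ‖y‖ ^ s * ‖y‖ ^ n ≤ 1 := by
      rw [← zpow_natCast, ← zpow_add₀ p3.ne']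
      exact zpow_le_one_of_nonpos₀ h4 (by omega)
    rw [h θ hθ ζ (by simp only [R] at hR; linarith), h6, norm_smul, norm_zpow, norm_norm]
    have h9 : (1 + ‖ζ‖) ^ n ≤ 2 ^ n * ‖y‖ ^ n := by
      rw [← mul_pow]; exact pow_le_pow_left₀ p0.le h5 n
    have p4 : 0 ≤ |M| * (1 + R) ^ n := by positivity
    calc ‖y‖ ^ s * ‖g (θ, ‖y‖⁻¹ • y)‖ * (1 + ‖ζ‖) ^ n ≤ ‖y‖ ^ s * |A| * (2 ^ n * ‖y‖ ^ n) := by
          gcongr
      _ = (‖y‖ ^ s * ‖y‖ ^ n) * (|A| * 2 ^ n) := by ring
      _ ≤ |A| * 2 ^ n := mul_le_of_le_one_left (by positivity) h8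
      _ ≤ _ := by linarith

end Vale.Agent.P269.Hdg.Anc
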