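import Vale.Agent.P269.Hdg.AnchorA

/-!
# Rotations and averaging of twisted forms
-/

namespace Vale.Agent.P269.Hdg.Anc

open scoped ContDiff Interval ComplexConjugate Real
open Complex (I)
open Topology Filter MeasureTheory

variable {N : ℕ}

theorem integral_mem {Ω : Type} [MeasurableSpace Ω] (μ : Measure Ω) (K : Submodule ℂ (Λ N))
    {f : Ω → Λ N} (h : ∀ o, f o ∈ K) : ∫ o, f o ∂μ ∈ K := by
  by_cases hi : Integrable f μ
  · obtain ⟨K', hK⟩ := K.exists_isCompl
    let P : Λ N →ₗ[ℂ] Λ N := K.subtype ∘ₗ K.projectionOnto K' hK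
    have h1 : ∀ o, toR P (f o) = f o := fun o => by
      simp [P, Submodule.projectionOnto_apply_left hK ⟨f o, h o⟩]
    have h2 := (toR P).integral_comp_comm hi
    simp only [h1] at h2
    rw [h2]
    simp [P]
  · rw [integral_undef hi]; exact zero_mem _

theorem al_integral (s : Bool) {Ω : Type} [MeasurableSpace Ω] (μ : Measure Ω)
    {K : E N →L[ℝ] Λ N} {F : Ω → E N →L[ℝ] Λ N} (hi : ∀ v, Integrable (fun o => F o v) μ)
    (h : ∀ v, K v = ∫ o, F o v ∂μ) : al s K = ∫ o, al s (F o) ∂μ := by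
  have hF : Integrable F μ := (integrable_finsetSum Finset.univ fun i _ =>
    (ContinuousLinearMap.smulRightL ℝ (E N) (Λ N) (LinearMap.toContinuousLinearMap
      ((Module.finBasis ℝ (E N)).coord i))).integrable_comp (hi _)).congr
        (Eventually.of_forall fun o => (clm_expand _).symm)
  rw [(al s).integral_comp_comm hF]
  congr 1
  ext v
  rw [h, ContinuousLinearMap.integral_apply hF]

/-- Diagonal maps. -/
noncomputable def dg (t : E N) : E N →L[ℂ] E N := ContinuousLinearMap.mul ℂ (E N) t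

@[simp] theorem dg_apply (t x : E N) : dg t x = t * x := rfl

/-- The action of diagonal maps on the exterior algebra. -/
noncomputable def md (t : E N) : Λ N →ₗ[ℂ] Λ N :=
  (mp (tr ((dg t).restrictScalars ℝ))).toLinearMap

theorem md_apply (t : E N) (a : Λ N) : md t a = mp (tr ((dg t).restrictScalars ℝ)) a := rfl

theorem md_md (s t : E N) (a : Λ N) : md s (md t a) = md (t * s) a := by
  rw [md_apply, md_apply, mp_mp, tr_comp, md_apply]
  congr 3; ext; simp [mul_assoc]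

theorem md_const {p q : ℤ} {a : Λ N} (ha : a ∈ Ty p q) (c : ℂ) :
    md (fun _ => c) a = (c ^ p * conj c ^ q) • a := by
  rw [← mp_scal ha, md_apply]
  congr 3

theorem md_one (a : Λ N) : md 1 a = a := by
  rw [md_apply, show (dg (1 : E N)).restrictScalars ℝ = ContinuousLinearMap.id ℝ (E N) by
    ext; simp, tr_id, mp_id]

theorem ct_md (s : Bool) (v t : E N) (a : Λ N) :
    ct (vec s v) (md t a) = md t (ct (vec s (t * v)) a) := by
  rw [md_apply, ct_mp, vec_comp_tr]; rfl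

theorem mul_ee (t : E N) (j : Fin (N + 1)) : t * ee j = t j • ee j := by
  funext i; by_cases h : i = j <;> simp [ee, h]

theorem md_update (j : Fin (N + 1)) {t : E N} (ht : ∀ i ≠ j, t i = 1) {a : Λ N}
    (h : ∀ s, ct (vec s (ee j)) a = 0) : md t a = a := by
  rw [← mp_radial ((t j - 1) • ContinuousLinearMap.proj j) (ee j) h, md_apply, mp_radial _ _ h]
  conv_rhs => rw [← mp_radial ((t j - 1) • ContinuousLinearMap.proj j) (ee j) h]
  congr 4
  ext v i
  by_cases e : i = j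
  · subst e; simp [ee]; ring
  · simp [ee, e, ht i e]

theorem sm_md {Y : Type} [NormedAddCommGroup Y] [NormedSpace ℝ Y] {t : Y → E N} {u : Y → Λ N}
    {y : Y} (ht : ContDiffAt ℝ ∞ t y) (hu : ContDiffAt ℝ ∞ u y) :
    ContDiffAt ℝ ∞ (fun y => md (t y) (u y)) y :=
  sm_app (Φ := fun y => md (t y)) (fun a => sm_mp (A := fun y => ContinuousLinearMap.mul ℝ (E N) (t y))
    ((ContinuousLinearMap.mul ℝ (E N)).contDiff.contDiffAt.comp y ht) a) hu

/-- Pull-back by diagonal maps. -/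
noncomputable def rt (t : E N) (u : E N → Λ N) (x : E N) : Λ N := md t (u (t * x))

theorem rt_rt (s t : E N) (u : E N → Λ N) (x : E N) : rt s (rt t u) x = rt (t * s) u x := by
  simp only [rt, md_md, mul_assoc]

theorem db_rt (s : Bool) {t x : E N} {u : E N → Λ N} (hu : DifferentiableAt ℝ u (t * x)) :
    db s idE (rt t u) x = rt t (db s idE u) x := by
  have e : ∀ u, pb (dg t) u = rt t u := fun u => funext fun x => by
    rw [pb, show fderiv ℝ (dg t) x = (dg t).restrictScalars ℝ from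
      ((dg t).restrictScalars ℝ).fderiv]
    rfl
  rw [← e, ← e]
  exact db_pb s ((dg t).analyticAt x) hu

/-- Points of the compact torus. -/
noncomputable def ex (θ : Fin (N + 1) → ℝ) : E N := fun l => chr 1 (θ l)

theorem ex_add (θ φ : Fin (N + 1) → ℝ) : ex (θ + φ) = ex θ * ex φ := funext fun _ => chr_add _ _ _

theorem ex_zero : ex (0 : Fin (N + 1) → ℝ) = 1 := funext fun _ => chr_zero _

theorem ex_single (j : Fin (N + 1)) (φ : ℝ) : ex (Pi.single j φ) j = chr 1 φ := by simp [ex]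

theorem ex_single_ne (j : Fin (N + 1)) (φ : ℝ) : ∀ i ≠ j, ex (Pi.single j φ) i = 1 :=
  fun i h => by simp [ex, h, chr_zero]

theorem ex_two_pi (j : Fin (N + 1)) : ex (Pi.single j (2 * π)) = 1 := funext fun i => by
  by_cases h : i = j
  · rw [h, ex_single, chr_two_pi]; rfl
  · exact ex_single_ne j _ i h

theorem ex_ne (θ : Fin (N + 1) → ℝ) {x : E N} (hx : x ≠ 0) : ex θ * x ≠ 0 := fun h =>
  hx (funext fun i => (mul_eq_zero.1 (congrFun h i)).resolve_left (chr_ne_zero _ _))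

theorem contDiff_ex : ContDiff ℝ ∞ (ex : (Fin (N + 1) → ℝ) → E N) :=
  contDiff_pi.2 fun l => (contDiff_chr 1).comp (contDiff_apply ℝ ℝ l)

theorem contDiff_ex_single (i : Fin (N + 1)) :
    ContDiff ℝ ∞ (fun φ : ℝ => (ex (Pi.single i φ) : E N)) :=
  contDiff_ex.comp (ContinuousLinearMap.single ℝ (fun _ => ℝ) i).contDiff

/-- Smoothness away from the origin. -/
def Sm (u : E N → Λ N) : Prop := ∀ x ≠ 0, ContDiffAt ℝ ∞ u x

theorem Sm.rt₂ {u : E N → Λ N} (hu : Sm u) (θ : Fin (N + 1) → ℝ) {x : E N} (hx : x ≠ 0) :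
    ContDiffAt ℝ ∞ (fun z : (Fin (N + 1) → ℝ) × E N => rt (ex z.1) u z.2) (θ, x) :=
  have h := (contDiff_ex.comp contDiff_fst).contDiffAt (x := (θ, x))
  sm_md h ((hu _ (ex_ne θ hx)).comp (θ, x) (h.mul contDiffAt_snd))

theorem Sm.rt₁ {u : E N → Λ N} (hu : Sm u) (i : Fin (N + 1)) (m : ℤ) (φ : ℝ) {x : E N}
    (hx : x ≠ 0) :
    ContDiffAt ℝ ∞ (fun z : ℝ × E N => chr m z.1 • rt (ex (Pi.single i z.1)) u z.2) (φ, x) :=
  sm_smul ((contDiff_chr m).comp contDiff_fst).contDiffAt ((hu.rt₂ (Pi.single i φ) hx).comp (φ, x)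
    (((ContinuousLinearMap.single ℝ (fun _ => ℝ) i).contDiff.comp contDiff_fst).prodMk
      contDiff_snd).contDiffAt)

theorem Sm.cont {u : E N → Λ N} (hu : Sm u) (i : Fin (N + 1)) (m : ℤ) {x : E N} (hx : x ≠ 0) :
    Continuous fun φ : ℝ => chr m φ • rt (ex (Pi.single i φ)) u x :=
  continuous_iff_continuousAt.2 fun φ => (hu.rt₁ i m φ hx).continuousAt.comp
    (f := fun φ : ℝ => (φ, x)) (by fun_prop)

theorem Sm.db {u : E N → Λ N} (hu : Sm u) : Sm (db false idE u) := fun x hx => sm_db (hu x hx)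

/-- Averaging over the rotations of one coordinate. -/
noncomputable def avg (i : Fin (N + 1)) (m : ℤ) (u : E N → Λ N) (x : E N) : Λ N :=
  ∫ φ in (0 : ℝ)..2 * π, chr m φ • rt (ex (Pi.single i φ)) u x

variable {u v : E N → Λ N} {x : E N} {q k : ℤ}

theorem Sm.avg (hu : Sm u) (i : Fin (N + 1)) (m : ℤ) : Sm (avg i m u) := fun x hx =>
  (param_interval isOpen_ne (fun φ _ _ hy => hu.rt₁ i m φ hy) x hx).1

theorem db_avg (hu : Sm u) (i : Fin (N + 1)) (m : ℤ) (hx : x ≠ 0) :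
    db false idE (avg i m u) x = avg i m (db false idE u) x := by
  have h1 := (param_interval (a := 0) (b := 2 * π) isOpen_ne
    (fun φ _ _ hy => hu.rt₁ i m φ hy) x hx).2
  have h2 : ∀ φ : ℝ, DifferentiableAt ℝ (rt (ex (Pi.single i φ)) u) x := fun φ =>
    sm_diff ((hu.rt₂ _ hx).comp x (contDiffAt_const.prodMk contDiffAt_id))
  have h3 : ∀ (φ : ℝ) w, fderiv ℝ (fun z : ℝ × E N => chr m z.1 • rt (ex (Pi.single i z.1)) u z.2)
      (φ, x) (0, w) = (chr m φ • fderiv ℝ (rt (ex (Pi.single i φ)) u) x) w := fun φ w => by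
    rw [← fderiv_fun_const_smul (h2 φ), (fderiv_slice (sm_diff (hu.rt₁ i m φ hx))).fderiv]
    simp
  rw [db_id, al_integral false (volume.restrict (Set.Ioc 0 (2 * π)))
    (F := fun φ => chr m φ • fderiv ℝ (rt (ex (Pi.single i φ)) u) x) (fun w => ?_) fun w => ?_,
    avg, intervalIntegral.integral_of_le Real.two_pi_pos.le]
  · simp only [al_smul, ← db_id, db_rt false (sm_diff (hu _ (ex_ne _ hx)))]
  · simp only [← h3]
    refine (Continuous.intervalIntegrable (continuous_iff_continuousAt.2 fun φ => ?_) _ _).1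
    exact ((sm_fderiv (hu.rt₁ i m φ hx)).continuousAt.comp
      (f := fun φ : ℝ => (φ, x)) (by fun_prop)).clm_apply continuousAt_const
  · simp only [← h3]
    rw [← intervalIntegral.integral_of_le Real.two_pi_pos.le]
    exact h1 w

theorem avg_congr (h : ∀ x ≠ 0, u x = v x) (i : Fin (N + 1)) (m : ℤ) (hx : x ≠ 0) :
    avg i m u x = avg i m v x := by
  simp only [avg, rt, h _ (ex_ne _ hx)]

theorem avg_zero (h : ∀ x ≠ 0, u x = 0) (i : Fin (N + 1)) (m : ℤ) (hx : x ≠ 0) :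
    avg i m u x = 0 := by
  simp [avg, rt, h _ (ex_ne _ hx)]

theorem avg_sub (hu : Sm u) (hv : Sm v) (i : Fin (N + 1)) (m : ℤ) (hx : x ≠ 0) :
    avg i m (fun y => u y - v y) x = avg i m u x - avg i m v x := by
  rw [avg, avg, avg, ← intervalIntegral.integral_sub ((hu.cont i m hx).intervalIntegrable _ _)
    ((hv.cont i m hx).intervalIntegrable _ _)]
  simp only [rt, map_sub, smul_sub]

theorem rt_avg (hu : Sm u) (i : Fin (N + 1)) (m : ℤ) (θ : Fin (N + 1) → ℝ) (hx : x ≠ 0) :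
    rt (ex θ) (avg i m u) x =
      ∫ φ in (0 : ℝ)..2 * π, chr m φ • rt (ex (θ + Pi.single i φ)) u x := by
  rw [rt, avg, ← toR_apply, ← (toR _).intervalIntegral_comp_comm
    ((hu.cont i m (ex_ne θ hx)).intervalIntegrable _ _)]
  simp only [toR_apply, map_smul, add_comm θ, ex_add, ← rt_rt]
  rfl

theorem rt_avg_self (hu : Sm u) (i : Fin (N + 1)) (m : ℤ) (ψ : ℝ) (hx : x ≠ 0) :
    rt (ex (Pi.single i ψ)) (avg i m u) x = chr (-m) ψ • avg i m u x := by
  rw [rt_avg hu i m _ hx]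
  simp only [← Pi.single_add]
  exact chr_shift m (F := fun φ => rt (ex (Pi.single i φ)) u x) (fun φ => by
    simp only [Pi.single_add, ex_add, ex_two_pi, mul_one]) ψ

/-- Smooth `(0, q)`-forms with values in `O(k)`. -/
structure Gd (q k : ℤ) (u : E N → Λ N) : Prop where
  sm : Sm u
  ty : ∀ x ≠ 0, u x ∈ Ty 0 q
  hz : ∀ x ≠ 0, ct (vec false x) (u x) = 0
  hm : Hm k (-q) u

theorem Gd.fm (h : Gd q k u) : (⟨u, h.sm⟩ : SM N) ∈ Fm 0 q k :=
  ⟨fun x hx => ⟨h.ty x hx, h.hz x hx⟩, by simpa using h.hm⟩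

theorem gd_of_fm {u : SM N} (h : u ∈ Fm 0 q k) : Gd q k u.1 :=
  ⟨u.2, fun x hx => (h.1 x hx).1, fun x hx => (h.1 x hx).2, by simpa using h.2⟩

theorem Gd.congr (h : Gd q k u) (e : ∀ x ≠ 0, v x = u x) : Gd q k v :=
  ⟨fun x hx => (h.sm x hx).congr_of_eventuallyEq ((ne_zero_ev hx).mono e),
    fun x hx => e x hx ▸ h.ty x hx, fun x hx => e x hx ▸ h.hz x hx, h.hm.congr e⟩

theorem Gd.db (h : Gd q k u) : Gd (q + 1) k (db false idE u) :=
  (gd_of_fm (DB_Fm h.fm)).congr fun _ hx => (DB_apply false ⟨u, h.sm⟩ hx).symm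

theorem Gd.add (h : Gd q k u) (h' : Gd q k v) : Gd q k fun x => u x + v x :=
  gd_of_fm (add_mem h.fm h'.fm)

theorem Gd.sub (h : Gd q k u) (h' : Gd q k v) : Gd q k fun x => u x - v x :=
  gd_of_fm (sub_mem h.fm h'.fm)

theorem Gd.zero : Gd q k fun _ : E N => 0 := gd_of_fm (zero_mem _)

theorem Gd.rt (h : Gd q k u) (θ : Fin (N + 1) → ℝ) : Gd q k (rt (ex θ) u) :=
  ⟨fun x hx => (h.sm.rt₂ θ hx).comp x (contDiffAt_const.prodMk contDiffAt_id),
    fun x hx => mp_tr_mem _ (h.ty _ (ex_ne θ hx)),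
    fun x hx => by rw [Anc.rt, ct_md, h.hz _ (ex_ne θ hx), map_zero],
    fun t x ht hx => by simp only [Anc.rt, mul_smul_comm, h.hm t _ ht (ex_ne θ hx), map_smul]⟩

theorem Gd.avg (h : Gd q k u) (i : Fin (N + 1)) (m : ℤ) : Gd q k (avg i m u) := by
  have key : ∀ (K : Submodule ℂ (Λ N)) x, (∀ θ, Anc.rt (ex θ) u x ∈ K) → Anc.avg i m u x ∈ K :=
    fun K x hK => by
      rw [Anc.avg, intervalIntegral.integral_of_le Real.two_pi_pos.le]
      exact integral_mem _ _ fun φ => K.smul_mem _ (hK _)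
  refine ⟨h.sm.avg i m, fun x hx => key _ x fun θ => (h.rt θ).ty x hx,
    fun x hx => key (LinearMap.ker (ct (vec false x))) x fun θ => (h.rt θ).hz x hx,
    fun t x ht hx => ?_⟩
  simp only [Anc.avg, (h.rt _).hm t x ht hx, smul_comm (chr m _), intervalIntegral.integral_smul]

theorem Gd.eq_zero (h : Gd q k u) (hk : -(N : ℤ) ≤ k)
    (h0 : ∀ j, ∀ m ≤ 0, ∀ x ≠ 0, Anc.avg j m u x = 0) (hx : x ≠ 0) : u x = 0 := by
  have := torus Finset.univ k (fun θ => Anc.rt (ex θ) u x)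
    (continuous_iff_continuousAt.2 fun θ => (h.sm.rt₂ θ hx).continuousAt.comp
      (f := fun θ => (θ, x)) (by fun_prop))
    (fun j θ => by simp only [ex_add, ex_two_pi, mul_one])
    (fun j _ m hm θ => by rw [← rt_avg h.sm j m θ hx, Anc.rt, h0 j m hm _ (ex_ne θ hx), map_zero])
    (fun θ φ => ?_) (by simp; omega) 0
  · simpa [ex_zero, Anc.rt, md_one] using this
  have e : ex (∑ j, Pi.single j φ : Fin (N + 1) → ℝ) = fun _ => chr 1 φ := by
    rw [Finset.univ_sum_single (fun _ => φ)]; rfl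
  have c0 := chr_ne_zero 1 φ
  have c1 : conj (chr 1 φ) ≠ 0 := by simpa using c0
  rw [ex_add, ← rt_rt, e, Anc.rt, show (fun _ => chr 1 φ) * x = chr 1 φ • x from rfl,
    (h.rt θ).hm _ _ c0 hx, map_smul, md_const ((h.rt θ).ty x hx), smul_smul, ← chr_one_zpow k]
  congr 1
  rw [zpow_zero, one_mul, mul_assoc, ← zpow_add₀ c1, neg_add_cancel, zpow_zero, mul_one]

end Vale.Agent.P269.Hdg.Anc
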