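import Vale.Agent.P269.Hdg.Typ

/-!
# The operators `∂`, `\bar ∂`, `d` on maps into the exterior algebra
-/

namespace Vale.Agent.P269.Hdg

open scoped ComplexConjugate ContDiff
open Complex (I)
open Topology Filter

variable {N : ℕ}

/-- A complex linear map of the exterior algebra as a real continuous linear map. -/
noncomputable def toR (T : Λ N →ₗ[ℂ] Λ N) : Λ N →L[ℝ] Λ N :=
  (LinearMap.toContinuousLinearMap T).restrictScalars ℝ

@[simp] theorem toR_apply (T : Λ N →ₗ[ℂ] Λ N) (a : Λ N) : toR T a = T a := rfl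

/-- One-forms, as a continuous linear map. -/
noncomputable def ioL : W N →L[ℝ] Λ N := (LinearMap.toContinuousLinearMap io).restrictScalars ℝ

@[simp] theorem ioL_apply (w : W N) : ioL w = io w := rfl

section vv

variable {B : Type} [NormedAddCommGroup B] [NormedSpace ℂ B]

/-- The `(1,0)` or `(0,1)` part of a vector, evaluated on a vector valued covector. -/
noncomputable def vv (s : Bool) (v : E N) (K : E N →L[ℝ] B) : B :=
  (2⁻¹ : ℂ) • (K v - sg s I • K (I • v))

theorem vv_add (s : Bool) (v : E N) (K K' : E N →L[ℝ] B) :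
    vv s v (K + K') = vv s v K + vv s v K' := by
  simp only [vv, _root_.add_apply]; module

theorem vv_smul (s : Bool) (v : E N) (c : ℂ) (K : E N →L[ℝ] B) : vv s v (c • K) = c • vv s v K := by
  simp only [vv, _root_.smul_apply]; module

theorem vv_zero (s : Bool) (v : E N) : vv s v (0 : E N →L[ℝ] B) = 0 := by simp [vv]

theorem vv_add_vv (v : E N) (K : E N →L[ℝ] B) : vv true v K + vv false v K = K v := by
  simp only [vv, sg_true, sg_false, Complex.conj_I]; module

theorem K_smul (K : E N →L[ℝ] B) (t : ℂ) (v : E N) :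
    K (t • v) = (t.re : ℂ) • K v + (t.im : ℂ) • K (I • v) := by
  have : t • v = t.re • v + t.im • (I • v) := by
    conv_lhs => rw [← Complex.re_add_im t]
    rw [add_smul, mul_smul]; rfl
  rw [this, map_add, map_smul, map_smul]; rfl

theorem vv_smul_left (s : Bool) (t : ℂ) (v : E N) (K : E N →L[ℝ] B) :
    vv s (t • v) K = sg s t • vv s v K := by
  simp only [vv]
  rw [smul_smul I t, K_smul K t, K_smul K (I * t)]
  have h1 : ((I * t).re : ℂ) = -t.im := by simp
  have h2 : ((I * t).im : ℂ) = t.re := by simp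
  have h3 : sg s t = t.re + t.im * sg s I := by
    conv_lhs => rw [← Complex.re_add_im t]
    rw [map_add, map_mul, sg_ofReal, sg_ofReal]
  have h4 : sg s I * sg s I = -1 := by rw [← map_mul, Complex.I_mul_I, map_neg, map_one]
  rw [h1, h2, h3]
  generalize (t.re : ℂ) = a
  generalize (t.im : ℂ) = b
  match_scalars
  · ring
  · linear_combination (b / 2) * h4

theorem vv_add_left (s : Bool) (u v : E N) (K : E N →L[ℝ] B) :
    vv s (u + v) K = vv s u K + vv s v K := by
  simp only [vv, smul_add, map_add]; module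

theorem vv_eq_sum (s : Bool) (v : E N) (K : E N →L[ℝ] B) :
    vv s v K = ∑ j, sg s (v j) • vv s (ee j) K := by
  have h : ∀ t : Finset (Fin (N + 1)), vv s (∑ j ∈ t, v j • ee j) K =
      ∑ j ∈ t, sg s (v j) • vv s (ee j) K := by
    intro t
    induction t using Finset.induction_on with
    | empty => simp [vv]
    | insert a t ha ih => rw [Finset.sum_insert ha, Finset.sum_insert ha, vv_add_left, ih,
        vv_smul_left]
  rw [← h, sum_ee]

theorem K_expand (K : E N →L[ℝ] B) (v : E N) :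
    K v = ∑ j, dz true j v • vv true (ee j) K + ∑ j, dz false j v • vv false (ee j) K := by
  rw [← vv_add_vv, vv_eq_sum true, vv_eq_sum false]; simp

theorem vv_comp_cl (s : Bool) (v : E N) (K : E N →L[ℝ] B) (M : E N →L[ℂ] E N) :
    vv s v (K.comp (M.restrictScalars ℝ)) = vv s (M v) K := by
  simp [vv]

theorem vv_W (s : Bool) (v : E N) (w : W N) : vv s v w = vec s v w := by
  simp [vv, vec_apply]; ring

end vv

theorem vv_comp (s : Bool) (v : E N) (T : Λ N →ₗ[ℂ] Λ N) (K : E N →L[ℝ] Λ N) :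
    vv s v ((toR T).comp K) = T (vv s v K) := by
  simp [vv]

/-- Alternation of the `(1,0)` or `(0,1)` part of a covector with values in forms. -/
noncomputable def al (s : Bool) : (E N →L[ℝ] Λ N) →L[ℝ] Λ N :=
  LinearMap.toContinuousLinearMap
    { toFun := fun K => ∑ j, io (dz s j) * vv s (ee j) K
      map_add' := fun K K' => by simp [vv_add, mul_add, Finset.sum_add_distrib]
      map_smul' := fun c K => by
        have : c • K = (c : ℂ) • K := rfl
        rw [this]
        simp [vv_smul, Finset.smul_sum] }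

theorem al_apply (s : Bool) (K : E N →L[ℝ] Λ N) : al s K = ∑ j, io (dz s j) * vv s (ee j) K := rfl

theorem al_smul (s : Bool) (c : ℂ) (K : E N →L[ℝ] Λ N) : al s (c • K) = c • al s K := by
  simp [al_apply, vv_smul, Finset.smul_sum]

theorem al_of_eq (s : Bool) {α : Type} (t : Finset α) (w : α → W N) (a : α → Λ N)
    {K : E N →L[ℝ] Λ N} (h : ∀ v, K v = ∑ i ∈ t, w i v • a i) :
    al s K = ∑ i ∈ t, io (pr s (w i)) * a i := by
  have h1 : ∀ v, vv s v K = ∑ i ∈ t, vec s v (w i) • a i := by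
    intro v
    simp only [vv, h, vec_apply, Finset.smul_sum, ← Finset.sum_sub_distrib]
    refine Finset.sum_congr rfl fun i _ => ?_
    module
  simp only [al_apply, h1, pr_eq, map_sum, Finset.mul_sum, Finset.sum_mul, map_smul,
    mul_smul_comm, smul_mul_assoc]
  exact Finset.sum_comm

theorem al_one (s : Bool) (w : W N) (a : Λ N) {K : E N →L[ℝ] Λ N} (h : ∀ v, K v = w v • a) :
    al s K = io (pr s w) * a := by
  simpa using al_of_eq s {()} (fun _ => w) (fun _ => a) (K := K) (by simpa using h)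

theorem al_comp (s : Bool) (T : Λ N →ₗ[ℂ] Λ N) (K : E N →L[ℝ] Λ N) (M : E N →L[ℝ] E N) :
    al s ((toR T).comp (K.comp M)) =
      ∑ j, io (pr s (tr M (dz true j))) * T (vv true (ee j) K) +
        ∑ j, io (pr s (tr M (dz false j))) * T (vv false (ee j) K) := by
  rw [al_of_eq s Finset.univ (fun i : Fin (N + 1) ⊕ Fin (N + 1) =>
    i.elim (fun j => tr M (dz true j)) (fun j => tr M (dz false j)))
    (fun i => i.elim (fun j => T (vv true (ee j) K)) (fun j => T (vv false (ee j) K)))]
  · simp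
  · intro v
    simp only [ContinuousLinearMap.comp_apply, toR_apply]
    rw [K_expand K]; simp

theorem al_tr (s : Bool) (K : E N →L[ℝ] Λ N) (M : E N →L[ℂ] E N) :
    al s ((toR (mp (tr (M.restrictScalars ℝ))).toLinearMap).comp (K.comp (M.restrictScalars ℝ))) =
      mp (tr (M.restrictScalars ℝ)) (al s K) := by
  rw [al_comp, al_apply]
  simp only [pr_tr, dz, pr_cv]
  cases s <;> simp [mp_io]

theorem al_tr_real (K : E N →L[ℝ] Λ N) (M : E N →L[ℝ] E N) :
    al true ((toR (mp (tr M)).toLinearMap).comp (K.comp M)) +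
      al false ((toR (mp (tr M)).toLinearMap).comp (K.comp M)) =
      mp (tr M) (al true K + al false K) := by
  rw [al_comp, al_comp, al_apply, al_apply, add_add_add_comm, ← Finset.sum_add_distrib,
    ← Finset.sum_add_distrib]
  simp only [← add_mul, ← map_add, pr_add_pr]
  simp [mp_io]

theorem al_al (s s' : Bool) (B : E N →L[ℝ] E N →L[ℝ] Λ N) :
    al s' ((al s).comp B) = -al s ((al s').comp B.flip) := by
  have h : ∀ (s s' : Bool) (B : E N →L[ℝ] E N →L[ℝ] Λ N), al s' ((al s).comp B) =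
      ∑ i, ∑ j, io (dz s' i) * (io (dz s j) * ((4⁻¹ : ℂ) • (B (ee i) (ee j) -
        sg s I • B (ee i) (I • ee j) - sg s' I • B (I • ee i) (ee j) +
          (sg s I * sg s' I) • B (I • ee i) (I • ee j)))) := by
    intro s s' B
    rw [al_apply]
    refine Finset.sum_congr rfl fun i _ => ?_
    rw [← Finset.mul_sum]; congr 1
    simp only [vv, ContinuousLinearMap.comp_apply, al_apply, Finset.smul_sum,
      ← Finset.sum_sub_distrib]
    refine Finset.sum_congr rfl fun j _ => ?_
    simp only [mul_smul_comm, mul_sub, mul_add]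
    module
  rw [h, h, Finset.sum_comm, ← Finset.sum_neg_distrib]
  refine Finset.sum_congr rfl fun i _ => ?_
  rw [← Finset.sum_neg_distrib]
  refine Finset.sum_congr rfl fun j _ => ?_
  rw [io_io_swap]
  simp only [ContinuousLinearMap.flip_apply]
  congr 4
  module

theorem al_mem {p q : ℤ} (s : Bool) {K : E N →L[ℝ] Λ N} (h : ∀ v, K v ∈ Ty p q) :
    al s K ∈ Ty (p + dl true s) (q + dl false s) := by
  rw [al_apply]
  refine Submodule.sum_mem _ fun j _ => ?_
  rw [add_comm p, add_comm q]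
  exact Ty_mul (io_cv_mem_Ty s _) (Submodule.smul_mem _ _
    (Submodule.sub_mem _ (h _) (Submodule.smul_mem _ _ (h _))))

variable {Y : Type} [NormedAddCommGroup Y] [NormedSpace ℝ Y]

/-- The operator `∂` (`s = true`) or `\bar ∂` (`s = false`) in the directions `L`. -/
noncomputable def db (s : Bool) (L : E N →L[ℝ] Y) (u : Y → Λ N) (x : Y) : Λ N :=
  al s ((fderiv ℝ u x).comp L)

/-- The exterior derivative in the directions `L`. -/
noncomputable def dd (L : E N →L[ℝ] Y) (u : Y → Λ N) (x : Y) : Λ N :=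
  db true L u x + db false L u x

theorem sm_diff {B : Type} [NormedAddCommGroup B] [NormedSpace ℝ B] {u : Y → B} {x : Y}
    (h : ContDiffAt ℝ ∞ u x) : DifferentiableAt ℝ u x := h.differentiableAt (by simp)

theorem sm_ev {B : Type} [NormedAddCommGroup B] [NormedSpace ℝ B] {u : Y → B} {x : Y}
    (h : ContDiffAt ℝ ∞ u x) : ∀ᶠ y in 𝓝 x, DifferentiableAt ℝ u y :=
  ((h.of_le (m := 1) (by exact_mod_cast le_top)).eventually (by simp)).mono fun _ h =>
    h.differentiableAt (by simp)

theorem sm_fderiv {B : Type} [NormedAddCommGroup B] [NormedSpace ℝ B] {u : Y → B} {x : Y}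
    (h : ContDiffAt ℝ ∞ u x) : ContDiffAt ℝ ∞ (fderiv ℝ u) x := h.fderiv_right (by simp)

theorem sm_T {u : Y → Λ N} {x : Y} (T : Λ N →ₗ[ℂ] Λ N) (h : ContDiffAt ℝ ∞ u x) :
    ContDiffAt ℝ ∞ (fun y => T (u y)) x := (toR T).contDiff.contDiffAt.comp x h

theorem fderiv_T {u : Y → Λ N} {x : Y} (T : Λ N →ₗ[ℂ] Λ N) (h : DifferentiableAt ℝ u x) :
    fderiv ℝ (fun y => T (u y)) x = (toR T).comp (fderiv ℝ u x) :=
  ((toR T).hasFDerivAt.comp x h.hasFDerivAt).fderiv

variable {s : Bool} {L : E N →L[ℝ] Y} {u v : Y → Λ N} {x : Y}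

theorem db_congr (h : u =ᶠ[𝓝 x] v) : db s L u x = db s L v x := by
  unfold db; rw [h.fderiv_eq]

theorem db_congr' (h : u =ᶠ[𝓝 x] v) : db s L u =ᶠ[𝓝 x] db s L v :=
  h.eventuallyEq_nhds.mono fun _ h => db_congr h

theorem db_const (a : Λ N) : db s L (fun _ => a) x = 0 := by simp [db]

theorem db_zero_dir : db s (0 : E N →L[ℝ] Y) u x = 0 := by simp [db]

theorem db_add_dir (L' : E N →L[ℝ] Y) : db s (L + L') u x = db s L u x + db s L' u x := by
  simp [db]

theorem db_add (hu : DifferentiableAt ℝ u x) (hv : DifferentiableAt ℝ v x) :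
    db s L (fun y => u y + v y) x = db s L u x + db s L v x := by
  unfold db; rw [fderiv_fun_add hu hv, ContinuousLinearMap.add_comp, map_add]

theorem db_sub (hu : DifferentiableAt ℝ u x) (hv : DifferentiableAt ℝ v x) :
    db s L (fun y => u y - v y) x = db s L u x - db s L v x := by
  unfold db; rw [fderiv_fun_sub hu hv, ContinuousLinearMap.sub_comp, map_sub]

theorem db_neg : db s L (fun y => -u y) x = -db s L u x := by
  unfold db; rw [fderiv_fun_neg, ContinuousLinearMap.neg_comp, map_neg]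

theorem db_csmul (c : ℂ) (hu : DifferentiableAt ℝ u x) :
    db s L (fun y => c • u y) x = c • db s L u x := by
  unfold db; rw [fderiv_fun_const_smul hu, ← al_smul]; rfl

theorem db_sum {α : Type} (t : Finset α) {w : α → Y → Λ N}
    (h : ∀ i ∈ t, DifferentiableAt ℝ (w i) x) :
    db s L (fun y => ∑ i ∈ t, w i y) x = ∑ i ∈ t, db s L (w i) x := by
  unfold db; rw [fderiv_fun_sum h, ContinuousLinearMap.finsetSum_comp, map_sum]

theorem sm_db (h : ContDiffAt ℝ ∞ u x) : ContDiffAt ℝ ∞ (db s L u) x :=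
  (al s).contDiff.contDiffAt.comp x ((sm_fderiv h).clm_comp contDiffAt_const)

theorem db_mul (hu : DifferentiableAt ℝ u x) (hv : DifferentiableAt ℝ v x) :
    db s L (fun y => u y * v y) x = db s L u x * v x + par (u x) * db s L v x := by
  unfold db
  rw [fderiv_fun_mul' hu hv]
  simp only [al_apply, Finset.sum_mul, Finset.mul_sum, ← Finset.sum_add_distrib]
  refine Finset.sum_congr rfl fun j _ => ?_
  rw [← mul_assoc (par _), ← io_mul_eq]
  simp only [vv, ContinuousLinearMap.comp_apply, _root_.add_apply, _root_.smul_apply, smul_eq_mul,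
    MulOpposite.smul_eq_mul_unop, MulOpposite.unop_op, mul_smul_comm, smul_mul_assoc, mul_sub,
    mul_add, sub_mul, mul_assoc]
  module

theorem db_smul {g : Y → ℂ} (hg : DifferentiableAt ℝ g x) (hu : DifferentiableAt ℝ u x) :
    db s L (fun y => g y • u y) x =
      io (pr s ((fderiv ℝ g x).comp L)) * u x + g x • db s L u x := by
  unfold db
  rw [fderiv_fun_smul hg hu, ContinuousLinearMap.add_comp, map_add, add_comm,
    al_one s ((fderiv ℝ g x).comp L) (u x) (by simp), ← al_smul]
  rfl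

theorem db_db (s s' : Bool) (L L' : E N →L[ℝ] Y) (h : ContDiffAt ℝ ∞ u x) :
    db s' L' (db s L u) x = -db s L (db s' L' u) x := by
  have key : ∀ (s s' : Bool) (L L' : E N →L[ℝ] Y), db s' L' (db s L u) x =
      al s' ((al s).comp ((fderiv ℝ (fderiv ℝ u) x).bilinearComp L' L)) := by
    intro s s' L L'
    have h1 : HasFDerivAt (db s L u) ((al s).comp
        (((ContinuousLinearMap.compL ℝ (E N) Y (Λ N)).flip L).comp (fderiv ℝ (fderiv ℝ u) x))) x :=
      (al s).hasFDerivAt.comp x (((ContinuousLinearMap.compL ℝ (E N) Y (Λ N)).flip L).hasFDerivAt.comp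
        x (sm_diff (sm_fderiv h)).hasFDerivAt)
    rw [db, h1.fderiv]; rfl
  have hs : IsSymmSndFDerivAt ℝ u x := h.isSymmSndFDerivAt (by
    simp only [minSmoothness_of_isRCLikeNormedField]
    exact WithTop.coe_le_coe.2 (le_top (a := (2 : ℕ∞))))
  rw [key, key, al_al]
  congr 3
  ext v w
  simp [hs.eq]

theorem db_db_self (h : ContDiffAt ℝ ∞ u x) : db s L (db s L u) x = 0 := by
  have := db_db s s L L h
  have h2 : (2 : ℂ) • db s L (db s L u) x = 0 := by rw [two_smul]; nth_rw 1 [this]; simp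
  exact (smul_eq_zero.1 h2).resolve_left two_ne_zero

theorem db_comp {Z : Type} [NormedAddCommGroup Z] [NormedSpace ℝ Z] {f : Y → Z} {u : Z → Λ N}
    (hu : DifferentiableAt ℝ u (f x)) (hf : DifferentiableAt ℝ f x) :
    db s L (fun y => u (f y)) x = db s ((fderiv ℝ f x).comp L) u (f x) := by
  unfold db; rw [fderiv_fun_comp x hu hf]; rfl

theorem db_ct (f : Module.Dual ℂ (W N)) (hu : DifferentiableAt ℝ u x) :
    db s L (fun y => ct f (u y)) x =
      ∑ j, f (dz s j) • vv s (ee j) ((fderiv ℝ u x).comp L) - ct f (db s L u x) := by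
  unfold db
  rw [fderiv_T _ hu, ContinuousLinearMap.comp_assoc, al_apply, al_apply, map_sum,
    ← Finset.sum_sub_distrib]
  refine Finset.sum_congr rfl fun j _ => ?_
  rw [ct_io_mul, vv_comp]; abel

theorem db_ct_vec (s' : Bool) (w : E N) (hu : DifferentiableAt ℝ u x) :
    db s L (fun y => ct (vec s' w) (u y)) x =
      (dl s s' : ℂ) • vv s w ((fderiv ℝ u x).comp L) - ct (vec s' w) (db s L u x) := by
  rw [db_ct _ hu]; congr 1
  simp only [vec_dz, dl]
  by_cases h : s = s'
  · subst h; simp [vv_eq_sum s w]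
  · simp [h, Ne.symm h]

theorem fderiv_mem (K : Submodule ℂ (Λ N)) (hu : DifferentiableAt ℝ u x)
    (h : ∀ᶠ y in 𝓝 x, u y ∈ K) (w : Y) : fderiv ℝ u x w ∈ K := by
  obtain ⟨K', hK⟩ := K.exists_isCompl
  let P : Λ N →ₗ[ℂ] Λ N := K.subtype ∘ₗ K.projectionOnto K' hK
  have h1 : (fun y => P (u y)) =ᶠ[𝓝 x] u := h.mono fun y hy => by
    simp [P, Submodule.projectionOnto_apply_left hK ⟨u y, hy⟩]
  rw [← h1.fderiv_eq, fderiv_T P hu]
  simp [P]

theorem db_mem {p q : ℤ} (hu : DifferentiableAt ℝ u x) (h : ∀ᶠ y in 𝓝 x, u y ∈ Ty p q) :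
    db s L u x ∈ Ty (p + dl true s) (q + dl false s) :=
  al_mem s fun _ => fderiv_mem _ hu h _

theorem pt_db (p q : ℤ) (hu : DifferentiableAt ℝ u x) :
    pt (p + dl true s) (q + dl false s) (db s L u x) = db s L (fun y => pt p q (u y)) x := by
  unfold db
  rw [fderiv_T _ hu, ContinuousLinearMap.comp_assoc, al_apply, al_apply, map_sum]
  refine Finset.sum_congr rfl fun j _ => ?_
  rw [vv_comp, add_comm p, add_comm q]
  exact pt_mul_left (io_cv_mem_Ty s _) _ _ _

theorem dd_congr (h : u =ᶠ[𝓝 x] v) : dd L u x = dd L v x := by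
  unfold dd; rw [db_congr h, db_congr h]

theorem dd_congr' (h : u =ᶠ[𝓝 x] v) : dd L u =ᶠ[𝓝 x] dd L v :=
  h.eventuallyEq_nhds.mono fun _ h => dd_congr h

theorem dd_const (a : Λ N) : dd L (fun _ => a) x = 0 := by simp [dd, db_const]

theorem dd_zero_dir : dd (0 : E N →L[ℝ] Y) u x = 0 := by simp [dd, db_zero_dir]

theorem dd_add_dir (L' : E N →L[ℝ] Y) : dd (L + L') u x = dd L u x + dd L' u x := by
  simp only [dd, db_add_dir]; abel

theorem dd_add (hu : DifferentiableAt ℝ u x) (hv : DifferentiableAt ℝ v x) :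
    dd L (fun y => u y + v y) x = dd L u x + dd L v x := by
  simp only [dd, db_add hu hv]; abel

theorem dd_sub (hu : DifferentiableAt ℝ u x) (hv : DifferentiableAt ℝ v x) :
    dd L (fun y => u y - v y) x = dd L u x - dd L v x := by
  simp only [dd, db_sub hu hv]; abel

theorem dd_neg : dd L (fun y => -u y) x = -dd L u x := by
  simp only [dd, db_neg]; abel

theorem dd_csmul (c : ℂ) (hu : DifferentiableAt ℝ u x) :
    dd L (fun y => c • u y) x = c • dd L u x := by
  simp only [dd, db_csmul c hu, smul_add]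

theorem dd_sum {α : Type} (t : Finset α) {w : α → Y → Λ N}
    (h : ∀ i ∈ t, DifferentiableAt ℝ (w i) x) :
    dd L (fun y => ∑ i ∈ t, w i y) x = ∑ i ∈ t, dd L (w i) x := by
  simp only [dd, db_sum t h, Finset.sum_add_distrib]

theorem sm_dd (h : ContDiffAt ℝ ∞ u x) : ContDiffAt ℝ ∞ (dd L u) x := (sm_db h).add (sm_db h)

theorem dd_mul (hu : DifferentiableAt ℝ u x) (hv : DifferentiableAt ℝ v x) :
    dd L (fun y => u y * v y) x = dd L u x * v x + par (u x) * dd L v x := by
  simp only [dd, db_mul hu hv, add_mul, mul_add]; abel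

theorem dd_smul {g : Y → ℂ} (hg : DifferentiableAt ℝ g x) (hu : DifferentiableAt ℝ u x) :
    dd L (fun y => g y • u y) x = io ((fderiv ℝ g x).comp L) * u x + g x • dd L u x := by
  simp only [dd, db_smul hg hu, smul_add]
  rw [add_add_add_comm, ← add_mul, ← map_add, pr_add_pr]

theorem dd_dd (L L' : E N →L[ℝ] Y) (h : ContDiffAt ℝ ∞ u x) :
    dd L' (dd L u) x = -dd L (dd L' u) x := by
  have e : ∀ (L L' : E N →L[ℝ] Y), dd L' (dd L u) x = db true L' (db true L u) x +
      db true L' (db false L u) x + (db false L' (db true L u) x + db false L' (db false L u) x) :=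
    fun L L' => by
      unfold dd
      rw [db_add (sm_diff (sm_db h)) (sm_diff (sm_db h)),
        db_add (sm_diff (sm_db h)) (sm_diff (sm_db h))]
  rw [e, e, db_db true true L L' h, db_db false true L L' h, db_db true false L L' h,
    db_db false false L L' h]
  abel

theorem dd_dd_self (h : ContDiffAt ℝ ∞ u x) : dd L (dd L u) x = 0 := by
  have := dd_dd L L h
  have h2 : (2 : ℂ) • dd L (dd L u) x = 0 := by rw [two_smul]; nth_rw 1 [this]; simp
  exact (smul_eq_zero.1 h2).resolve_left two_ne_zero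

theorem dd_comp {Z : Type} [NormedAddCommGroup Z] [NormedSpace ℝ Z] {f : Y → Z} {u : Z → Λ N}
    (hu : DifferentiableAt ℝ u (f x)) (hf : DifferentiableAt ℝ f x) :
    dd L (fun y => u (f y)) x = dd ((fderiv ℝ f x).comp L) u (f x) := by
  simp only [dd, db_comp hu hf]

/-! ## Families of linear maps -/

theorem sm_family {Φ : Y → Λ N →ₗ[ℂ] Λ N} (hΦ : ∀ a, ContDiffAt ℝ ∞ (fun y => Φ y a) x) :
    ContDiffAt ℝ ∞ (fun y => toR (Φ y)) x := by
  have : (fun y => toR (Φ y)) = fun y => ∑ b, ContinuousLinearMap.smulRightL ℝ (Λ N) (Λ N)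
      (LinearMap.toContinuousLinearMap ((Module.finBasis ℝ (Λ N)).coord b))
      (Φ y (Module.finBasis ℝ (Λ N) b)) := by
    funext y
    ext a
    conv_lhs => rw [← (Module.finBasis ℝ (Λ N)).sum_repr a, map_sum]
    simp
  rw [this]
  exact ContDiffAt.sum fun b _ => (ContinuousLinearMap.contDiff _).contDiffAt.comp x (hΦ _)

theorem sm_app {Φ : Y → Λ N →ₗ[ℂ] Λ N} (hΦ : ∀ a, ContDiffAt ℝ ∞ (fun y => Φ y a) x)
    (hu : ContDiffAt ℝ ∞ u x) : ContDiffAt ℝ ∞ (fun y => Φ y (u y)) x :=
  (sm_family hΦ).clm_apply hu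

theorem fderiv_app {Φ : Y → Λ N →ₗ[ℂ] Λ N} (hΦ : ∀ a, ContDiffAt ℝ ∞ (fun y => Φ y a) x)
    (hu : DifferentiableAt ℝ u x) : fderiv ℝ (fun y => Φ y (u y)) x =
      fderiv ℝ (fun y => Φ y (u x)) x + (toR (Φ x)).comp (fderiv ℝ u x) := by
  have h1 := fderiv_clm_apply (sm_diff (sm_family hΦ)) hu
  have h2 := fderiv_clm_apply (sm_diff (sm_family hΦ)) (differentiableAt_const (u x))
  simp only [toR_apply] at h1 h2
  rw [h1, h2]; simp [add_comm]

theorem sm_mp {A : Y → E N →L[ℝ] E N} (hA : ContDiffAt ℝ ∞ A x) (a : Λ N) :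
    ContDiffAt ℝ ∞ (fun y => mp (tr (A y)) a) x := by
  induction a using ind with
  | one => simpa using contDiffAt_const
  | smul c a h => simpa using h.const_smul c
  | add a b ha hb => simpa using ha.add hb
  | mul w a h =>
    simp only [map_mul, mp_io]
    exact (ioL.contDiff.contDiffAt.comp x (contDiffAt_const.clm_comp hA)).mul h

theorem sm_ct (s : Bool) {ξ : Y → E N} (hξ : ContDiffAt ℝ ∞ ξ x) (hu : ContDiffAt ℝ ∞ u x) :
    ContDiffAt ℝ ∞ (fun y => ct (vec s (ξ y)) (u y)) x := by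
  have : (fun y => ct (vec s (ξ y)) (u y)) =
      fun y => ∑ j, sgL s (ξ y j) • ct (vec s (ee j)) (u y) := by
    funext y; rw [vec_eq_sum]; simp
  rw [this]
  exact ContDiffAt.sum fun j _ => ((sgL s).contDiff.contDiffAt.comp x
    (contDiffAt_pi.1 hξ j)).smul (sm_T _ hu)

end Vale.Agent.P269.Hdg
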