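import Vale.Agent.P269.Hdg.Forms

/-!
# Parametric integrals, the Cauchy transform, the Cauchy-Pompeiu formula
-/

namespace Vale.Agent.P269.Hdg

open scoped ContDiff Interval
open Complex (I)
open Topology Filter MeasureTheory

variable {N : ℕ} {B Y : Type} [NormedAddCommGroup B] [NormedSpace ℂ B] [CompleteSpace B]
  [NormedAddCommGroup Y] [NormedSpace ℝ Y] [FiniteDimensional ℝ Y]

omit [CompleteSpace B] in
theorem clm_expand (L : Y →L[ℝ] B) : L = ∑ i, ContinuousLinearMap.smulRightL ℝ Y B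
    (LinearMap.toContinuousLinearMap ((Module.finBasis ℝ Y).coord i))
      (L (Module.finBasis ℝ Y i)) := by
  ext a
  conv_lhs => rw [← (Module.finBasis ℝ Y).sum_repr a, map_sum]
  simp

theorem param {Ω : Type} [MeasurableSpace Ω] (μ : Measure Ω) {U : Set Y} (hU : IsOpen U)
    (P : (Ω → Y → B) → Prop)
    (hm : ∀ F, P F → ∀ y ∈ U, AEStronglyMeasurable (fun o => F o y) μ)
    (hd : ∀ F, P F → ∀ᵐ o ∂μ, ∀ y ∈ U, DifferentiableAt ℝ (F o) y)
    (hP : ∀ F, P F → ∀ v, P (fun o y => fderiv ℝ (F o) y v))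
    (hb : ∀ F, P F → ∀ y ∈ U, ∃ g, Integrable g μ ∧ ∃ s ∈ 𝓝 y, ∀ᵐ o ∂μ, ∀ y' ∈ s,
      ‖F o y'‖ ≤ g o) :
    ∀ F, P F → ∀ y ∈ U, ContDiffAt ℝ ∞ (fun y => ∫ o, F o y ∂μ) y ∧
      ∀ v, fderiv ℝ (fun y => ∫ o, F o y ∂μ) y v = ∫ o, fderiv ℝ (F o) y v ∂μ := by
  let b := Module.finBasis ℝ Y
  let T := fun i => ContinuousLinearMap.smulRightL ℝ Y B
    (LinearMap.toContinuousLinearMap (b.coord i))
  have hi : ∀ F, P F → ∀ y ∈ U, Integrable (fun o => F o y) μ := fun F hF y hy => by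
    obtain ⟨g, hg, s, hs, h⟩ := hb F hF y hy
    exact hg.mono' (hm F hF y hy) (h.mono fun o h => h y (mem_of_mem_nhds hs))
  have hi' : ∀ F, P F → ∀ y ∈ U, Integrable (fun o => fderiv ℝ (F o) y) μ := fun F hF y hy =>
    (integrable_finsetSum Finset.univ fun i _ =>
      (T i).integrable_comp (hi _ (hP F hF (b i)) y hy)).congr
        (Eventually.of_forall fun o => (clm_expand _).symm)
  have hD : ∀ F, P F → ∀ y ∈ U,
      HasFDerivAt (fun y => ∫ o, F o y ∂μ) (∫ o, fderiv ℝ (F o) y ∂μ) y := by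
    intro F hF y hy
    choose g hg s hs h using fun i => hb _ (hP F hF (b i)) y hy
    refine hasFDerivAt_integral_of_dominated_of_fderiv_le (F := fun y o => F o y)
      (F' := fun y o => fderiv ℝ (F o) y) (s := U ∩ ⋂ i, s i)
      (bound := fun o => ∑ i, ‖T i‖ * g i o) (inter_mem (hU.mem_nhds hy) (iInter_mem.2 hs))
      (eventually_of_mem (hU.mem_nhds hy) fun y hy => hm F hF y hy) (hi F hF y hy)
      (hi' F hF y hy).1 ?_ (integrable_finsetSum _ fun i _ => (hg i).const_mul _) ?_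
    · filter_upwards [ae_all_iff.2 h] with o ho y' hy'
      rw [clm_expand (fderiv ℝ (F o) y')]
      exact (norm_sum_le _ _).trans (Finset.sum_le_sum fun i _ => ((T i).le_opNorm _).trans
        (mul_le_mul_of_nonneg_left (ho i y' (Set.mem_iInter.1 hy'.2 i)) (norm_nonneg _)))
    · filter_upwards [hd F hF] with o ho y' hy' using (ho y' hy'.1).hasFDerivAt
  have hv : ∀ F, P F → ∀ y ∈ U, ∀ v, fderiv ℝ (fun y => ∫ o, F o y ∂μ) y v =
      ∫ o, fderiv ℝ (F o) y v ∂μ := fun F hF y hy v => by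
    rw [(hD F hF y hy).fderiv, ContinuousLinearMap.integral_apply (hi' F hF y hy)]
  have hn : ∀ n : ℕ, ∀ F, P F → ContDiffOn ℝ n (fun y => ∫ o, F o y ∂μ) U := by
    intro n
    induction n with
    | zero =>
      intro F hF
      exact contDiffOn_zero.2 fun y hy => (hD F hF y hy).continuousAt.continuousWithinAt
    | succ n ih =>
      intro F hF
      rw [Nat.cast_succ, contDiffOn_succ_iff_fderiv_of_isOpen hU]
      exact ⟨fun y hy => (hD F hF y hy).differentiableAt.differentiableWithinAt, by simp,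
        contDiffOn_clm_apply.2 fun v => (ih _ (hP F hF v)).congr fun y hy => hv F hF y hy v⟩
  exact fun F hF y hy =>
    ⟨(contDiffOn_infty.2 fun n => hn n F hF).contDiffAt (hU.mem_nhds hy), hv F hF y hy⟩

omit [CompleteSpace B] [FiniteDimensional ℝ Y] in
theorem fderiv_slice {G : ℝ × Y → B} {t : ℝ} {y : Y} (h : DifferentiableAt ℝ G (t, y)) :
    HasFDerivAt (fun y => G (t, y)) ((fderiv ℝ G (t, y)).comp (.inr ℝ ℝ Y)) y :=
  h.hasFDerivAt.comp y (hasFDerivAt_prodMk_right t y)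

theorem param_interval {a b : ℝ} {U : Set Y} (hU : IsOpen U) {G : ℝ × Y → B}
    (hG : ∀ t ∈ Set.uIcc a b, ∀ y ∈ U, ContDiffAt ℝ ∞ G (t, y)) :
    ∀ y ∈ U, ContDiffAt ℝ ∞ (fun y => ∫ t in a..b, G (t, y)) y ∧
      ∀ v, fderiv ℝ (fun y => ∫ t in a..b, G (t, y)) y v =
        ∫ t in a..b, fderiv ℝ G (t, y) (0, v) := by
  intro y hy
  have hae : ∀ᵐ t ∂(volume.restrict (Ι a b)), t ∈ Set.uIcc a b :=
    (ae_restrict_mem measurableSet_uIoc).mono fun t ht => Set.uIoc_subset_uIcc ht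
  have key := param (volume.restrict (Ι a b)) hU (fun F : ℝ → Y → B => ∃ G : ℝ × Y → B,
    ∀ t ∈ Set.uIcc a b, ∀ y ∈ U, ContDiffAt ℝ ∞ G (t, y) ∧ F t y = G (t, y)) ?_ ?_ ?_ ?_
    (fun t y => G (t, y)) ⟨G, fun t ht y hy => ⟨hG t ht y hy, rfl⟩⟩ y hy
  · simp only [intervalIntegral.intervalIntegral_eq_integral_uIoc]
    refine ⟨key.1.const_smul _, fun v => ?_⟩
    rw [fderiv_fun_const_smul (sm_diff key.1), _root_.smul_apply, key.2]
    congr 1
    refine integral_congr_ae (hae.mono fun t ht => ?_)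
    simp [(fderiv_slice (sm_diff (hG t ht y hy))).fderiv]
  · rintro F ⟨G, h⟩ y hy
    have : ContinuousOn (fun t => G (t, y)) (Ι a b) := fun t ht =>
      ((h t (Set.uIoc_subset_uIcc ht) y hy).1.continuousAt.comp
        (f := fun t => (t, y)) (by fun_prop)).continuousWithinAt
    exact (this.aestronglyMeasurable measurableSet_uIoc).congr
      (hae.mono fun t ht => (h t ht y hy).2.symm)
  · rintro F ⟨G, h⟩
    exact hae.mono fun t ht y hy => (fderiv_slice (sm_diff (h t ht y hy).1)).differentiableAt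
      |>.congr_of_eventuallyEq (eventually_of_mem (hU.mem_nhds hy) fun y hy => (h t ht y hy).2)
  · rintro F ⟨G, h⟩ v
    refine ⟨fun z => fderiv ℝ G z (0, v), fun t ht y hy =>
      ⟨(sm_fderiv (h t ht y hy).1).clm_apply contDiffAt_const, ?_⟩⟩
    have e : F t =ᶠ[𝓝 y] fun y => G (t, y) :=
      eventually_of_mem (hU.mem_nhds hy) fun y hy => (h t ht y hy).2
    simp [e.fderiv_eq, (fderiv_slice (sm_diff (h t ht y hy).1)).fderiv]
  · rintro F ⟨G, h⟩ y hy
    obtain ⟨C, hC⟩ := (isCompact_uIcc (a := a) (b := b)).exists_bound_of_continuousOn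
      (f := fun t => G (t, y)) fun t ht => ((h t ht y hy).1.continuousAt.comp
        (f := fun t => (t, y)) (by fun_prop)).continuousWithinAt
    have h1 := (isCompact_uIcc (a := a) (b := b)).eventually_forall_of_forall_eventually (x₀ := y)
      (P := fun y t => ‖G (t, y)‖ < C + 1) fun t ht => by
        have : ContinuousAt (fun z : Y × ℝ => ‖G (z.2, z.1)‖) (y, t) :=
          ((h t ht y hy).1.continuousAt.comp (f := fun z : Y × ℝ => (z.2, z.1))
            (by fun_prop)).norm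
        exact this.eventually_lt continuousAt_const (by linarith [hC t ht])
    refine ⟨fun _ => C + 1, integrableOn_const (by simp [Set.uIoc]), _,
      inter_mem (hU.mem_nhds hy) h1, hae.mono fun t ht y' hy' => ?_⟩
    rw [(h t ht y' hy'.1).2]
    exact (hy'.2 t ht).le

/-- The Cauchy transform in the direction `j`. -/
noncomputable def cau (j : Fin (N + 1)) (H : E N × E N → B) (x : E N) : B :=
  (-(Real.pi : ℂ)⁻¹) • ∫ ζ : ℂ, ζ⁻¹ • H (x, x + ζ • ee j)

theorem integrableOn_decay : IntegrableOn (fun r : ℝ => ((1 + r) ^ 2)⁻¹) (Set.Ioi 0) := by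
  refine integrable_inv_one_add_sq.integrableOn.mono' (ContinuousOn.aestronglyMeasurable
    (fun r (hr : 0 < r) => ContinuousAt.continuousWithinAt (by fun_prop (disch := positivity)))
    measurableSet_Ioi) ((ae_restrict_mem measurableSet_Ioi).mono fun r (hr : 0 < r) => ?_)
  rw [Real.norm_of_nonneg (by positivity)]
  exact inv_anti₀ (by positivity) (by nlinarith)

theorem integrable_cau_bound : Integrable (fun ζ : ℂ => ‖ζ‖⁻¹ * ((1 + ‖ζ‖) ^ 2)⁻¹) := by
  refine (integrable_fun_norm_addHaar volume (f := fun r : ℝ => r⁻¹ * ((1 + r) ^ 2)⁻¹)).2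
    (integrableOn_decay.congr_fun (fun r (hr : 0 < r) => ?_) measurableSet_Ioi)
  simp only [Complex.finrank_real_complex, smul_eq_mul, Nat.add_one_sub_one, pow_one]
  field_simp

omit [CompleteSpace B] in
theorem fderiv_diag {H : E N × E N → B} {x w : E N} (h : DifferentiableAt ℝ H (x, x + w)) :
    HasFDerivAt (fun y => H (y, y + w)) ((fderiv ℝ H (x, x + w)).comp (idE.prod idE)) x :=
  h.hasFDerivAt.comp x ((hasFDerivAt_id x).prodMk ((hasFDerivAt_id x).add_const w))

theorem cau_smooth (j : Fin (N + 1)) {U : Set (E N)} (hU : IsOpen U)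
    (P : (E N × E N → B) → Prop)
    (hd : ∀ H, P H → ∀ x ∈ U, ∀ ζ : ℂ, ContDiffAt ℝ ∞ H (x, x + ζ • ee j))
    (hP : ∀ H, P H → ∀ v, P (fun z => fderiv ℝ H z (v, v)))
    (hb : ∀ H, P H → ∀ x ∈ U, ∃ C, ∀ᶠ x' in 𝓝 x, ∀ ζ : ℂ,
      ‖H (x', x' + ζ • ee j)‖ ≤ C * ((1 + ‖ζ‖) ^ 2)⁻¹) :
    ∀ H, P H → ∀ x ∈ U, ContDiffAt ℝ ∞ (cau j H) x ∧
      ∀ v, fderiv ℝ (cau j H) x v = cau j (fun z => fderiv ℝ H z (v, v)) x := by
  intro H hH x hx
  have hD : ∀ H, P H → ∀ x ∈ U, ∀ ζ : ℂ, HasFDerivAt (fun y => ζ⁻¹ • H (y, y + ζ • ee j))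
      (ζ⁻¹ • (fderiv ℝ H (x, x + ζ • ee j)).comp (idE.prod idE)) x := fun H hH x hx ζ =>
    (fderiv_diag (sm_diff (hd H hH x hx ζ))).const_smul _
  have key := param volume hU (fun F : ℂ → E N → B => ∃ H, P H ∧
    ∀ ζ, ∀ x ∈ U, F ζ x = ζ⁻¹ • H (x, x + ζ • ee j)) ?_ ?_ ?_ ?_
    (fun ζ x => ζ⁻¹ • H (x, x + ζ • ee j)) ⟨H, hH, fun _ _ _ => rfl⟩ x hx
  · refine ⟨key.1.const_smul _, fun v => ?_⟩
    unfold cau
    rw [fderiv_fun_const_smul (sm_diff key.1), _root_.smul_apply, key.2]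
    simp [(hD H hH x hx _).fderiv]
  · rintro F ⟨H, hH, h⟩ x hx
    have : Continuous fun ζ : ℂ => H (x, x + ζ • ee j) := continuous_iff_continuousAt.2 fun ζ =>
      (hd H hH x hx ζ).continuousAt.comp (f := fun ζ : ℂ => (x, x + ζ • ee j)) (by fun_prop)
    simp only [h _ x hx]
    exact measurable_inv.aestronglyMeasurable.smul this.aestronglyMeasurable
  · rintro F ⟨H, hH, h⟩
    exact Eventually.of_forall fun ζ x hx => (hD H hH x hx ζ).differentiableAt
      |>.congr_of_eventuallyEq (eventually_of_mem (hU.mem_nhds hx) fun y hy => h ζ y hy)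
  · rintro F ⟨H, hH, h⟩ v
    refine ⟨_, hP H hH v, fun ζ x hx => ?_⟩
    have e : F ζ =ᶠ[𝓝 x] fun y => ζ⁻¹ • H (y, y + ζ • ee j) :=
      eventually_of_mem (hU.mem_nhds hx) fun y hy => h ζ y hy
    simp [e.fderiv_eq, (hD H hH x hx _).fderiv]
  · rintro F ⟨H, hH, h⟩ x hx
    obtain ⟨C, hC⟩ := hb H hH x hx
    refine ⟨_, integrable_cau_bound.const_mul C, _, inter_mem (hU.mem_nhds hx) hC,
      Eventually.of_forall fun ζ y hy => ?_⟩
    rw [h ζ y hy.1, norm_smul, norm_inv, mul_left_comm]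
    exact mul_le_mul_of_nonneg_left (hy.2 ζ) (by positivity)

theorem pompeiu {b : ℂ → B} (hb : ContDiff ℝ 1 b) (h0 : Tendsto b (cocompact ℂ) (𝓝 0)) {C : ℝ}
    (hC : ∀ ζ, ‖fderiv ℝ b ζ‖ ≤ C * ((1 + ‖ζ‖) ^ 2)⁻¹) :
    (-(Real.pi : ℂ)⁻¹) • ∫ ζ : ℂ, ζ⁻¹ • ((2⁻¹ : ℂ) • (fderiv ℝ b ζ 1 + I • fderiv ℝ b ζ I)) =
      b 0 := by
  have hd := hb.differentiable one_ne_zero
  have hc : Continuous (fderiv ℝ b) := hb.continuous_fderiv one_ne_zero
  let e : ℝ → ℂ := fun θ => Complex.exp (θ * I)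
  have he : ∀ θ, ‖e θ‖ = 1 := Complex.norm_exp_ofReal_mul_I
  let F : ℂ → ℝ × ℝ → B := fun c p => fderiv ℝ b (p.1 * e p.2) (c * e p.2)
  have hF : ∀ c, Continuous (F c) := fun c => (hc.comp (by fun_prop)).clm_apply (by fun_prop)
  have hB : ∀ c : ℂ, ‖c‖ = 1 → ∀ r θ, 0 < r → ‖F c (r, θ)‖ ≤ C * ((1 + r) ^ 2)⁻¹ :=
    fun c h r θ hr => by
      have := hC (r * e θ)
      rw [norm_mul, he, mul_one, Complex.norm_of_nonneg hr.le] at this
      refine ((fderiv ℝ b _).le_opNorm _).trans ?_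
      rwa [norm_mul, he, h, mul_one, mul_one]
  have hi : ∀ c : ℂ, ‖c‖ = 1 → Integrable (F c) ((volume.restrict (Set.Ioi (0 : ℝ))).prod
      (volume.restrict (Set.Ioo (-Real.pi) Real.pi))) := fun c h => by
    refine ((integrableOn_decay.const_mul C).comp_fst _).mono' (hF c).aestronglyMeasurable ?_
    rw [Measure.prod_restrict]
    exact (ae_restrict_mem (measurableSet_Ioi.prod measurableSet_Ioo)).mono fun p hp =>
      hB c h p.1 p.2 hp.1
  have h1 : ∀ θ, ∫ r in Set.Ioi (0 : ℝ), F 1 (r, θ) = -b 0 := fun θ => by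
    have := integral_Ioi_of_hasDerivAt_of_tendsto' (f := fun r : ℝ => b (r * e θ))
      (f' := fun r => F 1 (r, θ)) (a := 0) (m := 0) (fun r _ => ?_) ?_ ?_
    · simpa using this
    · refine (hd _).hasFDerivAt.comp_hasDerivAt r ?_
      simpa using (Complex.ofRealCLM.hasDerivAt (x := r)).mul_const (e θ)
    · exact (integrableOn_decay.const_mul C).mono'
        ((hF 1).comp (by fun_prop : Continuous fun r : ℝ => (r, θ))).aestronglyMeasurable
        ((ae_restrict_mem measurableSet_Ioi).mono fun r hr => hB 1 norm_one r θ hr)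
    · refine h0.comp (tendsto_cocompact_of_tendsto_dist_comp_atTop 0 ?_)
      simpa [he] using tendsto_abs_atTop_atTop
  have h2 : ∀ r ∈ Set.Ioi (0 : ℝ), ∫ θ in Set.Ioo (-Real.pi) Real.pi, F I (r, θ) = 0 :=
    fun r (hr : 0 < r) => by
      rw [← integral_Ioc_eq_integral_Ioo, ← intervalIntegral.integral_of_le
        (by linarith [Real.pi_pos]), intervalIntegral.integral_eq_sub_of_hasDerivAt
          (f := fun θ => r⁻¹ • b (r * e θ)) (f' := fun θ => F I (r, θ)) (fun θ _ => ?_)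
          (((hF I).comp (by fun_prop : Continuous fun θ : ℝ => (r, θ))).intervalIntegrable _ _)]
      · simp [e, Complex.exp_neg]
      · have d : HasDerivAt (fun θ : ℝ => r * e θ) (r • (I * e θ)) θ := by
          simpa [e, mul_comm] using
            (((Complex.ofRealCLM.hasDerivAt (x := θ)).mul_const I).cexp).const_mul (r : ℂ)
        have := ((hd _).hasFDerivAt.comp_hasDerivAt θ d).const_smul r⁻¹
        rwa [map_smul, inv_smul_smul₀ hr.ne'] at this
  rw [← Complex.integral_comp_polarCoord_symm, polarCoord_target,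
    setIntegral_congr_fun (g := fun p => (2⁻¹ : ℂ) • (F 1 p + I • F I p))
      (measurableSet_Ioi.prod measurableSet_Ioo) fun p hp => ?_, Measure.volume_eq_prod,
    ← Measure.prod_restrict, integral_smul, integral_add (g := fun p => I • F I p)
      (hi 1 norm_one) ((hi I Complex.norm_I).smul I), integral_smul, integral_prod_symm _ (hi 1 norm_one),
    integral_prod _ (hi I Complex.norm_I), setIntegral_congr_fun measurableSet_Ioi h2]
  · have : (Real.pi : ℂ) ≠ 0 := by simp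
    simp only [h1, integral_const, integral_zero, smul_zero, add_zero]
    rw [measureReal_restrict_apply_univ, Real.volume_real_Ioo_of_le (by linarith [Real.pi_pos]),
      ← Complex.coe_smul]
    match_scalars
    field_simp
    ring
  · have hr : (p.1 : ℂ) ≠ 0 := by exact_mod_cast (show 0 < p.1 from hp.1).ne'
    have e1 : Complex.polarCoord.symm p = p.1 * e p.2 := by
      simp [e, Complex.exp_mul_I]
    have e2 : ∀ (K : ℂ →L[ℝ] B) (z : ℂ), K z = (z.re : ℂ) • K 1 + (z.im : ℂ) • K I := fun K z => by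
      conv_lhs => rw [← Complex.re_add_im z, show (z.re : ℂ) + z.im * I = z.re • (1 : ℂ) + z.im • I
        by simp, map_add, map_smul, map_smul]
      rfl
    have e3 : (e p.2)⁻¹ = (e p.2).re - (e p.2).im * I := by
      rw [Complex.inv_def, Complex.normSq_eq_norm_sq, he]
      apply Complex.ext <;> simp
    simp only [e1, F]
    rw [e2 _ (1 * e p.2), e2 _ (I * e p.2), mul_inv, e3, ← Complex.coe_smul]
    simp only [one_mul, Complex.mul_re, Complex.mul_im, Complex.I_re, Complex.I_im, zero_mul,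
      zero_sub, zero_add, Complex.ofReal_neg]
    match_scalars
    · field_simp
      ring
    · field_simp
      linear_combination (-(e p.2).im : ℂ) * Complex.I_mul_I

omit [CompleteSpace B] in
theorem integral_comp_cmul (f : ℂ → B) {t : ℂ} (ht : t ≠ 0) :
    ∫ ζ, f (t * ζ) = (‖t‖ ^ 2)⁻¹ • ∫ ζ, f ζ := by
  have h1 := (rotation (Circle.exp t.arg)).measurePreserving.integral_comp
    (rotation (Circle.exp t.arg)).toHomeomorph.measurableEmbedding fun ζ => f (‖t‖ • ζ)
  rw [Measure.integral_comp_smul, Complex.finrank_real_complex,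
    abs_of_nonneg (by positivity)] at h1
  rw [← h1]
  congr 1
  funext ζ
  rw [rotation_apply, Circle.coe_exp, Complex.real_smul, ← mul_assoc,
    Complex.norm_mul_exp_arg_mul_I]

end Vale.Agent.P269.Hdg
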