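import Vale.Agent.P269.Hdg.CmpB

/-!
# The de Rham theorem for a complete intersection
-/

namespace Vale.Agent.P269.Hdg

open scoped ComplexConjugate ContDiff
open Topology Filter P291Z

variable {N : ℕ} {ι : Type} {F : ι → MP N} {d : ι → ℕ} {X : Type} [TopologicalSpace X]
  {π : cone F → X}

/-- A section of the projection. -/
noncomputable def sec (hπ : IsProj π) (z : X) : cone F := (hπ.quot.surjective z).choose

theorem π_sec (hπ : IsProj π) (z : X) : π (sec hπ z) = z := (hπ.quot.surjective z).choose_spec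

theorem IsProj.smul (hπ : IsProj π) {x y : cone F} (h : π x = π y) :
    ∃ t : ℂ, t ≠ 0 ∧ y.1 = t • x.1 := by
  obtain ⟨t, ht⟩ := (hπ.fib x y).1 h
  exact ⟨t, fun h0 => y.2.1 (by rw [← ht, h0, zero_smul]), ht.symm⟩

theorem sec_π (hπ : IsProj π) (y : cone F) : ∃ t : ℂ, t ≠ 0 ∧ (sec hπ (π y)).1 = t • y.1 :=
  hπ.smul (π_sec hπ _).symm

/-- The embedding in the space of projectors. -/
noncomputable def emb (hπ : IsProj π) (z : X) : TT N := prP (sec hπ z).1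

theorem emb_π (hπ : IsProj π) (y : cone F) : emb hπ (π y) = prP y.1 := by
  obtain ⟨t, ht, e⟩ := sec_π hπ y
  rw [emb, e, prP_smul ht]

theorem continuous_emb (hπ : IsProj π) : Continuous (emb hπ) := by
  rw [hπ.quot.continuous_iff, show emb hπ ∘ π = fun y => prP y.1 from funext (emb_π hπ)]
  exact continuous_iff_continuousAt.2 fun y =>
    (sm_prP y.2.1).continuousAt.comp continuous_subtype_val.continuousAt

/-- The cochain on `X` defined by a cochain on the affine space. -/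
noncomputable def rs (hπ : IsProj π) : Coch (E N) →ₐ[ℂ] Coch X := pull fun z => (sec hπ z).1

theorem rs_val (hπ : IsProj π) {a : Coch (E N)} (ha : IsSm a) (l : List (cone F)) :
    (rs hπ a).1 (l.map π) = a.1 (l.map Subtype.val) := by
  rw [rs, pull_val, List.map_map]
  refine (ha.inv _ _ ?_).symm
  rw [List.forall₂_map_left_iff, List.forall₂_map_right_iff, List.forall₂_same]
  exact fun y _ => ⟨y.2.1, sec_π hπ y⟩

theorem rs_VA (hπ : IsProj π) {a : Coch (E N)} {b : TT N} (h : a ∈ VA (cone F) prP b) :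
    rs hπ a ∈ VA Set.univ (emb hπ) b := by
  obtain ⟨U, hU, h⟩ := h
  exact ⟨U, hU, fun l hl => h _ (List.forall_mem_map.2 fun z hz => ⟨(sec hπ z).2, (hl z hz).2⟩)⟩

theorem VA_of_rs (hπ : IsProj π) {a : Coch (E N)} (ha : IsSm a) {b : TT N}
    (h : rs hπ a ∈ VA Set.univ (emb hπ) b) : a ∈ VA (cone F) prP b := by
  obtain ⟨U, hU, h⟩ := h
  refine ⟨U, hU, fun l hl => ?_⟩
  lift l to List (cone F) using fun y hy => (hl y hy).1
  rw [← rs_val hπ ha]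
  exact h _ (List.forall_mem_map.2 fun y hy =>
    ⟨trivial, by rw [emb_π]; exact (hl _ (List.mem_map_of_mem hy)).2⟩)

/-- The complex of all cochains on `X`. -/
noncomputable def asD (hπ : IsProj π) : AD N where
  Y := X
  C := Set.univ
  p := emb hπ
  A := ⊤
  dA _ _ := trivial
  cut _ _ _ _ := trivial
  conA _ _ _ _ := trivial
  one := trivial
  pK z _ := prP_mem_KK (sec hπ z).2.1

theorem VA_top (hπ : IsProj π) {b : TT N} (hb : NearT b fun y => y ∉ cone F) (a : Coch X) :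
    a ∈ VA Set.univ (emb hπ) b :=
  VA_of_cons hb fun z _ _ hQ => (hQ _ (sec hπ z).2.1 rfl (sec hπ z).2).elim

theorem nearT_of_nhds (h : IsCI F d) (hπ : IsProj π) (x : cone F) {U : Set X}
    (hU : U ∈ 𝓝 (π x)) : ∀ᶠ b in 𝓝 (prP x.1), ∀ z, emb hπ z = b → z ∈ U := by
  have h1 : NearT (prP x.1) fun y => ∀ hy : y ∈ cone F, π ⟨y, hy⟩ ∈ U := by
    refine NearT.of_ev x.2.1 (fun t y ht _ h1 hy => ?_) ?_
    · have := h1 ((cone_smul h ht).2 hy)
      rwa [← (hπ.fib ⟨y, hy⟩ ⟨_, (cone_smul h ht).2 hy⟩).2 ⟨t, rfl⟩] at this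
    · have := hπ.quot.continuous.continuousAt.preimage_mem_nhds hU
      rw [nhds_subtype, mem_comap] at this
      obtain ⟨W, hW, h2⟩ := this
      exact eventually_of_mem hW fun y hy hc => h2 (show (⟨y, hc⟩ : cone F) ∈ _ from hy)
  refine Eventually.mono h1 fun b hb z e => ?_
  exact π_sec hπ z ▸ hb _ (sec hπ z).2.1 e (sec hπ z).2

theorem VA_iff (h : IsCI F d) (hπ : IsProj π) {a : Coch X} :
    (∀ b, a ∈ VA Set.univ (emb hπ) b) ↔ supp a = ∅ := by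
  rw [supp_eq_empty]
  refine ⟨fun ha z => ?_, fun ha b => ?_⟩
  · obtain ⟨U, hU, h1⟩ := ha (emb hπ z)
    exact notMem_supp.2 ⟨_, (continuous_emb hπ).continuousAt.preimage_mem_nhds hU,
      fun l hl => h1 l fun y hy => ⟨trivial, hl y hy⟩⟩
  · rcases X_cases h b with hb | ⟨x, hx, rfl⟩
    · exact VA_top hπ hb a
    · obtain ⟨U, hU, h1⟩ := notMem_supp.1 (ha (π ⟨x, hx⟩))
      exact ⟨_, nearT_of_nhds h hπ ⟨x, hx⟩ hU, fun l hl => h1 l fun z hz => (hl z hz).2 z rfl⟩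

/-- The underlying cochain on `X`. -/
noncomputable def vX (hπ : IsProj π) : (asD hπ).sh.gl.M →ₗ[ℂ] Coch X := (asD hπ).val

theorem as_nul (h : IsCI F d) (hπ : IsProj π) {u : (asD hπ).sh.gl.M} :
    u ∈ (asD hπ).sh.gl.nul ↔ supp (vX hπ u) = ∅ :=
  (asD hπ).sh.mem_gl_nul.trans (VA_iff h hπ)

/-- Restriction of smooth cochains to `X`. -/
noncomputable def homR (hπ : IsProj π) : Sh.Hom (smD F).sh (asD hπ).sh where
  f := ((rs hπ).toLinearMap ∘ₗ (smD F).val).codRestrict ⊤ fun _ => trivial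
  fG _ _ hu := IsDeg.pull hu _
  fV _ _ hu := rs_VA hπ hu
  comm b _ u _ := (fun a : Coch (E N) => by
    rw [rs, δ_pull, sub_self]; exact zero_mem _ :
      ∀ a, rs hπ (δ a) - δ (rs hπ a) ∈ VA Set.univ (emb hπ) b) ((smD F).val u)

theorem homR_qiso (h : IsCI F d) (hπ : IsProj π) (q : ℤ) :
    (homR hπ).gl.Inj q ∧ (homR hπ).gl.Surj q := by
  refine (homR hπ).qiso_of_stalk (smD F).fine (asD hπ).fine (fun b => ?_) q
  rcases X_cases h b with hb | ⟨x, hx, rfl⟩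
  · exact Cx.Hom.qiso_of_top _ (smD_top hb) (eq_top_iff.2 fun u _ => VA_top hπ hb _)
  · have := (asD hπ).pt (x := π ⟨x, hx⟩) trivial
    rw [show (asD hπ).p (π ⟨x, hx⟩) = prP x from emb_π hπ _] at this
    refine Cx.Hom.qiso_of_pt _ ((smD F).pt hx) this ?_
    change rs hπ 1 - (1 : Coch X) ∈ VA Set.univ (emb hπ) _
    rw [map_one, sub_self]; exact zero_mem _

/-- The class of a cocycle. -/
noncomputable def clsX (h : IsCI F d) (hπ : IsProj π) (k : ℤ) :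
    (asD hπ).sh.gl.H k →ₗ[ℂ] P291Z.H X :=
  Submodule.liftQ _
    { toFun := fun u => hcls (vX hπ u.1)
      map_add' := fun u v => hcls_add ((as_nul h hπ).1 u.2.2) ((as_nul h hπ).1 v.2.2)
      map_smul' := fun c u => hcls_smul c ((as_nul h hπ).1 u.2.2) } fun u hu => by
    obtain ⟨v, -, hv⟩ := Cx.mem_B.1 hu
    exact (hcls_eq_zero ((as_nul h hπ).1 u.2.2)).2 ⟨_, (as_nul h hπ).1 hv⟩

theorem clsX_cl (h : IsCI F d) (hπ : IsProj π) {k : ℤ} (u) (hu : u ∈ (asD hπ).sh.gl.Z k) :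
    clsX h hπ k (Cx.cl u hu) = hcls (vX hπ u) := rfl

theorem clsX_inj (h : IsCI F d) (hπ : IsProj π) (k : ℤ) : Function.Injective (clsX h hπ k) := by
  rw [injective_iff_map_eq_zero]
  intro x hx
  obtain ⟨u, hu, rfl⟩ := Cx.exists_cl x
  obtain ⟨c, hc⟩ := (hcls_eq_zero (a := vX hπ u) ((as_nul h hπ).1 hu.2)).1 hx
  refine (Cx.cl_eq_zero hu).2 (Cx.mem_B.2 ⟨(asD hπ).mk' (comp (k - 1) c) trivial, isDeg_comp _ _,
    (as_nul h hπ).2 ?_⟩)
  have := supp_comp k (vX hπ u - δ c)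
  rw [hc, map_sub, comp_δ', IsDeg.comp_eq (a := vX hπ u) hu.1, Set.subset_empty_iff] at this
  exact this

variable [Fintype ι] [DecidableEq ι]

/-- The comparison map from de Rham cohomology to Alexander-Spanier cohomology. -/
noncomputable def cmp (h : IsCI F d) (hπ : IsProj π) (k : ℤ) :
    (dR h).sh.gl.H k →ₗ[ℂ] P291Z.H X :=
  clsX h hπ k ∘ₗ (homR hπ).gl.map k ∘ₗ
    ((homD h).gl.equiv (homD_qiso h k).1 (homD_qiso h k).2).symm.toLinearMap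

variable (h : IsCI F d) (hπ : IsProj π) {k l : ℤ} {u v : SM N}

theorem cmp_inj : Function.Injective (cmp h hπ k) :=
  (clsX_inj h hπ k).comp (((homR hπ).gl.inj_iff.1 (homR_qiso h hπ k).1).comp
    (LinearEquiv.injective _))

/-- Smooth cocycles along the cone. -/
def SmZ (F : ι → MP N) (k : ℤ) (a : smA N) : Prop :=
  IsDeg k a.1 ∧ ∀ b, δ a.1 ∈ VA (cone F) prP b

omit [Fintype ι] [DecidableEq ι] in
theorem SmZ.mem {a : smA N} (ha : SmZ F k a) : a ∈ (smD F).sh.gl.Z k :=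
  ⟨ha.1, (smD F).sh.mem_gl_nul.2 ha.2⟩

theorem SmZ.DM_Z {a : smA N} (ha : SmZ F k a) : DM a ∈ (dR h).sh.gl.Z k :=
  (homD h).gl.map_Z ha.mem

omit [Fintype ι] [DecidableEq ι] in
include h in
theorem SmZ.cyc {a : smA N} (ha : SmZ F k a) : supp (δ (rs hπ a.1)) = ∅ := by
  rw [rs, δ_pull]
  exact (VA_iff h hπ).1 fun b => rs_VA hπ (ha.2 b)

theorem cmp_DM {a : smA N} (ha : SmZ F k a) :
    cmp h hπ k (Cx.cl (DM a) (ha.DM_Z h)) = hcls (rs hπ a.1) := by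
  have : ((homD h).gl.equiv (homD_qiso h k).1 (homD_qiso h k).2).symm
      (Cx.cl (DM a) (ha.DM_Z h)) = Cx.cl _ ha.mem := (LinearEquiv.symm_apply_eq _).2 rfl
  simp only [cmp, LinearMap.comp_apply, LinearEquiv.coe_coe]
  rw [this]
  rfl

theorem cmp_eq (hu : u ∈ (dR h).sh.gl.Z k) {a : smA N} (ha : SmZ F k a)
    (e : u - DM a ∈ (dR h).sh.gl.B k) : cmp h hπ k (Cx.cl u hu) = hcls (rs hπ a.1) := by
  rw [← cmp_DM h hπ ha, (Cx.cl_eq_cl hu (ha.DM_Z h)).2 e]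

theorem exists_SmZ (hu : u ∈ (dR h).sh.gl.Z k) :
    ∃ a : smA N, SmZ F k a ∧ u - DM a ∈ (dR h).sh.gl.B k := by
  obtain ⟨a, ha, e⟩ := (homD_qiso h k).2 u hu
  exact ⟨a, ⟨ha.1, (smD F).sh.mem_gl_nul.1 ha.2⟩, e⟩

theorem cmp_range {c : P291Z.H X} : c ∈ LinearMap.range (cmp h hπ k) ↔ P291Z.H.IsDeg k c := by
  constructor
  · rintro ⟨x, rfl⟩
    obtain ⟨u, hu, rfl⟩ := Cx.exists_cl x
    obtain ⟨a, ha, e⟩ := exists_SmZ h hu
    rw [cmp_eq h hπ hu ha e]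
    exact hcls_isDeg (ha.1.pull _)
  · intro hc
    obtain ⟨a, h1, h2, rfl⟩ := H.isDeg_iff.1 hc
    have hz : (asD hπ).mk' a trivial ∈ (asD hπ).sh.gl.Z k := ⟨h2, (as_nul h hπ).2 h1⟩
    obtain ⟨x, hx⟩ := (homR hπ).gl.surj_iff.1 (homR_qiso h hπ k).2 (Cx.cl _ hz)
    refine ⟨(homD h).gl.equiv (homD_qiso h k).1 (homD_qiso h k).2 x, ?_⟩
    simp only [cmp, LinearMap.comp_apply, LinearEquiv.coe_coe, LinearEquiv.symm_apply_apply]
    rw [hx]
    rfl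

theorem dR_nul : u ∈ (dR h).sh.gl.nul ↔ ∀ y ∈ cone F, u.1 y ∈ ann (pl (fullL F) y) :=
  (dR h).mem_nul.trans ⟨fun H y hy => H y hy.1 hy, fun H y _ hy => H y hy⟩

theorem dR_Z : u ∈ (dR h).sh.gl.Z k ↔
    u ∈ Ak k ∧ ∀ y ∈ cone F, (DD u).1 y ∈ ann (pl (fullL F) y) :=
  Cx.mem_Z.trans (and_congr Iff.rfl (dR_nul h))

theorem dR_B : u ∈ (dR h).sh.gl.B k ↔
    ∃ w ∈ Ak (k - 1), ∀ y ∈ cone F, u.1 y - (DD w).1 y ∈ ann (pl (fullL F) y) :=
  Cx.mem_B.trans (exists_congr fun _ => and_congr Iff.rfl (dR_nul h))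

theorem oneS_Z : (oneS : SM N) ∈ (dR h).sh.gl.Z 0 :=
  (dR_Z h).2 ⟨oneS_Ak, fun y hy => by rw [DD_oneS hy.1]; exact zero_mem _⟩

theorem cmp_one (h1 : (oneS : SM N) ∈ (dR h).sh.gl.Z 0) : cmp h hπ 0 (Cx.cl oneS h1) = 1 := by
  rw [cmp_eq h hπ h1 (a := ⟨1, IsSm.one⟩)
    ⟨isDeg_one, fun b => by rw [δ_one_eq_zero]; exact zero_mem _⟩, map_one, hcls_one]
  refine Cx.nul_le_B ((dR_nul h).2 fun y hy => ?_)
  rw [Submodule.coe_sub, Pi.sub_apply, DM_one hy.1]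
  exact (sub_self (1 : Λ N)).symm ▸ zero_mem _

theorem ML_B_left (hu : u ∈ (dR h).sh.gl.B k) (hv : v ∈ (dR h).sh.gl.Z l) :
    ML u v ∈ (dR h).sh.gl.B (k + l) := by
  obtain ⟨w, hw, e⟩ := (dR_B h).1 hu
  obtain ⟨h1, h2⟩ := (dR_Z h).1 hv
  refine (dR_B h).2 ⟨ML w v, by rw [← sub_add_eq_add_sub]; exact ML_Ak hw h1, fun y hy => ?_⟩
  rw [DD_ML w v hy.1, ML_apply, ← sub_sub, ← sub_mul]
  exact sub_mem (ann_mul_right (e y hy) _) (ann_mul_left (h2 y hy) _)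

theorem ML_B_right (hu : u ∈ (dR h).sh.gl.Z k) (hv : v ∈ (dR h).sh.gl.B l) :
    ML u v ∈ (dR h).sh.gl.B (k + l) := by
  obtain ⟨w, hw, e⟩ := (dR_B h).1 hv
  obtain ⟨h1, h2⟩ := (dR_Z h).1 hu
  refine (dR_B h).2 ⟨((-1 : ℂ) ^ k) • ML u w, Submodule.smul_mem _ _
    (by rw [add_sub_assoc]; exact ML_Ak h1 hw), fun y hy => ?_⟩
  rw [map_smul, Submodule.coe_smul, Pi.smul_apply, DD_ML u w hy.1, ML_apply,
    par_of_Dg (h1.2 y hy.1), smul_add, smul_mul_assoc, smul_smul, ← mul_zpow, add_comm, ← sub_sub,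
    show (-1 : ℂ) * -1 = 1 by norm_num, one_zpow, one_smul, ← mul_sub]
  exact sub_mem (ann_mul_left (e y hy) _) (Submodule.smul_mem _ _ (ann_mul_right (h2 y hy) _))

omit [Fintype ι] [DecidableEq ι] in
theorem SmZ.mul {a b : smA N} (ha : SmZ F k a) (hb : SmZ F l b) :
    SmZ F (k + l) ⟨a.1 * b.1, IsSm.mul a.2 b.2⟩ :=
  ⟨ha.1.mul hb.1, fun b => by
    rw [δ_mul]; exact add_mem (VA_mul_right (ha.2 b) _) (VA_mul_left (hb.2 b) _)⟩

include h in
theorem DM_mul {a b c : smA N} (e : c.1 = a.1 * b.1) (ha : IsDeg k a.1) (hb : SmZ F l b) {y : E N}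
    (hy : y ∈ cone F) : (DM a).1 y * (DM b).1 y - (DM c).1 y ∈ ann (pl (fullL F) y) := by
  by_cases hk : k < 0
  · rw [DM_of_neg ha hk, show c = 0 from Subtype.ext (by rw [e, ha.eq_zero hk]; simp)]
    simp
  by_cases hl : l < 0
  · rw [DM_of_neg hb.1 hl, show c = 0 from Subtype.ext (by rw [e, hb.1.eq_zero hl]; simp)]
    simp
  lift k to ℕ using by omega
  lift l to ℕ using by omega
  obtain ⟨o, ho⟩ := Dm_mul a.2 b.2 ha hb.1 hy.1
  have h1 := ((dR_Z h).1 (hb.DM_Z h)).2 y hy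
  rw [DD_apply _ hy.1, dd_congr ((ne_zero_ev hy.1).mono fun z hz => DM_of_isDeg hb.1 hz)] at h1
  rw [DM_of_isDeg ha hy.1, DM_of_isDeg hb.1 hy.1,
    DM_of_isDeg (k := k + l) (e ▸ (ha.mul hb.1).cast (by simp)) hy.1, e, ho, sub_add_cancel_left]
  exact neg_mem (ann_mul_left h1 _)

theorem cmp_mul (hu : u ∈ (dR h).sh.gl.Z k) (hv : v ∈ (dR h).sh.gl.Z l) :
    cmp h hπ (k + l) (Cx.cl (ML u v) (ML_Z h hu hv)) =
      cmp h hπ k (Cx.cl u hu) * cmp h hπ l (Cx.cl v hv) := by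
  obtain ⟨a, ha, e⟩ := exists_SmZ h hu
  obtain ⟨b, hb, e'⟩ := exists_SmZ h hv
  rw [cmp_eq h hπ hu ha e, cmp_eq h hπ hv hb e', cmp_eq h hπ _ (ha.mul hb), map_mul,
    hcls_mul (ha.cyc h hπ) (hb.cyc h hπ)]
  have h1 : ML (DM a) (DM b) - DM ⟨a.1 * b.1, IsSm.mul a.2 b.2⟩ ∈ (dR h).sh.gl.nul :=
    (dR_nul h).2 fun y hy => DM_mul h rfl ha.1 hb hy
  have h2 : ML u v - DM ⟨a.1 * b.1, IsSm.mul a.2 b.2⟩ = ML (u - DM a) v + ML (DM a) (v - DM b) +
      (ML (DM a) (DM b) - DM ⟨a.1 * b.1, IsSm.mul a.2 b.2⟩) :=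
    Subtype.ext (funext fun y => by
      simp only [Submodule.coe_sub, Submodule.coe_add, Pi.sub_apply, Pi.add_apply, ML_apply]
      noncomm_ring)
  rw [h2]
  exact add_mem (add_mem (ML_B_left h e hv) (ML_B_right h (ha.DM_Z h) e')) (Cx.nul_le_B h1)

/-! ## Hodge types -/

theorem ev_pi_const {T κ : Type} [TopologicalSpace T] [Finite κ] {x : T} {P : (κ → T) → Prop}
    (h : ∀ᶠ y in 𝓝 fun _ : κ => x, P y) : ∃ W ∈ 𝓝 x, ∀ y : κ → T, (∀ i, y i ∈ W) → P y := by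
  rw [nhds_pi] at h
  obtain ⟨I, -, t, ht, h⟩ := mem_pi.1 h
  exact ⟨⋂ i, t i, iInter_mem.2 ht, fun y hy => h fun i _ => Set.mem_iInter.1 (hy i) i⟩

omit [Fintype ι] [DecidableEq ι] in
include h in
/-- A cochain which is smooth near the diagonal is locally the restriction of a smooth cochain. -/
theorem exists_sm_loc {m : ℕ} {a : Coch X} (ha : IsDeg m a) (x : cone F)
    {f : (Fin (m + 1) → E N) → ℂ} (hf : ContDiff ℝ ∞ f)
    (e : ∀ᶠ y : Fin (m + 1) → cone F in 𝓝 fun _ => x,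
      a.1 (List.ofFn fun i => π (y i)) = f fun i => (y i).1) :
    ∃ c : Coch (E N), IsSm c ∧ IsDeg m c ∧ a - rs hπ c ∈ VA Set.univ (emb hπ) (prP x.1) := by
  obtain ⟨W, hW, e⟩ := ev_pi_const e
  rw [nhds_subtype, mem_comap] at hW
  obtain ⟨W', hW', hWW⟩ := hW
  have h1 : NearT (prP x.1) fun y => lf x.1 y ≠ 0 ∧ cpr x.1 y ∈ W' := by
    refine NearT.of_ev x.2.1 (fun t y ht _ h => ?_)
      ((lf_ne_ev x.2.1).and ((cpr_tendsto x.2.1).eventually_mem hW'))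
    rw [cpr_smul ht] at h
    exact ⟨by simpa [ht] using h.1, h.2⟩
  obtain ⟨φ, h2, h3, -⟩ := exists_global x.2.1 (w := cpr x.1) (Q := fun _ => True)
    (h1.mono fun y _ h => ⟨an_sm (an_cpr h.1), trivial⟩)
  refine ⟨ofG fun y => f fun i => φ (prP (y i)) • cpr x.1 (y i), isSm_ofG
    (fun y hy => hf.contDiffAt.comp y (contDiffAt_pi.2 fun i =>
      (h2 _ (hy i)).comp y (contDiffAt_apply ℝ (E N) i y)))
    fun y t _ ht => by simp only [prP_smul (ht _), cpr_smul (ht _)], isDeg_ofG _,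
    _, h1.and h3, fun l hl => ?_⟩
  by_cases hm : l.length = m + 1
  · obtain ⟨z, rfl⟩ := exists_ofFn hm
    have h4 := fun i => (hl (z i) (List.mem_ofFn.2 ⟨i, rfl⟩)).2 _ (sec hπ (z i)).2.1 rfl
    have h5 := fun i => (cone_smul h (inv_ne_zero (h4 i).1.1)).2 (sec hπ (z i)).2
    have h6 := e (fun i => ⟨_, h5 i⟩) fun i => hWW (h4 i).1.2
    have h7 : ∀ i, π ⟨_, h5 i⟩ = z i := fun i =>
      ((hπ.fib _ _).2 ⟨_, rfl⟩).symm.trans (π_sec hπ (z i))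
    simp only [h7] at h6
    rw [Coch.sub_val, Pi.sub_apply, h6, rs, pull_val, List.map_ofFn, ofG_ofFn, sub_eq_zero]
    simp only [Function.comp_apply, (h4 _).2, one_smul]
    rfl
  · exact (ha.sub ((isDeg_ofG _).pull _)) l (by omega)

omit [Fintype ι] [DecidableEq ι] in
include h in
/-- A cochain which is smooth near the diagonal is the restriction of a smooth cochain. -/
theorem exists_sm {m : ℕ} {a : Coch X} (ha : IsDeg m a)
    (hf : ∀ x : cone F, ∃ f : (Fin (m + 1) → E N) → ℂ, ContDiff ℝ ∞ f ∧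
      ∀ᶠ y : Fin (m + 1) → cone F in 𝓝 fun _ => x,
        a.1 (List.ofFn fun i => π (y i)) = f fun i => (y i).1) :
    ∃ c : smA N, IsDeg m c.1 ∧ ∀ b, a - rs hπ c.1 ∈ VA Set.univ (emb hπ) b := by
  refine (smD F).fine.glue (VA Set.univ (emb hπ)) ((rs hπ).toLinearMap ∘ₗ (smD F).val) a m
    (fun b u hu => rs_VA hπ hu) (fun b _ hu => VA_opn hu)
    (fun b u _ hu => VA_of_rs hπ (AD.val_mem u) hu) (fun b => ?_)
    ⟨KK N, isCompact_KK, fun b hb => eq_top_iff.2 fun u _ => VA_top hπ (NearT.of_notMem hb) u⟩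
  rcases X_cases h b with hb | ⟨x, hx, rfl⟩
  · exact ⟨0, zero_mem _, VA_top hπ hb _⟩
  · obtain ⟨f, h1, h2⟩ := hf ⟨x, hx⟩
    obtain ⟨c, h3, h4, h5⟩ := exists_sm_loc h hπ ha _ h1 h2
    exact ⟨(smD F).mk' c h3, h4, h5⟩

theorem cmp_hodge {p q : ℕ} {c : P291Z.H X} (hc : IsHodge F π p q c) :
    ∃ u, ∃ hu : u ∈ (dR h).sh.gl.Z ((p + q : ℕ) : ℤ), u ∈ Om p q ∧
      cmp h hπ _ (Cx.cl u hu) = c := by
  obtain ⟨a, ha, rfl, hf⟩ := hc
  obtain ⟨c, h1, h2⟩ := exists_sm h hπ ha fun x => (hf x).imp fun f hf => ⟨hf.1, hf.2.1⟩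
  have hz : SmZ F (p + q : ℕ) c := ⟨h1, fun b => VA_of_rs hπ (IsSm.delta c.2) <| by
    have := sub_mem ((VA_iff h hπ).2 a.2 b) (VA_δ (h2 b))
    rwa [map_sub, sub_sub_cancel, rs, δ_pull] at this⟩
  have h3 : DM c - PT p q (DM c) ∈ (dR h).sh.gl.nul := (dR_nul h).2 fun x hx => by
    obtain ⟨f, e1, e2, e3⟩ := hf ⟨x, hx⟩
    have e4 := Df_type h hx e1 e3
    have e5 : Dm (p + q) c.1 x - Df f x ∈ ann (pl (fullL F) x) := by
      rw [Dm, ← Df_sub (IsSm.ofFn c.2 fun _ => hx.1) e1.contDiffAt]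
      refine Df_ann h hx ((IsSm.ofFn_ev c.2 fun _ => hx.1).mono fun y hy => hy.sub e1.contDiffAt) ?_
      obtain ⟨W, hW, e2⟩ := ev_pi_const e2
      rw [nhds_subtype, mem_comap] at hW
      obtain ⟨W', hW', hWW⟩ := hW
      obtain ⟨U, hU, e6⟩ := h2 (prP x)
      filter_upwards [eventually_all.2 fun i : Fin (p + q + 1) => ((continuous_apply i).tendsto
        fun _ => x).eventually (((sm_prP hx.1).continuousAt.tendsto.eventually_mem hU).and hW')]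
        with y e7 hy
      have e8 := e6 ((List.ofFn fun i => (⟨y i, hy i⟩ : cone F)).map π) fun z hz => by
        rw [List.map_ofFn] at hz
        obtain ⟨i, rfl⟩ := List.mem_ofFn.1 hz
        exact ⟨trivial, by rw [Function.comp_apply, emb_π]; exact (e7 i).1⟩
      rw [Coch.sub_val, Pi.sub_apply, rs_val hπ c.2, List.map_ofFn, List.map_ofFn,
        sub_eq_zero] at e8
      exact sub_eq_zero.2 (e8.symm.trans (e2 _ fun i => hWW (e7 i).2))
    have := add_mem (sub_mem e5 (ann_pl_pt _ _ e5 p q)) e4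
    rw [Submodule.coe_sub, Pi.sub_apply, PT_apply, DM_of_isDeg h1 hx.1]
    convert this using 1
    rw [map_sub]; abel
  have h4 := hz.DM_Z h
  have h5 : PT p q (DM c) ∈ (dR h).sh.gl.Z ((p + q : ℕ) : ℤ) := by
    refine (dR_Z h).2 ⟨PT_Ak h4.1 p q, fun y hy => ?_⟩
    have := sub_mem (((dR_Z h).1 h4).2 y hy)
      ((dR_nul h (u := DD (DM c - PT p q (DM c)))).1 ((dR h).sh.gl.dnul _ h3) y hy)
    rwa [map_sub, Submodule.coe_sub, Pi.sub_apply, sub_sub_cancel] at this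
  refine ⟨_, h5, h4.1.1 p q, ?_⟩
  rw [cmp_eq h hπ h5 hz (Cx.nul_le_B (neg_sub (DM c) (PT p q (DM c)) ▸ neg_mem h3)), ← hcls_val]
  exact (hcls_eq_of_null (hz.cyc h hπ) (supp_eq_empty.1 ((VA_iff h hπ).1 h2))).symm

/-! ## Inclusions -/

theorem ann_incl {ι' : Type} [Fintype ι'] [DecidableEq ι'] {F' : ι' → MP N} {d' : ι' → ℕ}
    (h : IsCI F d) (h' : IsCI F' d') (hs : cone F ⊆ cone F') {y : E N} (hy : y ∈ cone F) :
    ann (pl (fullL F') y) ≤ ann (pl (fullL F) y) := fun o ho => by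
  obtain ⟨P, h1, -, h2⟩ := exists_prj h hy
  have h3 := mp_of_ann (h'.dualL_full.hasDual (hs hy)) (A := tr (P.restrictScalars ℝ))
    (forall_pl.2 fun a ha => ?_) ho
  · simpa [h3] using h2 o
  · obtain ⟨j, hj⟩ := of_mem_fullL ha
    ext v
    have := fderiv_tang h hy (sm_diff (sm_sg_eval a.1 (F' j) y))
      (Eventually.of_forall fun z hz => by simp [(hs hz).2 j]) (h1 v)
    rw [fderiv_sg_eval] at this
    rw [hj]
    exact this

theorem cmp_incl {ι' : Type} [Fintype ι'] [DecidableEq ι'] {F' : ι' → MP N} {d' : ι' → ℕ}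
    (h' : IsCI F' d') {X' : Type} [TopologicalSpace X'] {π' : cone F' → X'} (hπ' : IsProj π')
    (hs : cone F ⊆ cone F') (i : C(X, X')) (hi : ∀ y : cone F, i (π y) = π' ⟨y.1, hs y.2⟩)
    (hu' : u ∈ (dR h').sh.gl.Z k) : ∃ hu : u ∈ (dR h).sh.gl.Z k,
      cmp h hπ k (Cx.cl u hu) = P291Z.H.map i (cmp h' hπ' k (Cx.cl u hu')) := by
  have hu : u ∈ (dR h).sh.gl.Z k := (dR_Z h).2 ⟨((dR_Z h').1 hu').1,
    fun y hy => ann_incl h h' hs hy (((dR_Z h').1 hu').2 y (hs hy))⟩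
  obtain ⟨a, ha, e⟩ := exists_SmZ h' hu'
  obtain ⟨w, hw, e'⟩ := (dR_B h').1 e
  refine ⟨hu, ?_⟩
  rw [cmp_eq h' hπ' hu' ha e, cmp_eq h hπ hu ⟨ha.1, fun b => VA_mono hs (ha.2 b)⟩
    ((dR_B h).2 ⟨w, hw, fun y hy => ann_incl h h' hs hy (e' y (hs hy))⟩),
    H.map_hcls i (ha.cyc h' hπ')]
  congr 1
  refine Coch.ext fun l => ?_
  have := rs_val hπ' a.2 (l.map fun z => ⟨(sec hπ z).1, hs (sec hπ z).2⟩)
  simp only [List.map_map, Function.comp_def, ← hi, π_sec] at this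
  exact this.symm

end Vale.Agent.P269.Hdg
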