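import Vale.Agent.P269.Hdg.Cau

/-!
# The Dolbeault lemma and the Poincaré lemma
-/

namespace Vale.Agent.P269.Hdg

open scoped ContDiff Interval
open Complex (I)
open Topology Filter MeasureTheory Metric

variable {N : ℕ}

theorem integral_mem {Ω : Type} [MeasurableSpace Ω] {μ : Measure Ω} (K : Submodule ℂ (Λ N))
    {f : Ω → Λ N} (h : ∀ᵐ o ∂μ, f o ∈ K) : ∫ o, f o ∂μ ∈ K := by
  classical
  have : CompleteSpace K := FiniteDimensional.complete ℂ K
  have e : f =ᵐ[μ] fun o => K.subtypeₗᵢ (if h : f o ∈ K then ⟨f o, h⟩ else 0) :=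
    h.mono fun o ho => by simp [ho]
  rw [integral_congr_ae e, LinearIsometry.integral_comp_comm]
  exact Subtype.property _

theorem cau_mem (K : Submodule ℂ (Λ N)) {j : Fin (N + 1)} {H : E N × E N → Λ N} {x : E N}
    (h : ∀ ζ : ℂ, H (x, x + ζ • ee j) ∈ K) : cau j H x ∈ K :=
  K.smul_mem _ (integral_mem K (Eventually.of_forall fun ζ => K.smul_mem _ (h ζ)))

theorem cs_bound {X B : Type} [TopologicalSpace X] [NormedAddCommGroup B] {f : X × ℂ → B} {x : X}
    {R : ℝ} (hc : ∀ ζ, ContinuousAt f (x, ζ))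
    (h0 : ∀ᶠ x' in 𝓝 x, ∀ ζ, R < ‖ζ‖ → f (x', ζ) = 0) :
    ∃ C, ∀ᶠ x' in 𝓝 x, ∀ ζ, ‖f (x', ζ)‖ ≤ C * ((1 + ‖ζ‖) ^ 2)⁻¹ := by
  obtain ⟨C, hC⟩ := (isCompact_closedBall (0 : ℂ) R).exists_bound_of_continuousOn
    (f := fun ζ => f (x, ζ)) fun ζ _ =>
      ((hc ζ).comp (f := fun ζ => (x, ζ)) (by fun_prop)).continuousWithinAt
  have h1 := (isCompact_closedBall (0 : ℂ) R).eventually_forall_of_forall_eventually (x₀ := x)
    (P := fun y ζ => ‖f (y, ζ)‖ < |C| + 1) fun ζ hζ =>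
      (hc ζ).norm.eventually_lt continuousAt_const (by linarith [hC ζ hζ, le_abs_self C])
  refine ⟨(|C| + 1) * (1 + R) ^ 2, ?_⟩
  filter_upwards [h0, h1] with y h0 h1 ζ
  by_cases h : R < ‖ζ‖
  · rw [h0 ζ h, norm_zero]; positivity
  · rw [← div_eq_mul_inv, le_div_iff₀ (by positivity)]
    have := (h1 ζ (by simpa using h)).le
    gcongr
    exact not_lt.1 h

section One

variable {B : Type} [NormedAddCommGroup B] [NormedSpace ℂ B] [CompleteSpace B]

omit [CompleteSpace B] in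
theorem integrable_cau {h : ℂ → B} (hc : Continuous h) {C : ℝ}
    (hC : ∀ ζ, ‖h ζ‖ ≤ C * ((1 + ‖ζ‖) ^ 2)⁻¹) : Integrable fun ζ => ζ⁻¹ • h ζ := by
  refine (integrable_cau_bound.const_mul C).mono'
    (measurable_inv.aestronglyMeasurable.smul hc.aestronglyMeasurable)
    (Eventually.of_forall fun ζ => ?_)
  rw [norm_smul, norm_inv, mul_left_comm]
  exact mul_le_mul_of_nonneg_left (hC ζ) (by positivity)

/-- The inhomogeneous Cauchy-Riemann equation in one variable, with parameters. -/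
theorem dbar_one (j : Fin (N + 1)) {U : Set (E N)} (hU : IsOpen U) {R : ℝ} {g : E N → B}
    (h1 : ∀ x ∈ U, ∀ ζ : ℂ, ContDiffAt ℝ ∞ g (x + ζ • ee j))
    (h2 : ∀ x ∈ U, ∀ ζ : ℂ, R < ‖ζ‖ → g =ᶠ[𝓝 (x + ζ • ee j)] 0) {x : E N} (hx : x ∈ U) :
    ContDiffAt ℝ ∞ (cau j fun z => g z.2) x ∧
      (∀ v, vv false v (fderiv ℝ (cau j fun z => g z.2) x) =
        cau j (fun z => vv false v (fderiv ℝ g z.2)) x) ∧
      cau j (fun z => vv false (ee j) (fderiv ℝ g z.2)) x = g x := by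
  have key := cau_smooth j hU (fun H : E N × E N → B => ∀ x ∈ U, ∀ ζ : ℂ,
    ContDiffAt ℝ ∞ H (x, x + ζ • ee j) ∧ (R < ‖ζ‖ → H =ᶠ[𝓝 (x, x + ζ • ee j)] 0))
    (fun H hH x hx ζ => (hH x hx ζ).1)
    (fun H hH v x hx ζ => ⟨(sm_fderiv (hH x hx ζ).1).clm_apply contDiffAt_const, fun h =>
      ((hH x hx ζ).2 h).fderiv (𝕜 := ℝ) |>.mono fun z hz => by simp [hz]⟩)
    (fun H hH x hx => cs_bound (f := fun p => H (p.1, p.1 + p.2 • ee j)) (R := R)
      (fun ζ => (hH x hx ζ).1.continuousAt.comp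
        (f := fun p : E N × ℂ => (p.1, p.1 + p.2 • ee j)) (by fun_prop))
      (eventually_of_mem (hU.mem_nhds hx) fun y hy ζ h => ((hH y hy ζ).2 h).self_of_nhds))
    (fun z => g z.2) (fun x hx ζ => ⟨ContDiffAt.comp (g := g) (f := Prod.snd) (x, x + ζ • ee j)
      (h1 x hx ζ) contDiffAt_snd, fun h =>
      (h2 x hx ζ h).comp_tendsto (continuous_snd.tendsto (x, x + ζ • ee j))⟩) x hx
  have hc : Continuous fun ζ : ℂ => fderiv ℝ g (x + ζ • ee j) := continuous_iff_continuousAt.2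
    fun ζ => (sm_fderiv (h1 x hx ζ)).continuousAt.comp (f := fun ζ : ℂ => x + ζ • ee j)
      (by fun_prop)
  have h0 : ∀ ζ : ℂ, R < ‖ζ‖ → fderiv ℝ g (x + ζ • ee j) = 0 := fun ζ h => by
    rw [(h2 x hx ζ h).fderiv_eq]; simp
  have hi : ∀ v, Integrable fun ζ : ℂ => ζ⁻¹ • fderiv ℝ g (x + ζ • ee j) v := fun v => by
    obtain ⟨C, hC⟩ := cs_bound (X := Unit) (x := ()) (R := R)
      (f := fun p => fderiv ℝ g (x + p.2 • ee j) v)
      (fun ζ => ((hc.comp continuous_snd).clm_apply continuous_const).continuousAt)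
      (Eventually.of_forall fun _ ζ h => by simp [h0 ζ h])
    exact integrable_cau (hc.clm_apply continuous_const) hC.self_of_nhds
  have hs : ∀ v (ζ : ℂ), fderiv ℝ (fun z : E N × E N => g z.2) (x, x + ζ • ee j) (v, v) =
      fderiv ℝ g (x + ζ • ee j) v := fun v ζ => by
    rw [fderiv_fun_comp (g := g) (f := Prod.snd) _ (sm_diff (h1 x hx ζ)) differentiableAt_snd]
    simp [fderiv_snd]
  refine ⟨key.1, fun v => ?_, ?_⟩
  · simp only [vv, key.2, cau, hs, smul_comm (_ : ℂ)⁻¹ (2⁻¹ : ℂ), integral_smul]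
    rw [smul_comm _ (2⁻¹ : ℂ), smul_comm (sg false I), ← smul_sub, ← integral_smul,
      ← integral_sub (g := fun ζ : ℂ => sg false I • ζ⁻¹ • fderiv ℝ g (x + ζ • ee j) (I • v))
        (hi v) ((hi _).smul _)]
    simp only [smul_sub, smul_comm (sg false I)]
  · let L : ℂ →L[ℝ] E N := ((ContinuousLinearMap.id ℂ ℂ).smulRight (ee j)).restrictScalars ℝ
    have hD : ∀ ζ : ℂ, HasFDerivAt (fun ζ : ℂ => g (x + ζ • ee j))
        ((fderiv ℝ g (x + ζ • ee j)).comp L) ζ := fun ζ =>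
      (sm_diff (h1 x hx ζ)).hasFDerivAt.comp ζ (L.hasFDerivAt.const_add x)
    obtain ⟨C, hC⟩ := cs_bound (X := Unit) (x := ()) (R := R)
      (f := fun p => (fderiv ℝ g (x + p.2 • ee j)).comp L)
      (fun ζ => ((hc.comp continuous_snd).clm_comp continuous_const).continuousAt)
      (Eventually.of_forall fun _ ζ h => by simp [h0 ζ h])
    have := pompeiu (b := fun ζ : ℂ => g (x + ζ • ee j)) (C := C) (contDiff_iff_contDiffAt.2
      fun ζ => ((h1 x hx ζ).of_le (by exact_mod_cast le_top)).comp ζ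
        (contDiffAt_const.add L.contDiff.contDiffAt)) ?_
      fun ζ => by rw [(hD ζ).fderiv]; exact hC.self_of_nhds ζ
    · simpa [(hD _).fderiv, L, cau, vv] using this
    · refine tendsto_const_nhds.congr' ?_
      filter_upwards [(isCompact_closedBall (0 : ℂ) R).compl_mem_cocompact] with ζ hζ
      exact ((h2 x hx ζ (by simpa using hζ)).self_of_nhds).symm

end One

theorem dolb_step {u : E N → Λ N} {x : E N} {q : ℤ} (j : Fin (N + 1))
    (hu : ∀ᶠ y in 𝓝 x, ContDiffAt ℝ ∞ u y ∧ u y ∈ Ty 0 q ∧ db false idE u y = 0 ∧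
      ∀ i, j < i → ct (vec false (ee i)) (u y) = 0) :
    ∃ w : E N → Λ N, ∀ᶠ y in 𝓝 x, ContDiffAt ℝ ∞ w y ∧ w y ∈ Ty 0 (q - 1) ∧
      ∀ i, j ≤ i → ct (vec false (ee i)) (db false idE w y) = ct (vec false (ee i)) (u y) := by
  obtain ⟨r, hr, h⟩ := Metric.eventually_nhds_iff_ball.1 hu
  have hh : ∀ y ∈ ball x r, ∀ i, j < i → vv false (ee i) (fderiv ℝ u y) = 0 := fun y hy i hi => by
    have := db_ct_vec (s := false) (L := idE) false (ee i) (sm_diff (h y hy).1)
    rw [db_congr (v := fun _ => 0) (eventually_of_mem (isOpen_ball.mem_nhds hy)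
      fun z hz => (h z hz).2.2.2 i hi), db_const, (h y hy).2.2.1] at this
    simpa using this.symm
  let f : ContDiffBump (x j) := ⟨r / 3, r / 2, by positivity, by linarith⟩
  let a : E N → Λ N := fun y => ct (vec false (ee j)) (u y)
  let g : E N → Λ N := fun y => f (y j) • a y
  have hf : ∀ y : E N, ContDiffAt ℝ ∞ (fun y : E N => f (y j)) y := fun y =>
    f.contDiff.contDiffAt.comp y (contDiffAt_apply ℝ ℂ j y)
  have hz : ∀ y : E N, r / 2 < dist (y j) (x j) → g =ᶠ[𝓝 y] 0 := fun y hy => by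
    have : ∀ᶠ z : E N in 𝓝 y, r / 2 < dist (z j) (x j) :=
      continuousAt_const.eventually_lt (Continuous.continuousAt (by fun_prop)) hy
    exact this.mono fun z hz => by simp [g, f.zero_of_le_dist hz.le]
  have hb : ∀ y ∈ ball x r, ∀ ζ : ℂ,
      y + ζ • ee j ∈ ball x r ∨ g =ᶠ[𝓝 (y + ζ • ee j)] 0 := fun y hy ζ => by
    refine (le_or_gt (dist ((y + ζ • ee j) j) (x j)) (r / 2)).imp (fun h => ?_) (hz _)
    rw [mem_ball, dist_pi_lt_iff hr] at hy ⊢
    intro i
    by_cases e : i = j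
    · subst e; linarith
    · simpa [ee, e] using hy i
  have h1 : ∀ y ∈ ball x r, ∀ ζ : ℂ, ContDiffAt ℝ ∞ g (y + ζ • ee j) := fun y hy ζ =>
    (hb y hy ζ).elim (fun h' => (hf _).smul (sm_T _ (h _ h').1))
      fun h' => contDiffAt_const.congr_of_eventuallyEq h'
  have key := fun y (hy : y ∈ ball x r) => dbar_one j isOpen_ball (R := 2 * r) h1
    (fun y hy ζ hζ => hz _ (by
      have h2 := (dist_le_pi_dist y x j).trans_lt hy
      have h3 := dist_triangle_right ((y + ζ • ee j) j) (y j) (x j)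
      have h4 : dist ((y + ζ • ee j) j) (y j) = ‖ζ‖ := by simp [ee]
      linarith)) hy
  have hK : ∀ K : Submodule ℂ (Λ N), (∀ y ∈ ball x r, a y ∈ K) → ∀ y ∈ ball x r,
      cau j (fun z => g z.2) y ∈ K := fun K hK y hy => cau_mem K fun ζ =>
    (hb y hy ζ).elim (fun h' => K.smul_of_tower_mem _ (hK _ h'))
      fun h' => by rw [show g _ = 0 from h'.self_of_nhds]; exact K.zero_mem
  refine ⟨cau j fun z => g z.2, eventually_of_mem (ball_mem_nhds x (show 0 < r / 3 by positivity))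
    fun y hy' => ?_⟩
  have hy : y ∈ ball x r := ball_subset_ball (by linarith) hy'
  refine ⟨(key y hy).1, hK _ (fun y hy => by simpa using ct_mem_Ty (h y hy).2.1 false (ee j)) y hy,
    fun i hi => ?_⟩
  have e := db_ct_vec (s := false) (L := idE) false (ee i) (sm_diff (key y hy).1)
  rw [db_congr (v := fun _ => 0) (eventually_of_mem (isOpen_ball.mem_nhds hy)
    (hK (LinearMap.ker (ct (vec false (ee i)))) fun y hy => ?_)), db_const, eq_comm, sub_eq_zero,
    ContinuousLinearMap.comp_id, (key y hy).2.1, dl_self, Int.cast_one, one_smul] at e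
  · rw [← e]
    rcases hi.eq_or_lt with rfl | hi
    · rw [(key y hy).2.2]
      have : f (y j) = 1 := f.one_of_mem_closedBall ((dist_le_pi_dist y x j).trans (le_of_lt hy'))
      simp [g, a, this]
    · rw [(h y hy).2.2.2 i hi]
      refine cau_mem ⊥ fun ζ => (hb y hy ζ).elim (fun h' => ?_) fun h' => ?_
      · have d : ∀ c : ℂ, fderiv ℝ (fun y : E N => f (y j)) (y + ζ • ee j) (c • ee i) = 0 :=
          fun c => by
            rw [fderiv_fun_comp (g := f) (f := fun y : E N => y j) _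
              (sm_diff f.contDiff.contDiffAt) (differentiableAt_apply j _),
              (hasFDerivAt_apply (𝕜 := ℝ) j _).fderiv]
            simp [ee, hi.ne]
        have d1 := d 1
        have d2 := vv_comp false (ee i) (ct (vec false (ee j))) (fderiv ℝ u (y + ζ • ee j))
        rw [one_smul] at d1
        rw [hh _ h' i hi, map_zero, ← fderiv_T _ (sm_diff (h _ h').1)] at d2
        rw [Submodule.mem_bot, fderiv_fun_smul (sm_diff (hf _)) (sm_diff (sm_T _ (h _ h').1)),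
          vv_add, ← Complex.coe_smul, vv_smul, d2]
        simp [vv, d, d1]
      · rw [h'.fderiv_eq]; simp [vv_zero]
  · rw [LinearMap.mem_ker]
    rcases hi.eq_or_lt with rfl | hi
    · exact ct_ct _ _
    · rw [ct_comm, (h y hy).2.2.2 i hi, map_zero, neg_zero]

/-- The Dolbeault-Grothendieck lemma. -/
theorem dolb {u : E N → Λ N} {x : E N} {q : ℤ} (hq : 1 ≤ q)
    (hu : ∀ᶠ y in 𝓝 x, ContDiffAt ℝ ∞ u y ∧ u y ∈ Ty 0 q ∧ db false idE u y = 0) :
    ∃ v : E N → Λ N, ∀ᶠ y in 𝓝 x,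
      ContDiffAt ℝ ∞ v y ∧ v y ∈ Ty 0 (q - 1) ∧ db false idE v y = u y := by
  have key : ∀ (m : ℕ) (u : E N → Λ N), (∀ᶠ y in 𝓝 x, ContDiffAt ℝ ∞ u y ∧ u y ∈ Ty 0 q ∧
      db false idE u y = 0 ∧ ∀ i : Fin (N + 1), m ≤ i → ct (vec false (ee i)) (u y) = 0) →
      ∃ v : E N → Λ N, ∀ᶠ y in 𝓝 x,
        ContDiffAt ℝ ∞ v y ∧ v y ∈ Ty 0 (q - 1) ∧ db false idE v y = u y := by
    intro m
    induction m with
    | zero =>
      refine fun u hu => ⟨fun _ => 0, hu.mono fun y hy => ⟨contDiffAt_const, zero_mem _, ?_⟩⟩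
      have := mem_Eg.1 hy.2.1.2
      simp only [num_apply, hy.2.2.2 _ (Nat.zero_le _), mul_zero, Finset.sum_const_zero] at this
      rw [db_const, (smul_eq_zero.1 this.symm).resolve_left (by exact_mod_cast by omega)]
    | succ m ih =>
      intro u hu
      by_cases hm : m < N + 1
      · obtain ⟨w, hw⟩ := dolb_step ⟨m, hm⟩ (hu.mono fun y hy =>
          ⟨hy.1, hy.2.1, hy.2.2.1, fun i hi => hy.2.2.2 i hi⟩)
        obtain ⟨v, hv⟩ := ih (fun y => u y - db false idE w y) (by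
          filter_upwards [hu, hw, hw.eventually_nhds] with y hy h1 h2
          refine ⟨hy.1.sub (sm_db h1.1), sub_mem hy.2.1 ?_, ?_, fun i hi => ?_⟩
          · simpa using db_mem (s := false) (L := idE) (sm_diff h1.1) (h2.mono fun _ h => h.2.1)
          · rw [db_sub (sm_diff hy.1) (sm_diff (sm_db h1.1)), hy.2.2.1, db_db_self h1.1, sub_zero]
          · rw [map_sub, h1.2.2 i hi, sub_self])
        refine ⟨fun y => v y + w y, ?_⟩
        filter_upwards [hv, hw] with y h1 h2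
        refine ⟨h1.1.add h2.1, add_mem h1.2.1 h2.2.1, ?_⟩
        rw [db_add (sm_diff h1.1) (sm_diff h2.1), h1.2.2, sub_add_cancel]
      · exact ih u (hu.mono fun y hy => ⟨hy.1, hy.2.1, hy.2.2.1, fun i hi => by omega⟩)
  exact key (N + 1) u (hu.mono fun y hy => ⟨hy.1, hy.2.1, hy.2.2, fun i hi => by omega⟩)

theorem const_of_dd {u : E N → Λ N} {x : E N}
    (hu : ∀ᶠ y in 𝓝 x, DifferentiableAt ℝ u y ∧ u y ∈ Ty 0 0 ∧ dd idE u y = 0) :
    ∀ᶠ y in 𝓝 x, u y = u x := by
  obtain ⟨r, hr, h⟩ := Metric.eventually_nhds_iff_ball.1 hu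
  have hd : ∀ y ∈ ball x r, DifferentiableAt ℝ (fun y => sca (u y)) y := fun y hy =>
    scaL.differentiableAt.comp y (h y hy).1
  refine eventually_of_mem (ball_mem_nhds x hr) fun y hy => ?_
  rw [eq_sca (h y hy).2.1, eq_sca (h x (mem_ball_self hr)).2.1,
    isOpen_ball.is_const_of_fderiv_eq_zero (𝕜 := ℝ) (f := fun y => sca (u y))
      (convex_ball x r).isPreconnected (fun y hy => (hd y hy).differentiableWithinAt)
      (fun z hz => io_injective ?_) hy (mem_ball_self hr)]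
  rw [← dd_scalar (hd z hz), ← dd_congr (eventually_of_mem (isOpen_ball.mem_nhds hz)
    fun y hy => eq_sca (h y hy).2.1), (h z hz).2.2]
  simp

/-- Contraction with a real vector. -/
noncomputable def cr (v : E N) (a : Λ N) : Λ N := ct (vec true v) a + ct (vec false v) a

theorem cr_mem {k : ℤ} (v : E N) {a : Λ N} (ha : a ∈ Dg k) : cr v a ∈ Dg (k - 1) := by
  have : ∀ s, ct (vec s v) a ∈ Dg (k - 1) := fun s => by
    rw [mem_Dg, num_ct, num_ct, sub_add_sub_comm, ← map_add, mem_Dg.1 ha, vec_comp_pr, vec_comp_pr]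
    cases s <;> simp [sub_smul]
  exact add_mem (this _) (this _)

/-- The Cartan formula for the real Euler vector field. -/
theorem dd_cr {u : E N → Λ N} {x : E N} (hu : ContDiffAt ℝ ∞ u x) :
    dd idE (fun y => cr y (u y)) x =
      num true (u x) + num false (u x) + fderiv ℝ u x x - cr x (dd idE u x) := by
  unfold cr
  rw [dd_add (sm_diff (sm_ct (ξ := fun y => y) true contDiffAt_id hu))
    (sm_diff (sm_ct (ξ := fun y => y) false contDiffAt_id hu)),
    ← vv_add_vv x (fderiv ℝ u x)]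
  simp only [dd, db_ct_euler _ _ (sm_diff hu), dl_self, dl_tf, dl_ft, Int.cast_one, Int.cast_zero,
    one_smul, zero_smul, map_add]
  abel

theorem poinc_zero {u : E N → Λ N} {k : ℕ}
    (hu : ∀ᶠ y in 𝓝 0, ContDiffAt ℝ ∞ u y ∧ u y ∈ Dg (k + 1) ∧ dd idE u y = 0) :
    ∃ v : E N → Λ N, ∀ᶠ y in 𝓝 0, ContDiffAt ℝ ∞ v y ∧ v y ∈ Dg k ∧ dd idE v y = u y := by
  obtain ⟨r, hr, h⟩ := Metric.eventually_nhds_iff_ball.1 hu
  have hm : ∀ t ∈ Set.uIcc (0 : ℝ) 1, ∀ y ∈ ball (0 : E N) r, t • y ∈ ball (0 : E N) r :=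
    fun t ht y hy => by
      rw [Set.uIcc_of_le zero_le_one] at ht
      exact (convex_ball _ r).smul_mem_of_zero_mem (mem_ball_self hr) hy ht
  let G : ℝ × E N → Λ N := fun p => p.1 ^ k • cr p.2 (u (p.1 • p.2))
  have hG : ∀ t ∈ Set.uIcc (0 : ℝ) 1, ∀ y ∈ ball (0 : E N) r, ContDiffAt ℝ ∞ G (t, y) :=
    fun t ht y hy => by
      have : ContDiffAt ℝ ∞ (fun p : ℝ × E N => u (p.1 • p.2)) (t, y) :=
        ContDiffAt.comp (g := u) (f := fun p : ℝ × E N => p.1 • p.2) _ (h _ (hm t ht y hy)).1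
          (contDiffAt_fst.smul contDiffAt_snd)
      exact (contDiffAt_fst.pow k).smul
        ((sm_ct true contDiffAt_snd this).add (sm_ct false contDiffAt_snd this))
  refine ⟨fun y => ∫ t in (0 : ℝ)..1, G (t, y), eventually_of_mem (ball_mem_nhds 0 hr)
    fun y hy => ⟨(param_interval isOpen_ball hG y hy).1, ?_, ?_⟩⟩
  · simp only [intervalIntegral.integral_of_le zero_le_one]
    refine integral_mem _ ((ae_restrict_mem measurableSet_Ioc).mono fun t ht =>
      Submodule.smul_of_tower_mem _ _ ?_)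
    simpa using cr_mem y (h _ (hm t (Set.Icc_subset_uIcc (Set.Ioc_subset_Icc_self ht)) y hy)).2.1
  · have hc : ContinuousOn (fun t => (fderiv ℝ G (t, y)).comp (.inr ℝ ℝ (E N))) (Set.uIcc 0 1) :=
      fun t ht => (((sm_fderiv (hG t ht y hy)).continuousAt.comp (f := fun t => (t, y))
        (by fun_prop)).clm_comp continuousAt_const).continuousWithinAt
    have e1 : fderiv ℝ (fun y => ∫ t in (0 : ℝ)..1, G (t, y)) y =
        ∫ t in (0 : ℝ)..1, (fderiv ℝ G (t, y)).comp (.inr ℝ ℝ (E N)) := by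
      ext1 v
      rw [(param_interval isOpen_ball hG y hy).2,
        ContinuousLinearMap.intervalIntegral_apply hc.intervalIntegrable]
      rfl
    have e2 : dd idE (fun y => ∫ t in (0 : ℝ)..1, G (t, y)) y = ∫ t in (0 : ℝ)..1,
        (al true + al false : _ →L[ℝ] Λ N) ((fderiv ℝ G (t, y)).comp (.inr ℝ ℝ (E N))) := by
      rw [ContinuousLinearMap.intervalIntegral_comp_comm _ hc.intervalIntegrable, ← e1, dd,
        db_id, db_id]
      rfl
    refine e2.trans ((intervalIntegral.integral_eq_sub_of_hasDerivAt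
      (f := fun t => t ^ (k + 1) • u (t • y)) (fun t ht => ?_)
      ((ContinuousLinearMap.continuous _).comp_continuousOn hc).intervalIntegrable).trans ?_)
    swap
    · simp
    · obtain ⟨h1, h2, h3⟩ := h _ (hm t ht y hy)
      have d0 : HasFDerivAt (fun y : E N => t • y) (t • idE) y := (hasFDerivAt_id y).const_smul t
      have s1 : ContDiffAt ℝ ∞ (fun y : E N => u (t • y)) y :=
        ContDiffAt.comp (g := u) (f := fun y : E N => t • y) _ h1 (contDiffAt_id.const_smul t)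
      have d1 : fderiv ℝ (fun y : E N => u (t • y)) y = (t : ℂ) • fderiv ℝ u (t • y) := by
        refine ((sm_diff h1).hasFDerivAt.comp y d0).fderiv.trans ?_
        ext v; simp
      have d2 : dd idE (fun y : E N => u (t • y)) y = 0 := by
        simp only [dd, db_id] at h3 ⊢
        rw [d1, al_smul, al_smul, ← smul_add, h3, smul_zero]
      have d3 := dd_csmul (L := idE) ((t ^ k : ℝ) : ℂ) (u := fun y => cr y (u (t • y)))
        (sm_diff ((sm_ct true contDiffAt_id s1).add (sm_ct false contDiffAt_id s1)))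
      rw [dd_cr s1, d1, d2, mem_Dg.1 h2, dd, db_id, db_id] at d3
      have d4 := (hasDerivAt_pow (k + 1) t).smul ((sm_diff h1).hasFDerivAt.comp_hasDerivAt t
        ((hasDerivAt_id t).smul_const y))
      refine HasDerivAt.congr_deriv d4 (Eq.symm ?_)
      rw [Function.comp, ← (fderiv_slice (sm_diff (hG t ht y hy))).fderiv]
      refine d3.trans ?_
      simp only [cr, map_zero, add_zero, sub_zero, Function.comp, one_smul, id,
        _root_.smul_apply, Nat.add_sub_cancel]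
      generalize u (t • y) = A, fderiv ℝ u (t • y) y = D
      simp only [← Complex.coe_smul]
      push_cast
      module

/-- The Poincaré lemma. -/
theorem poinc {u : E N → Λ N} {x : E N} {k : ℤ} (hk : 1 ≤ k)
    (hu : ∀ᶠ y in 𝓝 x, ContDiffAt ℝ ∞ u y ∧ u y ∈ Dg k ∧ dd idE u y = 0) :
    ∃ v : E N → Λ N, ∀ᶠ y in 𝓝 x, ContDiffAt ℝ ∞ v y ∧ v y ∈ Dg (k - 1) ∧ dd idE v y = u y := by
  obtain ⟨n, rfl⟩ : ∃ n : ℕ, k = n + 1 := ⟨(k - 1).toNat, by omega⟩
  have e : ∀ (u : E N → Λ N) (c y : E N), dd idE (fun y => u (y + c)) y = dd idE u (y + c) :=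
    fun u c y => by simp only [dd, db_id, fderiv_comp_add_right]
  have t1 : Tendsto (fun y : E N => y + x) (𝓝 0) (𝓝 x) :=
    (continuous_add_const x).tendsto' _ _ (zero_add x)
  have t2 : Tendsto (fun y : E N => y + -x) (𝓝 x) (𝓝 0) :=
    (continuous_add_const (-x)).tendsto' _ _ (add_neg_cancel x)
  obtain ⟨v, hv⟩ := poinc_zero (u := fun y => u (y + x)) (k := n) ((t1.eventually hu).mono
    fun y hy => ⟨hy.1.comp y (contDiffAt_id.add contDiffAt_const), hy.2.1, (e u x y).trans hy.2.2⟩)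
  refine ⟨fun y => v (y + -x), (t2.eventually hv).mono fun y hy =>
    ⟨hy.1.comp y (contDiffAt_id.add contDiffAt_const), by simpa using hy.2.1, ?_⟩⟩
  rw [e, hy.2.2, neg_add_cancel_right]

end Vale.Agent.P269.Hdg
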