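import Vale.Agent.P269.Hdg.Sm
import Vale.Agent.P269.Hdg.Dolb
import Vale.Agent.P291Z.T7

/-!
# Complexes with the cohomology of a point; complexes of cochains over the space of projectors
-/

namespace Vale.Agent.P269.Hdg

open scoped ComplexConjugate ContDiff
open Topology Filter P291Z

variable {N : ℕ}

namespace Cx

variable {C D : Cx}

/-- The cohomology is one-dimensional, generated by the class of `e` in degree zero. -/
structure Pt (C : Cx) (e : C.M) : Prop where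
  ex : ∀ q ≠ 0, C.Exact q
  mem : e ∈ C.Z 0
  gen : ∀ u ∈ C.Z 0, ∃ c : ℂ, u - c • e ∈ C.B 0
  ne : e ∉ C.B 0

theorem Hom.qiso_of_pt (f : Hom C D) {e : C.M} {e' : D.M} (hC : C.Pt e) (hD : D.Pt e')
    (h : f.f e - e' ∈ D.nul) (q : ℤ) : f.Inj q ∧ f.Surj q := by
  by_cases hq : q = 0
  · subst hq
    refine ⟨fun u hu h1 => ?_, fun w hw => ?_⟩
    · obtain ⟨c, hc⟩ := hC.gen u hu
      have h2 : c • e' ∈ D.B 0 := by
        have := sub_mem (sub_mem h1 (f.map_B hc)) ((D.B 0).smul_mem c (nul_le_B h))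
        convert this using 1
        rw [map_sub, map_smul, smul_sub]; abel
      by_cases h0 : c = 0
      · simpa [h0] using hc
      · exact (hD.ne (((D.B 0).smul_mem_iff h0).1 h2)).elim
    · obtain ⟨c, hc⟩ := hD.gen w hw
      refine ⟨c • e, (C.Z 0).smul_mem c hC.mem, ?_⟩
      have := sub_mem hc ((D.B 0).smul_mem c (nul_le_B h))
      convert this using 1
      rw [map_smul, smul_sub]; abel
  · exact ⟨fun u hu _ => exact_iff_B.1 (hC.ex q hq) u hu,
      fun w hw => ⟨0, zero_mem _, by simpa using exact_iff_B.1 (hD.ex q hq) w hw⟩⟩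

theorem Hom.qiso_of_top (f : Hom C D) (hC : C.nul = ⊤) (hD : D.nul = ⊤) (q : ℤ) :
    f.Inj q ∧ f.Surj q :=
  ⟨fun _ _ _ => nul_le_B (by rw [hC]; trivial),
    fun _ _ => ⟨0, zero_mem _, nul_le_B (by rw [hD]; trivial)⟩⟩

end Cx

/-! ## Operations on cochains -/

section ops

variable {Y : Type}

/-- The cochain of degree `k` given by a function of `k + 1` points. -/
noncomputable def ofG {k : ℕ} (G : (Fin (k + 1) → Y) → ℂ) : Coch Y :=
  ⟨fun l => if h : l.length = k + 1 then G fun i => l.get (i.cast h.symm) else 0,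
    by simp, k + 1, fun l hl => dif_neg (by omega)⟩

theorem ofG_ofFn {k : ℕ} (G : (Fin (k + 1) → Y) → ℂ) (y : Fin (k + 1) → Y) :
    (ofG G).1 (List.ofFn y) = G y := by
  refine (dif_pos (List.length_ofFn)).trans ?_
  congr 1
  funext i
  simp [-List.ofFn_succ]

theorem isDeg_ofG {k : ℕ} (G : (Fin (k + 1) → Y) → ℂ) : IsDeg k (ofG G) :=
  fun _ hl => dif_neg (by omega)

theorem exists_ofFn {k : ℕ} {l : List Y} (h : l.length = k) :
    ∃ y : Fin k → Y, l = List.ofFn y := by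
  subst h
  exact ⟨l.get, (List.ofFn_get l).symm⟩

/-- Multiplication by a function of the first point. -/
noncomputable def mf (g : Y → ℂ) (a : Coch Y) : Coch Y := ofG (k := 0) (fun y => g (y 0)) * a

theorem mf_cons (g : Y → ℂ) (a : Coch Y) (y : Y) (l : List Y) :
    (mf g a).1 (y :: l) = g y * a.1 (y :: l) := by
  rw [mf, mul_val_of_isDeg (isDeg_ofG _) a _ (by simp)]
  congr 1

theorem IsDeg.mf {q : ℤ} {a : Coch Y} (ha : IsDeg q a) (g : Y → ℂ) : IsDeg q (mf g a) :=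
  ((isDeg_ofG _).mul ha).cast (by simp)

/-- The cone operator. -/
noncomputable def con (x : Y) (a : Coch Y) : Coch Y :=
  ⟨fun l => if l.length = 0 then 0 else a.1 (x :: l), by simp, by
    obtain ⟨-, M, hM⟩ := a.2
    exact ⟨M, fun l hl => ite_eq_left_iff.2 fun _ => hM (x :: l) (by simp; omega)⟩⟩

theorem con_val (x : Y) (a : Coch Y) (l : List Y) :
    (con x a).1 l = if l.length = 0 then 0 else a.1 (x :: l) := rfl

theorem IsDeg.con {q : ℤ} {a : Coch Y} (ha : IsDeg q a) (x : Y) : IsDeg (q - 1) (con x a) :=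
  fun l hl => by rw [con_val, ha (x :: l) (by simp; omega), ite_self]

theorem con_δ (x : Y) (a : Coch Y) : a - δ (con x a) - a.1 [x] • 1 = con x (δ a) := by
  refine Coch.ext fun l => ?_
  cases l with
  | nil => exact (Subtype.prop (a - δ (con x a) - a.1 [x] • 1)).1
  | cons y l =>
    have e : (fun m => a.1 (x :: m)) =
        (con x a).1 + a.1 [x] • fun m : List Y => if m.length = 0 then (1 : ℂ) else 0 := by
      funext m
      cases m <;> simp [con_val]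
    have e' : cob (fun m : List Y => if m.length = 0 then (1 : ℂ) else 0) (y :: l) =
        unit Y (y :: l) := by
      rw [cob_cons]
      simp [cob, unit]
    rw [con_val, if_neg (by simp), δ_val, cob_cons, e, cob_add, cob_smul]
    simp only [Coch.sub_val, Coch.smul_val, Coch.one_val, δ_val, Pi.sub_apply, Pi.add_apply,
      Pi.smul_apply, e']
    ring

end ops

theorem isSm_ofG {k : ℕ} {G : (Fin (k + 1) → E N) → ℂ}
    (h : ∀ y, (∀ i, y i ≠ 0) → ContDiffAt ℝ ∞ G y)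
    (inv : ∀ (y : Fin (k + 1) → E N) (t : Fin (k + 1) → ℂ), (∀ i, y i ≠ 0) → (∀ i, t i ≠ 0) →
      G (fun i => t i • y i) = G y) : IsSm (ofG G) := by
  refine isSm_of_ofFn (fun m y hy => ?_) fun l l' hl => ?_
  · by_cases hm : m = k + 1
    · subst hm
      simpa only [ofG_ofFn] using h y hy
    · have : (fun y : Fin m → E N => (ofG G).1 (List.ofFn y)) = fun _ => 0 :=
        funext fun y => isDeg_ofG G _ (by rw [List.length_ofFn]; omega)
      rw [this]
      exact contDiffAt_const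
  · by_cases hm : l.length = k + 1
    · obtain ⟨y, rfl⟩ := exists_ofFn hm
      obtain ⟨y', rfl⟩ := exists_ofFn (hl.length_eq.symm.trans hm)
      rw [List.ofFn_eq_map, List.ofFn_eq_map, List.forall₂_map_left_iff,
        List.forall₂_map_right_iff, List.forall₂_same] at hl
      choose t ht e using fun i => (hl i (List.mem_finRange i)).2
      rw [ofG_ofFn, ofG_ofFn, show y' = fun i => t i • y i from funext e,
        inv y t (fun i => (hl i (List.mem_finRange i)).1) ht]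
    · rw [isDeg_ofG G l (by omega), isDeg_ofG G l' (by rw [← hl.length_eq]; omega)]

theorem IsSm.mf {a : Coch (E N)} (ha : IsSm a) {g : E N → ℂ} (hg : ∀ y ≠ 0, ContDiffAt ℝ ∞ g y)
    (hm : ∀ (t : ℂ) y, t ≠ 0 → g (t • y) = g y) : IsSm (mf g a) :=
  (isSm_ofG (fun y hy => (hg _ (hy 0)).comp y (contDiffAt_apply ℝ (E N) 0 y))
    fun _ _ _ ht => hm _ _ (ht 0)).mul ha

theorem IsSm.con {a : Coch (E N)} (ha : IsSm a) {x : E N} (hx : x ≠ 0) : IsSm (con x a) := by
  refine ⟨fun m l y hy => ?_, fun l l' h => ?_⟩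
  · simp only [con_val, List.length_map]
    split_ifs
    · exact contDiffAt_const
    · have e : (fun y : Fin m → E N => a.1 (x :: l.map y)) =
          (fun z : Fin (m + 1) → E N => a.1 ((0 :: l.map Fin.succ).map z)) ∘
            fun y => Fin.cons x y := by
        funext y; simp [Function.comp_def]
      rw [e]
      refine (ha.sm _ _ _ (Fin.cases hx hy)).comp y (contDiffAt_pi.2 (Fin.cases ?_ fun i => ?_))
      · exact contDiffAt_const
      · exact contDiffAt_apply ℝ (E N) i y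
  · rw [con_val, con_val, h.length_eq,
      ha.inv _ _ (List.Forall₂.cons ⟨hx, 1, one_ne_zero, (one_smul _ _).symm⟩ h)]

/-! ## Complexes of cochains -/

/-- Cochains vanishing on lists of points of `C` over a neighbourhood of `b`. -/
def VA {Y : Type} (C : Set Y) (p : Y → TT N) (b : TT N) : Submodule ℂ (Coch Y) where
  carrier := {a | ∃ U ∈ 𝓝 b, ∀ l : List Y, (∀ y ∈ l, y ∈ C ∧ p y ∈ U) → a.1 l = 0}
  zero_mem' := ⟨_, univ_mem, fun _ _ => rfl⟩
  add_mem' := by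
    rintro a a' ⟨U, hU, h⟩ ⟨U', hU', h'⟩
    exact ⟨_, inter_mem hU hU', fun l hl => by
      rw [Coch.add_val, Pi.add_apply, h l fun y hy => ⟨(hl y hy).1, (hl y hy).2.1⟩,
        h' l fun y hy => ⟨(hl y hy).1, (hl y hy).2.2⟩, add_zero]⟩
  smul_mem' := by
    rintro c a ⟨U, hU, h⟩
    exact ⟨U, hU, fun l hl => by rw [Coch.smul_val, Pi.smul_apply, h l hl, smul_zero]⟩

section VA

variable {Y : Type} {C : Set Y} {p : Y → TT N} {b : TT N} {a : Coch Y}

theorem mem_VA : a ∈ VA C p b ↔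
    ∃ U ∈ 𝓝 b, ∀ l : List Y, (∀ y ∈ l, y ∈ C ∧ p y ∈ U) → a.1 l = 0 := Iff.rfl

theorem VA_of_cons {Q : TT N → Prop} (hQ : ∀ᶠ b' in 𝓝 b, Q b')
    (h : ∀ y l, y ∈ C → Q (p y) → a.1 (y :: l) = 0) : a ∈ VA C p b :=
  ⟨_, hQ, fun l hl => by
    cases l with
    | nil => exact a.2.1
    | cons y l => exact h y l (hl y (by simp)).1 (hl y (by simp)).2⟩

theorem VA_δ (h : a ∈ VA C p b) : δ a ∈ VA C p b := by
  obtain ⟨U, hU, h⟩ := h
  refine ⟨U, hU, fun l hl => ?_⟩
  rw [δ_val, cob]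
  exact Finset.sum_eq_zero fun i _ => by
    rw [h _ fun y hy => hl y (List.mem_of_mem_eraseIdx hy), mul_zero]

theorem VA_mul_right (h : a ∈ VA C p b) (a' : Coch Y) : a * a' ∈ VA C p b := by
  obtain ⟨U, hU, h⟩ := h
  refine ⟨U, hU, fun l hl => ?_⟩
  rw [Coch.mul_val, cup]
  exact Finset.sum_eq_zero fun i _ => by
    rw [h _ fun y hy => hl y (List.mem_of_mem_take hy), zero_mul]

theorem VA_mul_left (h : a ∈ VA C p b) (a' : Coch Y) : a' * a ∈ VA C p b := by
  obtain ⟨U, hU, h⟩ := h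
  refine ⟨U, hU, fun l hl => ?_⟩
  rw [Coch.mul_val, cup]
  exact Finset.sum_eq_zero fun i _ => by
    rw [h (l.drop i) fun y hy => hl y (List.mem_of_mem_drop hy), mul_zero]

theorem VA_opn (h : a ∈ VA C p b) : ∀ᶠ b' in 𝓝 b, a ∈ VA C p b' := by
  obtain ⟨U, hU, h⟩ := h
  exact (eventually_mem_nhds_iff.2 hU).mono fun b' hb => ⟨U, hb, h⟩

theorem VA_con {x : Y} (hx : x ∈ C) (h : a ∈ VA C p (p x)) : con x a ∈ VA C p (p x) := by
  obtain ⟨U, hU, h⟩ := h
  exact ⟨U, hU, fun l hl => by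
    rw [con_val, h (x :: l) (List.forall_mem_cons.2 ⟨⟨hx, mem_of_mem_nhds hU⟩, hl⟩), ite_self]⟩

theorem VA_mono {C' : Set Y} (hC : C' ⊆ C) (h : a ∈ VA C p b) : a ∈ VA C' p b := by
  obtain ⟨U, hU, h⟩ := h
  exact ⟨U, hU, fun l hl => h l fun y hy => ⟨hC (hl y hy).1, (hl y hy).2⟩⟩

end VA

/-- The data of a complex of cochains. -/
structure AD (N : ℕ) where
  Y : Type
  C : Set Y
  p : Y → TT N
  A : Submodule ℂ (Coch Y)
  dA : ∀ a ∈ A, δ a ∈ A
  cut : ∀ φ : TT N → ℂ, ContDiff ℝ ∞ φ → ∀ a ∈ A, mf (fun y => φ (p y)) a ∈ A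
  conA : ∀ x ∈ C, ∀ a ∈ A, con x a ∈ A
  one : 1 ∈ A
  pK : ∀ y ∈ C, p y ∈ KK N

namespace AD

variable (D : AD N)

/-- The complex over the space of projectors. -/
noncomputable def sh : Sh (TT N) where
  M := D.A
  d := δ.restrict D.dA
  G q := (degS D.Y q).comap D.A.subtype
  V b := (VA D.C D.p b).comap D.A.subtype
  dG _ _ hu := IsDeg.δ hu
  dV _ _ hu := VA_δ hu
  dd b _ u _ := by
    change δ (δ (u : D.A).1) ∈ VA D.C D.p b
    rw [δ_δ]; exact zero_mem _

/-- The underlying cochain. -/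
noncomputable def val : D.sh.M →ₗ[ℂ] Coch D.Y := D.A.subtype

/-- An element of the complex. -/
def mk' (a : Coch D.Y) (ha : a ∈ D.A) : D.sh.M := (⟨a, ha⟩ : D.A)

variable {D}

@[simp] theorem val_mk' (a : Coch D.Y) (ha : a ∈ D.A) : D.val (D.mk' a ha) = a := rfl

theorem val_mem (u : D.sh.M) : D.val u ∈ D.A := Subtype.prop (p := fun a => a ∈ D.A) u

theorem val_d (u : D.sh.M) : D.val (D.sh.d u) = δ (D.val u) := rfl

theorem mem_G {q : ℤ} {u : D.sh.M} : u ∈ D.sh.G q ↔ IsDeg q (D.val u) := Iff.rfl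

theorem mem_V {b : TT N} {u : D.sh.M} : u ∈ D.sh.V b ↔ D.val u ∈ VA D.C D.p b := Iff.rfl

variable (D)

theorem V_top {b : TT N} (h : ∀ᶠ b' in 𝓝 b, ∀ y ∈ D.C, D.p y ≠ b') : D.sh.V b = ⊤ :=
  eq_top_iff.2 fun _ _ => mem_V.2 <| VA_of_cons
    (Q := fun b' => ∀ y ∈ D.C, D.p y ≠ b') h fun y _ hy hQ => (hQ y hy rfl).elim

theorem sep {K₁ K₂ : Set (TT N)} (h₁ : IsClosed K₁) (h₂ : IsClosed K₂) (hd : Disjoint K₁ K₂)
    (q : ℤ) (u : D.sh.M) (hu : u ∈ D.sh.G q) : ∃ u' ∈ D.sh.G q, (∀ b ∈ K₁, u' - u ∈ D.sh.V b) ∧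
      (∀ b ∈ K₂, u' ∈ D.sh.V b) ∧ ∀ b, u ∈ D.sh.V b → u' ∈ D.sh.V b := by
  obtain ⟨φ, hφ, e₁, e₂⟩ := exists_cut h₁ h₂ hd
  refine ⟨D.mk' _ (D.cut φ hφ _ (val_mem u)), ?_, fun b hb => ?_, fun b hb => ?_, fun b hb => ?_⟩
  · rw [mem_G, val_mk']
    exact IsDeg.mf (mem_G.1 hu) _
  · rw [mem_V, map_sub, val_mk']
    refine VA_of_cons (e₁ b hb) fun y l _ h => ?_
    rw [Coch.sub_val, Pi.sub_apply, mf_cons, h, one_mul, sub_self]
  · rw [mem_V, val_mk']
    refine VA_of_cons (e₂ b hb) fun y l _ h => ?_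
    rw [mf_cons, h, zero_mul]
  · rw [mem_V, val_mk', mf]
    exact VA_mul_left (mem_V.1 hb) _

theorem fine : D.sh.Fine where
  opn _ _ hu := VA_opn (mem_V.1 hu)
  sep _ _ h₁ h₂ hd := D.sep h₁.isClosed h₂.isClosed hd
  bdd := ⟨0, fun q hq b u hu => mem_V.2 <| by
    rw [IsDeg.eq_zero (mem_G.1 hu) hq]; exact zero_mem _⟩
  cpt := ⟨KK N, isCompact_KK, fun b hb => D.V_top <| by
    filter_upwards [isCompact_KK.isClosed.isOpen_compl.mem_nhds hb] with b' hb' y hy e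
    exact hb' (e ▸ D.pK y hy)⟩

theorem pt {x : D.Y} (hx : x ∈ D.C) : (D.sh.st (D.p x)).Pt (D.mk' 1 D.one) := by
  have key : ∀ (u : D.sh.M), D.sh.d u ∈ D.sh.V (D.p x) → u - (D.val u).1 [x] • D.mk' 1 D.one -
      D.sh.d (D.mk' _ (D.conA x hx _ (val_mem u))) ∈ D.sh.V (D.p x) := fun u hu => by
    have := VA_con hx (mem_V.1 hu)
    rw [val_d, ← con_δ, sub_right_comm] at this
    rwa [mem_V, map_sub, map_sub, map_smul, val_d, val_mk', val_mk']
  have deg : ∀ q, ∀ u ∈ D.sh.G q, D.mk' _ (D.conA x hx _ (val_mem u)) ∈ D.sh.G (q - 1) :=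
    fun q u hu => mem_G.2 (IsDeg.con (mem_G.1 hu) x)
  refine ⟨fun q hq (u : D.sh.M) hu hd => ⟨_, deg q u hu, ?_⟩, ⟨mem_G.2 isDeg_one, mem_V.2 ?_⟩,
    fun u hu => ⟨_, Cx.mem_B.2 ⟨_, deg 0 u hu.1, key u hu.2⟩⟩, fun h => ?_⟩
  · have := key u hd
    rwa [mem_G.1 hu [x] (by simp; omega), zero_smul, sub_zero] at this
  · change δ (1 : Coch D.Y) ∈ _
    rw [δ_one_eq_zero]; exact zero_mem _
  · obtain ⟨v, hv, h⟩ := Cx.mem_B.1 h
    obtain ⟨U, hU, h⟩ := mem_V.1 h
    have := h [x] (by simpa using ⟨hx, mem_of_mem_nhds hU⟩)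
    change ((1 : Coch D.Y) - δ (D.val v)).1 [x] = 0 at this
    rw [IsDeg.eq_zero (mem_G.1 hv) (by norm_num), map_zero, sub_zero] at this
    simp [Coch.one_val, unit] at this

end AD

end Vale.Agent.P269.Hdg
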