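import Vale.Agent.P269.Hdg.CmpA

/-!
# Smooth cochains compute de Rham cohomology
-/

namespace Vale.Agent.P269.Hdg

open scoped ComplexConjugate ContDiff
open Topology Filter P291Z

variable {N : ℕ}

theorem Dg_big {k : ℤ} (hk : 2 * (N : ℤ) + 2 < k) {a : Λ N} (ha : a ∈ Dg k) : a = 0 := by
  rw [← sum_pt a]
  refine Finset.sum_eq_zero fun p hp => Finset.sum_eq_zero fun q hq => pt_of_Dg ha ?_
  simp only [rng, Finset.mem_Icc] at hp hq
  omega

theorem Ty_of_Dg_zero {a : Λ N} (ha : a ∈ Dg 0) : a ∈ Ty 0 0 := by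
  rw [← sum_pt a]
  refine Submodule.sum_mem _ fun p hp => Submodule.sum_mem _ fun q hq => ?_
  simp only [rng, Finset.mem_Icc] at hp hq
  by_cases h : p + q = 0
  · obtain ⟨rfl, rfl⟩ : p = 0 ∧ q = 0 := by omega
    exact pt_mem _ _ _
  · rw [pt_of_Dg ha h]; exact zero_mem _

theorem par_of_Dg {k : ℤ} {a : Λ N} (ha : a ∈ Dg k) : par a = ((-1 : ℂ) ^ k) • a := by
  conv_lhs => rw [← sum_pt a]
  conv_rhs => rw [← sum_pt a]
  simp only [map_sum, Finset.smul_sum]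
  refine Finset.sum_congr rfl fun p _ => Finset.sum_congr rfl fun q _ => ?_
  by_cases h : p + q = k
  · rw [par_of_mem (pt_mem p q a), h]
  · simp [pt_of_Dg ha h]

theorem oneS_Ak : (oneS : SM N) ∈ Ak 0 := by simpa using Om_le_Ak (oneS_Om (N := N))

theorem DD_oneS {x : E N} (hx : x ≠ 0) : (DD (oneS : SM N)).1 x = 0 := by
  rw [DD_apply _ hx]; exact dd_const 1

theorem DD_of_zero {u : SM N} (h : ∀ x ≠ 0, u.1 x = 0) {x : E N} (hx : x ≠ 0) : (DD u).1 x = 0 := by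
  rw [DD_apply _ hx, dd_congr (v := fun _ => 0) ((ne_zero_ev hx).mono h), dd_const]

variable {ι : Type} [Fintype ι] [DecidableEq ι] {F : ι → MP N} {d : ι → ℕ}

/-- The Poincare lemma along the cone. -/
theorem dR_loc (h : IsCI F d) {x : E N} (hx : x ∈ cone F) {q : ℤ} {u : SM N} (hu : u ∈ Ak q)
    (hd : DD u ∈ Vn (cone F) (fun y => ann (pl (fullL F) y)) (prP x)) :
    ∃ w : E N → Λ N, ∀ᶠ y in 𝓝 x, (ContDiffAt ℝ ∞ w y ∧ w y ∈ Dg q ∧ dd idE w y = 0) ∧
      (y ∈ cone F → u.1 y - w y ∈ ann (pl (fullL F) y)) := by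
  obtain ⟨r, hr, hev⟩ := exists_retr' h hx
  refine ⟨pb r u.1, ?_⟩
  filter_upwards [hev, hr.eventually (NearT.ev hx.1 hd)] with y ⟨h1, h2, h3, h4⟩ h5
  refine ⟨⟨sm_pb (an_sm h1) (u.sm h2.1), mp_mem_Dg _ (hu.2 _ h2.1), ?_⟩, fun hy => (h4 hy u.1).1⟩
  rw [dd_pb (an_sm h1) (u.df h2.1)]
  refine h3 _ _ h.dualL_full (fun _ => of_mem_fullL) ?_
  rw [← DD_apply _ h2.1]
  exact h5 h2

theorem dR_exact (h : IsCI F d) {x : E N} (hx : x ∈ cone F) {q : ℤ} (hq : 1 ≤ q) {u : SM N}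
    (hu : u ∈ Ak q) (hd : DD u ∈ Vn (cone F) (fun y => ann (pl (fullL F) y)) (prP x)) :
    ∃ v ∈ Ak (q - 1), u - DD v ∈ Vn (cone F) (fun y => ann (pl (fullL F) y)) (prP x) := by
  obtain ⟨w, hw⟩ := dR_loc h hx hu hd
  obtain ⟨v, hv⟩ := poinc hq (hw.mono fun y hy => hy.1)
  obtain ⟨v', h1, h2⟩ := exists_ext_Ak hx.1 (hv.mono fun y hy => ⟨hy.1, hy.2.1⟩)
  refine ⟨v', h1, Vn_of_ev_Ak h h.dualL_full hx.1 (k := q)
    (sub_mem hu (by simpa using DD_Ak h1)) ?_⟩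
  filter_upwards [h2.eventuallyEq_nhds, ne_zero_ev hx.1, lf_ne_ev hx.1,
    (cpr_tendsto hx.1).eventually hv, (cpr_tendsto hx.1).eventually hw] with y e1 e2 e3 e4 e5 hy
  have e6 := ext_ann h h.dualL_full (fun _ => of_mem_fullL) hy e3 0 (v := fun z => u.1 z - w z)
    (e5.2 ((cone_smul h (inv_ne_zero e3)).2 hy))
  rw [ext_sub, ext_zero, ext_zero, pb_cpr_eq hu e3 e2] at e6
  have e7 : (DD v').1 y = pb (cpr x) w y := by
    rw [DD_apply _ e2, dd_congr e1, dd_pb (an_sm (an_cpr e3)) (sm_diff e4.1), pb, e4.2.2, pb]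
  rwa [Submodule.coe_sub, Pi.sub_apply, e7]

theorem dR_const (h : IsCI F d) {x : E N} (hx : x ∈ cone F) {u : SM N}
    (hu : u ∈ Ak 0) (hd : DD u ∈ Vn (cone F) (fun y => ann (pl (fullL F) y)) (prP x)) :
    ∃ c : ℂ, u - c • oneS ∈ Vn (cone F) (fun y => ann (pl (fullL F) y)) (prP x) := by
  obtain ⟨w, hw⟩ := dR_loc h hx hu hd
  have h1 := const_of_dd (hw.mono fun y hy => ⟨sm_diff hy.1.1, Ty_of_Dg_zero hy.1.2.1, hy.1.2.2⟩)
  refine ⟨sca (w x), Vn_of_ev_Ak h h.dualL_full hx.1 (k := 0)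
    (sub_mem hu (Submodule.smul_mem _ _ oneS_Ak)) ?_⟩
  filter_upwards [hw, h1] with y e1 e2 hy
  have := e1.2 hy
  rwa [e2, eq_sca (Ty_of_Dg_zero hw.self_of_nhds.1.2.1)] at this

theorem dR_ne (h : IsCI F d) {x : E N} (hx : x ∈ cone F) {v : SM N} (hv : v ∈ Ak (0 - 1)) :
    oneS - DD v ∉ Vn (cone F) (fun y => ann (pl (fullL F) y)) (prP x) := fun h1 => by
  have h2 : (1 : Λ N) - (DD v).1 x ∈ ann (pl (fullL F) x) := NearT.self hx.1 h1 hx
  rw [DD_of_zero (fun y hy => Ak_neg (by norm_num) hv hy) hx.1, sub_zero, mem_ann, mul_one] at h2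
  exact wl_ne_zero (h.dualL_full.hasDual hx) h2

theorem dR_pt (h : IsCI F d) {x : E N} (hx : x ∈ cone F) :
    ((dR h).sh.st (prP x)).Pt (oneS : SM N) := by
  refine ⟨fun q hq => ?_, ⟨oneS_Ak, Vn_of_zero fun y hy => DD_oneS hy⟩, fun u hu => ?_,
    fun hB => ?_⟩
  · by_cases hq' : q < 0
    · exact Cx.exact_of_le fun u hu => Vn_of_zero fun y hy => Ak_neg hq' hu hy
    · exact fun u hu hd => dR_exact h hx (by omega) (u := u) hu hd
  · obtain ⟨c, hc⟩ := dR_const h hx (u := u) (Cx.mem_Z.1 hu).1 (Cx.mem_Z.1 hu).2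
    exact ⟨c, Cx.nul_le_B hc⟩
  · obtain ⟨v, hv, h1⟩ := Cx.mem_B.1 hB
    exact dR_ne h hx (v := v) hv h1

theorem dR_top (h : IsCI F d) {b : TT N} (hb : NearT b fun y => y ∉ cone F) :
    ((dR h).sh.st b).nul = ⊤ :=
  eq_top_iff.2 fun _ _ => NearT.mono hb fun _ _ h1 h2 => (h1 h2).elim

/-! ## The form of a smooth cochain -/

/-- Smooth cochains. -/
def smA (N : ℕ) : Submodule ℂ (Coch (E N)) where
  carrier := {a | IsSm a}
  zero_mem' := IsSm.zero
  add_mem' := IsSm.add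
  smul_mem' c _ h := h.smul c

open Classical in
/-- The differential form of a smooth cochain. -/
noncomputable def DM : smA N →ₗ[ℂ] SM N where
  toFun a := ⟨fun x => if x = 0 then 0 else ∑ k ∈ Finset.range (2 * N + 3), Dm k a.1 x,
    fun x hx => (ContDiffAt.sum fun _ _ => sm_Dm a.2 hx).congr_of_eventuallyEq
      ((ne_zero_ev hx).mono fun y hy => if_neg hy)⟩
  map_add' a b := Subtype.ext (funext fun x => by
    by_cases hx : x = 0
    · simp [hx]
    · simp only [Submodule.coe_add, Pi.add_apply, if_neg hx, ← Finset.sum_add_distrib]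
      exact Finset.sum_congr rfl fun k _ => Dm_add a.2 b.2 hx)
  map_smul' c a := Subtype.ext (funext fun x => by
    by_cases hx : x = 0
    · simp [hx]
    · simp only [Submodule.coe_smul, Pi.smul_apply, if_neg hx, RingHom.id_apply, Finset.smul_sum]
      exact Finset.sum_congr rfl fun k _ => Dm_smul c a.2 hx)

theorem DM_apply (a : smA N) {x : E N} (hx : x ≠ 0) :
    (DM a).1 x = ∑ k ∈ Finset.range (2 * N + 3), Dm k a.1 x := if_neg hx

theorem DM_of_isDeg {a : smA N} {k : ℕ} (ha : IsDeg k a.1) {x : E N} (hx : x ≠ 0) :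
    (DM a).1 x = Dm k a.1 x := by
  rw [DM_apply a hx]
  refine Finset.sum_eq_single k (fun j _ hj => Dm_of_isDeg ha (by omega)) fun hk => ?_
  exact Dg_big (by have := Finset.mem_range.not.1 hk; omega) (Dm_mem_Dg a.2 hx)

theorem DM_of_neg {a : smA N} {k : ℤ} (ha : IsDeg k a.1) (hk : k < 0) : DM a = 0 := by
  rw [show a = 0 from Subtype.ext (ha.eq_zero hk), map_zero]

theorem DM_Ak {a : smA N} {k : ℤ} (ha : IsDeg k a.1) : DM a ∈ Ak k := by
  by_cases hk : k < 0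
  · rw [DM_of_neg ha hk]; exact zero_mem _
  lift k to ℕ using by omega
  exact Ak_congr (Dm_mem a.2) fun x hx => DM_of_isDeg ha hx

theorem DM_δ {a a' : smA N} (e : a'.1 = δ a.1) {k : ℤ} (ha : IsDeg k a.1) {x : E N} (hx : x ≠ 0) :
    (DM a').1 x = (DD (DM a)).1 x := by
  have ha' : IsDeg (k + 1) a'.1 := e ▸ ha.δ
  by_cases hk : k < 0
  · rw [DM_of_neg ha hk, show a' = 0 from Subtype.ext (by rw [e, ha.eq_zero hk]; simp),
      map_zero, map_zero]
  lift k to ℕ using by omega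
  rw [DM_of_isDeg (k := k + 1) ha' hx, e, Dm_delta a.2 hx, DD_apply _ hx]
  exact dd_congr ((ne_zero_ev hx).mono fun y hy => (DM_of_isDeg ha hy).symm)

theorem Dm_ann (h : IsCI F d) {a : Coch (E N)} (ha : IsSm a) {x : E N} (hx : x ∈ cone F)
    (hv : a ∈ VA (cone F) prP (prP x)) (k : ℕ) : Dm k a x ∈ ann (pl (fullL F) x) := by
  obtain ⟨U, hU, hv⟩ := hv
  refine Df_ann h hx (ha.ofFn_ev fun _ => hx.1) ?_
  filter_upwards [eventually_all.2 fun i : Fin (k + 1) => ((continuous_apply i).tendsto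
    fun _ => x).eventually ((sm_prP hx.1).continuousAt.tendsto.eventually_mem hU)] with y h1 h2
  refine hv _ fun z hz => ?_
  obtain ⟨i, rfl⟩ := List.mem_ofFn.1 hz
  exact ⟨h2 i, h1 i⟩

theorem DM_V (h : IsCI F d) {a : smA N} {b : TT N} (hv : a.1 ∈ VA (cone F) prP b) :
    DM a ∈ Vn (cone F) (fun y => ann (pl (fullL F) y)) b :=
  (VA_opn hv).mono fun b' hb y hy e hc => by
    rw [DM_apply a hy]
    exact Submodule.sum_mem _ fun k _ => Dm_ann h a.2 hc (e ▸ hb) k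

/-- The complex of smooth cochains along the cone. -/
noncomputable def smD (F : ι → MP N) : AD N where
  Y := E N
  C := cone F
  p := prP
  A := smA N
  dA _ := IsSm.delta
  cut _ hφ _ ha := IsSm.mf ha (sm_cut hφ) fun _ _ ht => by rw [prP_smul ht]
  conA _ hx _ ha := IsSm.con ha hx.1
  one := IsSm.one
  pK _ hy := prP_mem_KK hy.1

/-- The map from smooth cochains to forms. -/
noncomputable def homD (h : IsCI F d) : Sh.Hom (smD F).sh (dR h).sh where
  f := DM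
  fG _ _ hu := DM_Ak hu
  fV _ _ hu := DM_V h hu
  comm _ _ _ hu := Vn_of_zero fun _ hy => sub_eq_zero.2 (DM_δ rfl hu hy)

omit [Fintype ι] [DecidableEq ι] in
theorem smD_top {b : TT N} (hb : NearT b fun y => y ∉ cone F) : ((smD F).sh.st b).nul = ⊤ :=
  (smD F).V_top (Eventually.mono hb fun _ h y hy e => h y hy.1 e hy)

theorem DM_one {x : E N} (hx : x ≠ 0) : (DM ⟨1, IsSm.one⟩).1 x = 1 := by
  rw [DM_of_isDeg (k := 0) isDeg_one hx, Dm_zero]
  simp [Coch.one_val, unit]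

theorem homD_qiso (h : IsCI F d) (q : ℤ) : (homD h).gl.Inj q ∧ (homD h).gl.Surj q := by
  refine (homD h).qiso_of_stalk (smD F).fine (dR h).fine (fun b => ?_) q
  rcases X_cases h b with hb | ⟨x, hx, rfl⟩
  · exact Cx.Hom.qiso_of_top _ (smD_top hb) (dR_top h hb)
  · exact Cx.Hom.qiso_of_pt _ ((smD F).pt hx) (dR_pt h hx)
      (Vn_of_zero fun y hy => sub_eq_zero.2 (DM_one hy))

end Vale.Agent.P269.Hdg
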