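import Vale.Agent.P269.Hdg.NumDef

/-!
# The Hirzebruch `χ_y` numbers of complete intersections: identities
-/

namespace Vale.Agent.P269.Hdg

open PowerSeries LaurentPolynomial

theorem geo_mul {R : Type} [CommRing R] (u : R) :
    (1 + PowerSeries.C u * PowerSeries.X) * geo u = 1 := by
  ext n
  rw [add_mul, one_mul, mul_assoc, map_add, PowerSeries.coeff_C_mul]
  cases n with
  | zero => simp [geo]
  | succ n => simp [geo, PowerSeries.coeff_succ_X_mul, PowerSeries.coeff_one, pow_succ]; ring

theorem rSer_add (a b : ℕ) :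
    rSer (a + b) = rSer a + rSer b + (PowerSeries.X - 1) * rSer a * rSer b -
      PowerSeries.X * rSer a * rSer b * rSer (a + b) := by
  have hT : (T (-((a + b : ℕ) : ℤ)) : LaurentPolynomial ℤ) = T (-(a : ℤ)) * T (-(b : ℤ)) := by
    rw [← T_add]; congr 1; push_cast; ring
  unfold rSer
  rw [hT]
  generalize (T (-(a : ℤ)) : LaurentPolynomial ℤ) = u
  generalize (T (-(b : ℤ)) : LaurentPolynomial ℤ) = v
  have hA := geo_mul u
  have hB := geo_mul v
  have hC := geo_mul (u * v)
  simp only [map_sub, map_one, map_mul] at hC ⊢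
  generalize geo u = gA at *
  generalize geo v = gB at *
  generalize geo (u * v) = gC at *
  generalize PowerSeries.C u = U at *
  generalize PowerSeries.C v = V at *
  generalize (PowerSeries.X : PowerSeries (LaurentPolynomial ℤ)) = y at *
  calc (1 - U * V) * gC = (1 - U * V) * gC * ((1 + U * y) * gA) * ((1 + V * y) * gB) := by
        rw [hA, hB]; ring
    _ = (1 - U) * gA * ((1 + V * y) * gB) * ((1 + U * V * y) * gC) +
          (1 - V) * gB * ((1 + U * y) * gA) * ((1 + U * V * y) * gC) +
          (y - 1) * ((1 - U) * gA) * ((1 - V) * gB) * ((1 + U * V * y) * gC) -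
          y * ((1 - U) * gA) * ((1 - V) * gB) * ((1 - U * V) * gC) := by ring
    _ = _ := by rw [hA, hB, hC]; ring

theorem chiN_T (N : ℕ) (k : ℤ) : chiN N (T k) = Ring.choose (k + N) N := by
  simp [chiN, T, -single_eq_C_mul_T]

theorem chiN_succ (N : ℕ) (s : LaurentPolynomial ℤ) :
    chiN (N + 1) ((1 - T (-1)) * s) = chiN N s := by
  induction s using LaurentPolynomial.induction_on' with
  | add p q hp hq => rw [mul_add, map_add, map_add, hp, hq]
  | C_mul_T n a =>
    rw [← LaurentPolynomial.smul_eq_C_mul, mul_smul_comm, map_smul, map_smul, sub_mul, one_mul,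
      ← T_add, map_sub, chiN_T, chiN_T, chiN_T]
    congr 1
    have h := Ring.choose_succ_succ (n + (N : ℤ)) N
    have h1 : n + ((N + 1 : ℕ) : ℤ) = n + N + 1 := by push_cast; ring
    have h2 : -1 + n + ((N + 1 : ℕ) : ℤ) = n + N := by push_cast; ring
    rw [h1, h2, h]
    ring

theorem chiSer_add (N : ℕ) (d e : Multiset ℕ) :
    chiSer N (d + e) = chiSer N d * (e.map rSer).prod := by
  unfold chiSer
  rw [Multiset.map_add, Multiset.prod_add]
  ring

theorem chiSer_add_add (N : ℕ) (d : Multiset ℕ) (a b : ℕ) :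
    chiSer N (d + {a + b}) = chiSer N (d + {a}) + chiSer N (d + {b}) - chiSer N (d + {a, b}) +
      PowerSeries.X * chiSer N (d + {a, b}) - PowerSeries.X * chiSer N (d + {a, b, a + b}) := by
  simp only [chiSer_add, Multiset.insert_eq_cons, Multiset.map_cons, Multiset.prod_cons,
    Multiset.map_singleton, Multiset.prod_singleton]
  linear_combination chiSer N d * rSer_add a b

theorem chiP_add_zero (N : ℕ) (d : Multiset ℕ) (a b : ℕ) :
    chiP N (d + {a + b}) 0 = chiP N (d + {a}) 0 + chiP N (d + {b}) 0 - chiP N (d + {a, b}) 0 := by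
  unfold chiP
  rw [chiSer_add_add]
  simp only [map_add, map_sub, PowerSeries.coeff_zero_X_mul, add_zero, sub_zero]

theorem chiP_add_succ (N : ℕ) (d : Multiset ℕ) (a b r : ℕ) :
    chiP N (d + {a + b}) (r + 1) = chiP N (d + {a}) (r + 1) + chiP N (d + {b}) (r + 1) -
      chiP N (d + {a, b}) (r + 1) + chiP N (d + {a, b}) r - chiP N (d + {a, b, a + b}) r := by
  unfold chiP
  rw [chiSer_add_add]
  simp only [map_add, map_sub, PowerSeries.coeff_succ_X_mul]

theorem chiP_one (N : ℕ) (d : Multiset ℕ) (r : ℕ) : chiP (N + 1) (d + {1}) r = chiP N d r := by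
  have h : chiSer (N + 1) (d + {1}) = PowerSeries.C (1 - T (-1)) * chiSer N d := by
    rw [chiSer_add, Multiset.map_singleton, Multiset.prod_singleton]
    rw [rSer]
    unfold chiSer
    have hg := geo_mul (T (-1) : LaurentPolynomial ℤ)
    rw [Nat.cast_one, pow_succ _ (N + 1)]
    linear_combination (PowerSeries.C (1 - T (-1)) *
      ((1 + PowerSeries.C (T (-1)) * PowerSeries.X) ^ (N + 1) * geo 1 * (d.map rSer).prod)) * hg
  unfold chiP
  rw [h, PowerSeries.coeff_C_mul, chiN_succ]

theorem coeff_one_add_pow {R : Type} [CommRing R] (t : R) (n p : ℕ) :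
    PowerSeries.coeff p ((1 + PowerSeries.C t * PowerSeries.X) ^ n) = n.choose p • t ^ p := by
  induction n generalizing p with
  | zero => cases p <;> simp [PowerSeries.coeff_one]
  | succ n ih =>
    rw [pow_succ', add_mul, one_mul, mul_assoc, map_add, PowerSeries.coeff_C_mul, ih]
    cases p with
    | zero => simp
    | succ p =>
      rw [PowerSeries.coeff_succ_X_mul, ih, Nat.choose_succ_succ', add_smul, mul_smul_comm,
        pow_succ' t p, add_comm]

/-- The relation `(1 + y) * S = S'` determines the coefficients of `S`. -/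
theorem coeff_geo_one {R : Type} [CommRing R] (S : PowerSeries R) :
    PowerSeries.coeff 0 (S * geo 1) = PowerSeries.coeff 0 S ∧
      ∀ r, PowerSeries.coeff (r + 1) (S * geo 1) + PowerSeries.coeff r (S * geo 1) =
        PowerSeries.coeff (r + 1) S := by
  have h : S * geo 1 + PowerSeries.X * (S * geo 1) = S := by
    have hg := geo_mul (1 : R)
    rw [map_one, one_mul] at hg
    linear_combination S * hg
  refine ⟨?_, fun r => ?_⟩
  · have := congrArg (PowerSeries.coeff 0) h
    rwa [map_add, PowerSeries.coeff_zero_X_mul, add_zero] at this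
  · have := congrArg (PowerSeries.coeff (r + 1)) h
    rwa [map_add, PowerSeries.coeff_succ_X_mul] at this

theorem chiP_zero (N r : ℕ) : chiP N 0 r = if r ≤ N then (-1) ^ r else 0 := by
  have hc := coeff_geo_one
    ((1 + PowerSeries.C (T (-1) : LaurentPolynomial ℤ) * PowerSeries.X) ^ (N + 1))
  have hv : ∀ p, chiN N (PowerSeries.coeff p
      ((1 + PowerSeries.C (T (-1) : LaurentPolynomial ℤ) * PowerSeries.X) ^ (N + 1))) =
      ((N + 1).choose p : ℤ) * Ring.choose (-(p : ℤ) + N) N := fun p => by
    rw [coeff_one_add_pow, T_pow, map_nsmul, chiN_T, nsmul_eq_mul]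
    simp
  unfold chiP chiSer
  simp only [Multiset.map_zero, Multiset.prod_zero, mul_one]
  induction r with
  | zero => rw [hc.1, hv]; simp [Ring.choose_natCast]
  | succ r ih =>
    have h := congrArg (chiN N) (hc.2 r)
    rw [map_add, ih, hv] at h
    rcases lt_trichotomy r N with h1 | h1 | h1
    · have h2 : (-((r + 1 : ℕ) : ℤ) + N) = ((N - (r + 1) : ℕ) : ℤ) := by omega
      rw [h2, Ring.choose_natCast, Nat.choose_eq_zero_of_lt (show N - (r + 1) < N by omega),
        if_pos h1.le] at h
      rw [if_pos (show r + 1 ≤ N by omega), pow_succ (-1 : ℤ)]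
      simp only [Nat.cast_zero, mul_zero] at h
      linarith
    · subst h1
      have h2 : (-((r + 1 : ℕ) : ℤ) + r) = -(1 : ℤ) := by push_cast; ring
      rw [h2, Ring.choose_neg', Ring.multichoose_one, if_pos le_rfl, Nat.choose_self] at h
      rw [if_neg (by omega)]
      have h3 : (Int.negOnePow r • (1 : ℤ) : ℤ) = (-1) ^ r := by
        rw [Units.smul_def, smul_eq_mul, mul_one, Int.coe_negOnePow_natCast]
      rw [h3] at h
      simp only [Nat.cast_one, one_mul] at h
      linarith
    · rw [if_neg (by omega), Nat.choose_eq_zero_of_lt (show N + 1 < r + 1 by omega)] at h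
      rw [if_neg (by omega)]
      simpa using h

/-- The recursion produced by the geometry; the hypotheses are only needed for the final
segments of `L`. -/
theorem chiP_of_rec' (N : ℕ) (L : List ℕ) (o : List ℕ → ℤ → ℤ) (e : List ℕ → ℤ → ℤ → ℤ)
    (w : ℤ → ℤ) (o0 : ∀ k, o [] k = Ring.choose (k + N) N)
    (o1 : ∀ a M, a :: M <:+ L → ∀ k, o (a :: M) k = o M k - o M (k - a))
    (e0 : ∀ M, M <:+ L → ∀ k, e M (-1) k = 0)
    (e1 : ∀ p k, 0 ≤ p → e [] p k = ((N + 1).choose p.toNat : ℤ) * o L (k - p))
    (e2 : ∀ a M, a :: M <:+ L → ∀ p k, 0 ≤ p →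
      e M p k = e (a :: M) (p - 1) (k - a) + e (a :: M) p k)
    (w0 : w (-1) = 0) (w1 : ∀ p, 0 ≤ p → e L p 0 = w p + w (p - 1)) (r : ℕ) :
    w r = chiP N (L : Multiset ℕ) r := by
  have ho : ∀ M, M <:+ L → ∀ k, o M k =
      chiN N (T k * (M.map fun a : ℕ => (1 - T (-(a : ℤ)) : LaurentPolynomial ℤ)).prod) := by
    intro M
    induction M with
    | nil => intro _ k; simp [o0, chiN_T]
    | cons a M ih =>
      intro h k
      have h' : M <:+ L := (List.suffix_cons a M).trans h
      rw [o1 a M h, ih h', ih h', ← map_sub, List.map_cons, List.prod_cons, T_sub]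
      congr 1
      ring
  set S0 : PowerSeries (LaurentPolynomial ℤ) :=
    (1 + PowerSeries.C (T (-1)) * PowerSeries.X) ^ (N + 1) *
      PowerSeries.C (L.map fun a : ℕ => (1 - T (-(a : ℤ)) : LaurentPolynomial ℤ)).prod with hS0
  have he : ∀ M, M <:+ L → ∀ (p : ℕ) k, e M p k = chiN N (T k * PowerSeries.coeff p
      (S0 * (M.map fun a : ℕ => geo (T (-(a : ℤ)) : LaurentPolynomial ℤ)).prod)) := by
    intro M
    induction M with
    | nil =>
      intro _ p k
      rw [e1 p k (by positivity), ho L List.suffix_rfl, List.map_nil, List.prod_nil, mul_one, hS0,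
        PowerSeries.coeff_mul_C, coeff_one_add_pow, T_pow, smul_mul_assoc, mul_smul_comm,
        map_nsmul, nsmul_eq_mul, T_sub, mul_assoc]
      simp
    | cons a M ih =>
      intro h
      have h' : M <:+ L := (List.suffix_cons a M).trans h
      rw [List.map_cons, List.prod_cons]
      set Q := (M.map fun a : ℕ => geo (T (-(a : ℤ)) : LaurentPolynomial ℤ)).prod
      have hg := geo_mul (T (-(a : ℤ)) : LaurentPolynomial ℤ)
      have hq : S0 * Q = S0 * (geo (T (-(a : ℤ))) * Q) + PowerSeries.C (T (-(a : ℤ))) *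
          (PowerSeries.X * (S0 * (geo (T (-(a : ℤ))) * Q))) := by
        linear_combination (-(S0 * Q)) * hg
      intro p
      induction p with
      | zero =>
        intro k
        have h1 := e2 a M h 0 k le_rfl
        have h2 := ih h' 0 k
        rw [hq, map_add, PowerSeries.coeff_C_mul, PowerSeries.coeff_zero_X_mul, mul_zero,
          add_zero] at h2
        rw [zero_sub, e0 _ h, zero_add] at h1
        rw [← h2]
        exact h1.symm
      | succ p ihp =>
        intro k
        have h1 := e2 a M h ((p + 1 : ℕ) : ℤ) k (by positivity)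
        have h2 := ih h' (p + 1) k
        rw [hq, map_add, PowerSeries.coeff_C_mul, PowerSeries.coeff_succ_X_mul, mul_add, map_add,
          ← mul_assoc (T k), ← T_sub, ← ihp] at h2
        have h3 : ((p + 1 : ℕ) : ℤ) - 1 = p := by push_cast; ring
        rw [h3] at h1
        linarith
  have hL : chiSer N (L : Multiset ℕ) =
      S0 * (L.map fun a : ℕ => geo (T (-(a : ℤ)) : LaurentPolynomial ℤ)).prod * geo 1 := by
    have : ((L : Multiset ℕ).map rSer).prod =
        PowerSeries.C (L.map fun a : ℕ => (1 - T (-(a : ℤ)) : LaurentPolynomial ℤ)).prod *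
          (L.map fun a : ℕ => geo (T (-(a : ℤ)) : LaurentPolynomial ℤ)).prod := by
      rw [Multiset.map_coe, Multiset.prod_coe, map_list_prod, List.map_map, ← List.prod_map_mul]
      rfl
    unfold chiSer
    rw [this, hS0]
    ring
  have hc := coeff_geo_one
    (S0 * (L.map fun a : ℕ => geo (T (-(a : ℤ)) : LaurentPolynomial ℤ)).prod)
  have hv := fun p : ℕ => he L List.suffix_rfl p 0
  simp only [T_zero, one_mul] at hv
  unfold chiP
  rw [hL]
  induction r with
  | zero =>
    have h1 := w1 0 le_rfl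
    rw [zero_sub, w0, add_zero] at h1
    rw [hc.1, ← hv]
    exact h1.symm
  | succ r ih =>
    have h := congrArg (chiN N) (hc.2 r)
    have h1 := w1 ((r + 1 : ℕ) : ℤ) (by positivity)
    have h3 : ((r + 1 : ℕ) : ℤ) - 1 = r := by push_cast; ring
    rw [map_add, ← ih, ← hv] at h
    rw [h3] at h1
    linarith

theorem chiP_of_rec (N : ℕ) (L : List ℕ) (o : List ℕ → ℤ → ℤ) (e : List ℕ → ℤ → ℤ → ℤ)
    (w : ℤ → ℤ) (o0 : ∀ k, o [] k = Ring.choose (k + N) N)
    (o1 : ∀ a M k, o (a :: M) k = o M k - o M (k - a))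
    (e0 : ∀ M p k, p < 0 → e M p k = 0)
    (e1 : ∀ p k, 0 ≤ p → e [] p k = ((N + 1).choose p.toNat : ℤ) * o L (k - p))
    (e2 : ∀ a M, a :: M <:+ L → ∀ p k, e M p k = e (a :: M) (p - 1) (k - a) + e (a :: M) p k)
    (w0 : w (-1) = 0) (w1 : ∀ p, 0 ≤ p → e L p 0 = w p + w (p - 1)) (r : ℕ) :
    w r = chiP N (L : Multiset ℕ) r :=
  chiP_of_rec' N L o e w o0 (fun a M _ => o1 a M) (fun M _ k => e0 M _ k (by norm_num)) e1
    (fun a M h p k _ => e2 a M h p k) w0 w1 r

end Vale.Agent.P269.Hdg
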