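import Vale.Agent.P269.Hdg.Koszul
import Vale.Agent.P269.Hdg.Anchor
import Vale.Agent.P269.Hdg.Num

/-!
# Cohomology of `O(k)` on projective space and on complete intersections
-/

namespace Vale.Agent.P269.Hdg

open scoped ComplexConjugate ContDiff
open Complex (I)
open Topology Filter MvPolynomial

variable {N : ℕ}

/-- Three complexes forming a short exact sequence. -/
def Tri (A B C : Cx) : Prop := ∃ (f : Cx.Hom A B) (g : Cx.Hom B C), Cx.SES f g

namespace Tri

variable {A B C : Cx} (h : Tri A B C)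
include h

theorem good_mid (hA : A.Good) (hC : C.Good) : B.Good := by
  obtain ⟨_, _, h⟩ := h; exact h.good_mid hA hC

theorem good_left (hB : B.Good) (hC : C.Good) : A.Good := by
  obtain ⟨_, _, h⟩ := h; exact h.good_left hB hC

theorem good_right (hA : A.Good) (hB : B.Good) : C.Good := by
  obtain ⟨_, _, h⟩ := h; exact h.good_right hA hB

theorem chi (hA : A.Good) (hC : C.Good) : B.chi = A.chi + C.chi := by
  obtain ⟨_, _, h⟩ := h; exact h.chi_add hA hC

theorem mid (hA : A.Good) (hC : C.Good) (q : ℤ) : B.h q ≤ A.h q + C.h q := by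
  obtain ⟨_, _, h⟩ := h; exact (h.fin_mid (hA.1 q) (hC.1 q)).2

theorem left (hB : B.Good) (hC : C.Good) (q : ℤ) : A.h q ≤ C.h (q - 1) + B.h q := by
  obtain ⟨_, _, h⟩ := h; exact (h.fin_left (hC.1 _) (hB.1 q)).2

theorem right (hA : A.Good) (hB : B.Good) (q : ℤ) : C.h q ≤ B.h q + A.h (q + 1) := by
  obtain ⟨_, _, h⟩ := h; exact (h.fin_right (hB.1 q) (hA.1 _)).2

end Tri

theorem shift_chi_one (C : Cx) : (C.shift 1).chi = -C.chi := by
  rw [Cx.shift_chi]; simp

/-- The cohomology of the line bundles on `ℙ^n`. -/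
structure PN (n : ℕ) (C : ℤ → Cx) : Prop where
  good : ∀ k, (C k).Good
  chi : ∀ k, (C k).chi = Ring.choose (k + n) n
  van : ∀ k q : ℤ, ¬(q = 0 ∧ 0 ≤ k) → ¬(q = n ∧ k ≤ -(n : ℤ) - 1) → (C k).h q = 0
  lo : (C 0).h 0 ≤ 1
  hi : (C (-(n : ℤ) - 1)).h n ≤ 1

theorem PN.step {n : ℕ} {C D : ℤ → Cx} (hD : PN n D)
    (hs : ∀ k, Tri (C k) (D k) ((C (k - 1)).shift 1)) (h0 : ∀ q, (C (-1)).Exact q) :
    PN (n + 1) C := by
  have key : ∀ k : ℤ, (C k).Good ∧ (C k).chi = Ring.choose (k + (n + 1 : ℕ)) (n + 1) ∧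
      (∀ q : ℤ, ¬(q = 0 ∧ 0 ≤ k) → ¬(q = (n + 1 : ℕ) ∧ k ≤ -((n + 1 : ℕ) : ℤ) - 1) →
        (C k).h q = 0) ∧
      (k = 0 → (C k).h 0 ≤ 1) ∧ (k = -((n + 1 : ℕ) : ℤ) - 1 → (C k).h (n + 1 : ℕ) ≤ 1) := by
    intro k
    induction k using Int.inductionOn' (b := -1) with
    | zero =>
      refine ⟨(Cx.good_of_exact h0).1, ?_, fun q _ _ => (h0 q).h_eq, by omega, by omega⟩
      rw [(Cx.good_of_exact h0).2, show (-1 : ℤ) + (n + 1 : ℕ) = (n : ℕ) by omega,
        Ring.choose_natCast]
      simp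
    | succ k hk ih =>
      obtain ⟨g, c, v, -, -⟩ := ih
      have t := hs (k + 1)
      rw [add_sub_cancel_right] at t
      have g' := (Cx.shift_good 1).2 g
      have gA := t.good_left (hD.good _) g'
      have hl := t.left (hD.good _) g'
      simp only [Cx.shift_h, sub_add_cancel] at hl
      refine ⟨gA, ?_, fun q h1 _ => ?_, fun e => ?_, by omega⟩
      · have := t.chi gA g'
        rw [shift_chi_one, c, hD.chi] at this
        rw [show k + 1 + (n + 1 : ℕ) = k + (n + 1 : ℕ) + 1 by omega, Ring.choose_succ_succ]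
        rw [show k + 1 + (n : ℕ) = k + (n + 1 : ℕ) by omega] at this
        omega
      · have := hl q
        rw [v q (by omega) (by omega), hD.van _ q h1 (by omega)] at this
        omega
      · have := hl 0
        rw [v 0 (by omega) (by omega), e] at this
        rw [e]
        have := hD.lo
        omega
    | pred k hk ih =>
      obtain ⟨g, c, v, -, -⟩ := ih
      have t := hs k
      have g' := t.good_right g (hD.good _)
      have hr := t.right g (hD.good _)
      simp only [Cx.shift_h] at hr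
      refine ⟨(Cx.shift_good 1).1 g', ?_, fun q _ h2 => ?_, by omega, fun e => ?_⟩
      · have := t.chi g g'
        rw [shift_chi_one, c, hD.chi, show k + (n + 1 : ℕ) = k + n + 1 by omega,
          Ring.choose_succ_succ] at this
        rw [show k - 1 + (n + 1 : ℕ) = k + n by omega]
        omega
      · have := hr (q - 1)
        rw [sub_add_cancel, v q (by omega) (by omega), hD.van _ _ (by omega) (by omega)] at this
        omega
      · have := hr n
        rw [v _ (by omega) (by omega), show k = -n - 1 by omega] at this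
        have h3 := hD.hi
        rw [show k = -n - 1 by omega]
        push_cast
        omega
  exact ⟨fun k => (key k).1, fun k => (key k).2.1, fun k => (key k).2.2.1, (key 0).2.2.2.1 rfl,
    (key _).2.2.2.2 rfl⟩

variable {ι : Type} {F : ι → MP N} {d : ι → ℕ}

/-- The global Koszul complex. -/
noncomputable abbrev kc (hom : ∀ j, (F j).IsHomogeneous (d j)) (l : List ι) (k : ℤ) : Cx :=
  ((kos hom l).sh k).gl

theorem kos_tri (hom : ∀ j, (F j).IsHomogeneous (d j)) (j : ι) (l : List ι) (k : ℤ) :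
    Tri (kc hom l k) (kc hom (j :: l) k) ((kc hom l (k - d j)).shift 1) :=
  ((kos hom l).hom (hom j) k).cone_ses

theorem kc_nil_exact (hom : ∀ j, (F j).IsHomogeneous (d j)) {k : ℤ} (hk : -(N : ℤ) ≤ k)
    (hk' : k ≤ -1) (q : ℤ) : (kc hom [] k).Exact q := by
  intro u hu hd
  have h1 : ∀ x ≠ 0, (DB false u).1 x = 0 := fun x hx =>
    (mem_V0.1 ((Sh.mem_gl_nul _).1 hd (prP x))).self hx
  obtain ⟨v, hv, h2⟩ := anchor hk hk' hu h1
  exact ⟨v, hv, (Sh.mem_gl_nul _).2 fun b => Vn_of_zero fun y hy => sub_eq_zero.2 (h2 y hy)⟩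

theorem Eg_top {s : Bool} {r : ℤ} (hr : (N : ℤ) < r) {a : Λ N} (ha : a ∈ Eg s r) {y : E N}
    (hy : y ≠ 0) (h0 : ct (vec s y) a = 0) : a = 0 := by
  have h1 := ct_io_mul (vec s y) (cv s (lf y)) a
  rw [Eg_big (by simp; omega) (Eg_mul (io_cv_mem s s (lf y)) ha), h0, vec_cv, lf_self hy] at h1
  simpa using h1.symm

theorem ann_of_big (h : IsCI F d) {L : List (Bool × MP N)} (hF : ∀ a ∈ L, ∃ j, a.2 = F j) {y : E N}
    (hy : y ∈ cone F) {s : Bool} {r : ℤ} {a : Λ N} (ha : a ∈ Eg s r) (h0 : ct (vec s y) a = 0)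
    (hr : (N : ℤ) < (L.countP fun a => a.1 = s : ℕ) + r) : a ∈ ann (pl L y) := by
  have h1 : wl (pl L y) ∈ Eg s (L.countP fun a => a.1 = s : ℕ) := by
    cases s
    · simpa using (wl_pl_mem L y).2
    · simpa using (wl_pl_mem L y).1
  refine mem_ann.2 (Eg_top hr (Eg_mul h1 ha) hy.1 ?_)
  rw [ct_mul, h0, ct_wl (forall_pl.2 fun a ha => ?_)]
  · simp
  · obtain ⟨j, hj⟩ := hF a ha
    rw [hj]; exact vec_self_df h hy _ _ j

theorem countP_allL [Fintype ι] (s s' : Bool) :
    (allL s F).countP (fun a => a.1 = s') = if s = s' then Fintype.card ι else 0 := by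
  rw [allL, List.countP_map]
  split_ifs with h
  · subst h; simp [Function.comp_def]
  · simp [Function.comp_def, h]

/-! ## The point -/

/-- The equations of the point `[1 : 0 : ⋯ : 0]`. -/
noncomputable def ptF (N : ℕ) : Fin N → MP N := fun j => X j.succ

theorem mem_cone_ptF {y : E N} (hy : y ∈ cone (ptF N)) : y = y 0 • ee 0 := by
  funext i
  refine Fin.cases ?_ (fun j => ?_) i
  · simp [ee]
  · simpa [ee, ptF] using hy.2 j

theorem ee_ne (j : Fin (N + 1)) : (ee j : E N) ≠ 0 := fun h => by simpa [ee] using congrFun h j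

theorem ee_mem_cone : (ee 0 : E N) ∈ cone (ptF N) := ⟨ee_ne 0, fun j => by simp [ptF, ee]⟩

theorem isCI_ptF (N : ℕ) : IsCI (ptF N) fun _ => 1 where
  hom j := isHomogeneous_X ℂ _
  pos _ := le_rfl
  jac x _ := by
    have := (Pi.basisFun ℂ (Fin (N + 1))).linearIndependent.comp Fin.succ (Fin.succ_injective N)
    convert this using 1
    funext j i
    simp [ptF, pderiv_X, Pi.single_apply, eq_comm]

theorem PN_pt (N : ℕ) : PN 0 fun k => (Ofd (isCI_ptF N) k).sh.gl := by
  have hF : ∀ a ∈ allL false (ptF N), ∃ j, a.2 = ptF N j := fun a ha => by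
    obtain ⟨j, rfl⟩ := of_mem_allL ha; exact ⟨j, rfl⟩
  have ex : ∀ k q, q ≠ 0 → (Ofd (isCI_ptF N) k).sh.gl.Exact q := fun k q hq =>
    Cx.exact_of_le fun u hu => (FD.mem_nul _).2 fun y hy hc => by
      by_cases h : q < 0
      · rw [Fm_neg (Or.inr h) hu hy]; exact zero_mem _
      · exact ann_of_big (isCI_ptF N) hF hc (hu.1 y hy).1.2 (hu.1 y hy).2 (by
          rw [countP_allL]; simp; omega)
  have h0 : ∀ k, (Ofd (isCI_ptF N) k).sh.gl.Fin 0 ∧ (Ofd (isCI_ptF N) k).sh.gl.h 0 = 1 := by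
    intro k
    obtain ⟨g, hg, -, e⟩ := Fm_of_an (ee_ne (N := N) 0) k (γ := fun _ => 1) analyticAt_const
    have e0 : g.1 (ee 0) = 1 := by simpa [lf_self (ee_ne 0)] using e.self_of_nhds
    have h1 := Cx.fin_le_one (C := (Ofd (isCI_ptF N) k).sh.gl) (q := 0) g fun u hu =>
      ⟨sca (u.1 (ee 0)), Cx.nul_le_B ((FD.mem_nul _).2 fun y hy hc => by
        have hm := (sub_mem hu.1 (Submodule.smul_mem _ (sca (u.1 (ee 0))) hg)).2
        have hy0 : y 0 ≠ 0 := fun h => hy (by rw [mem_cone_ptF hc, h, zero_smul])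
        rw [mem_cone_ptF hc, hm _ _ hy0 (ee_ne 0)]
        change _ • (u.1 (ee 0) - sca (u.1 (ee 0)) • g.1 (ee 0)) ∈ _
        rw [e0, ← eq_sca (hu.1.1 _ (ee_ne 0)).1, sub_self, smul_zero]
        exact zero_mem _)⟩
    refine ⟨h1.1, le_antisymm h1.2 (Cx.h_pos h1.1 g ⟨hg, (FD.mem_nul _).2 fun y hy hc =>
      ann_of_big (isCI_ptF N) hF hc ((DB_Fm hg).1 y hy).1.2 ((DB_Fm hg).1 y hy).2 (by
        rw [countP_allL]; simp)⟩ fun h => ?_)⟩
    obtain ⟨v, hv, h2⟩ := Cx.mem_B.1 h
    have h3 : g.1 (ee 0) - (DB false v).1 (ee 0) ∈ ann _ :=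
      (FD.mem_nul _).1 h2 _ (ee_ne 0) ee_mem_cone
    rw [DB_of_zero _ (fun z hz => Fm_neg (Or.inr (by norm_num)) hv hz) (ee_ne 0), e0, sub_zero,
      mem_ann, mul_one] at h3
    exact wl_ne_zero ((isCI_ptF N).dualL_bar.hasDual ee_mem_cone) h3
  refine ⟨fun k => Cx.good_of_bdd 0 0 (fun q => ?_) fun q hq => (ex k q (by omega)).h_eq,
    fun k => ?_, fun k q h1 h2 => (ex k q (by omega)).h_eq, (h0 0).2.le, (h0 _).2.le⟩
  · by_cases hq : q = 0
    · subst hq; exact (h0 k).1
    · exact (ex k q hq).fin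
  · rw [Cx.chi_eq_sum {0} fun q hq => (ex k q (by simpa using hq)).h_eq]
    simp [(h0 k).2]

theorem PN.congr {n : ℕ} {C D : ℤ → Cx} (f : ∀ k, Cx.Hom (C k) (D k))
    (hf : ∀ k q, (f k).Inj q ∧ (f k).Surj q) (h : PN n D) : PN n C := by
  have e : ∀ k q, (C k).h q = (D k).h q := fun k q => (f k).h_eq (hf k q).1 (hf k q).2
  exact ⟨fun k => ((f k).good_iff (hf k)).2 (h.good k), fun k => ((f k).chi_eq (hf k)).trans (h.chi k),
    fun k q h1 h2 => (e k q).trans (h.van k q h1 h2), (e _ _).trans_le h.lo, (e _ _).trans_le h.hi⟩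

theorem kc_pt_exact (l : List (Fin N)) {k : ℤ} (hk : -(N : ℤ) + l.length ≤ k) (hk' : k ≤ -1)
    (q : ℤ) : (kc (isCI_ptF N).hom l k).Exact q := by
  induction l generalizing k q with
  | nil => exact kc_nil_exact _ (by simpa using hk) hk' q
  | cons j l ih =>
    simp only [List.length_cons] at hk
    have g1 := Cx.good_of_exact (ih (k := k) (by omega) hk')
    have h2 := ih (k := k - (1 : ℕ)) (by omega) (by omega)
    have g2 := (Cx.shift_good 1).2 (Cx.good_of_exact h2).1
    have t := kos_tri (isCI_ptF N).hom j l k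
    have := t.mid g1.1 g2 q
    rw [Cx.shift_h, (h2 _).h_eq, (ih (k := k) (by omega) hk' q).h_eq] at this
    exact Cx.exact_of_h ((t.good_mid g1.1 g2).1 q) (by omega)

theorem PN_proj (N : ℕ) : PN N fun k => ((tw0 N).sh k).gl := by
  have key : ∀ (l : List (Fin N)) (n : ℕ), n + l.length = N → PN n (kc (isCI_ptF N).hom l) →
      PN N (kc (isCI_ptF N).hom []) := by
    intro l
    induction l with
    | nil => intro n hn h; obtain rfl : n = N := by simpa using hn
             exact h
    | cons j l ih =>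
      intro n hn h
      simp only [List.length_cons] at hn
      exact ih (n + 1) (by omega) (h.step (kos_tri (isCI_ptF N).hom j l)
        (kc_pt_exact l (by omega) le_rfl))
  exact key (List.finRange N) 0 (by simp) (PN.congr (fun k => (aug (isCI_ptF N) _ k).gl)
    (aug_qiso _ (List.nodup_finRange N) List.mem_finRange) (PN_pt N))

/-- The Euler characteristic of `O_X(k)`. -/
noncomputable def oN (N : ℕ) : List ℕ → ℤ → ℤ
  | [], k => Ring.choose (k + N) N
  | e :: M, k => oN N M k - oN N M (k - e)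

/-- The cohomology of the line bundles on a complete intersection of dimension `n` with canonical
degree `κ`. -/
structure OX (n κ : ℤ) (o : ℤ → ℤ) (C : ℤ → Cx) : Prop where
  good : ∀ k, (C k).Good
  chi : ∀ k, (C k).chi = o k
  lo : ∀ k ≤ 0, ∀ q < n, (C k).h q ≤ if k = 0 ∧ q = 0 then 1 else 0
  hi : ∀ k, κ ≤ k → ∀ q, 0 < q → (C k).h q ≤ if k = κ ∧ q = n then 1 else 0

theorem OX_kc (hom : ∀ j, (F j).IsHomogeneous (d j)) (pos : ∀ j, 1 ≤ d j) (l : List ι) :
    OX (N - l.length) (((l.map d).sum : ℕ) - N - 1) (oN N (l.map d)) (kc hom l) := by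
  induction l with
  | nil =>
    have h := PN_proj N
    refine ⟨h.good, h.chi, fun k hk q hq => ?_, fun k hk q hq => ?_⟩
    · split_ifs with e
      · rw [e.1, e.2]; exact h.lo
      · exact (h.van k q (by omega) (by simp at hq; omega)).le
    · simp only [List.map_nil, List.sum_nil, List.length_nil] at hk ⊢
      split_ifs with e
      · rw [e.1, e.2]
        have := h.hi
        rwa [show -(N : ℤ) - 1 = ((0 : ℕ) : ℤ) - N - 1 by simp, show (N : ℤ) = N - (0 : ℕ) by simp] at this
      · exact (h.van k q (by omega) (by omega)).le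
  | cons j l ih =>
    have t := kos_tri hom j l
    have g2 := fun k => (Cx.shift_good 1).2 (ih.good k)
    have hm := fun k => (t k).mid (ih.good _) (g2 _)
    have hp := pos j
    simp only [Cx.shift_h] at hm
    simp only [List.length_cons, List.map_cons, List.sum_cons]
    refine ⟨fun k => (t k).good_mid (ih.good _) (g2 _), fun k => ?_, fun k hk q hq => ?_,
      fun k hk q hq => ?_⟩
    · rw [(t k).chi (ih.good _) (g2 _), shift_chi_one, ih.chi, ih.chi]; rfl
    · have h1 := ih.lo k hk q (by omega)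
      have h2 := ih.lo (k - d j) (by omega) (q + 1) (by omega)
      rw [if_neg (by omega)] at h2
      have := hm k q
      omega
    · have h1 := ih.hi k (by omega) q hq
      have h2 := ih.hi (k - d j) (by omega) (q + 1) (by omega)
      rw [if_neg (by omega)] at h1
      have := hm k q
      split_ifs at h2 ⊢ <;> omega

variable [Fintype ι] [DecidableEq ι]

/-- The list of degrees. -/
noncomputable def degL (d : ι → ℕ) : List ℕ := (Finset.univ : Finset ι).toList.map d

theorem OX_Ofd (h : IsCI F d) : OX (N - Fintype.card ι) (((degL d).sum : ℕ) - N - 1)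
    (oN N (degL d)) fun k => (Ofd h k).sh.gl := by
  have h1 := OX_kc h.hom h.pos (Finset.univ : Finset ι).toList
  have hf := aug_qiso h (Finset.nodup_toList (Finset.univ : Finset ι)) (by simp)
  have e : ∀ k q, (kc h.hom (Finset.univ : Finset ι).toList k).h q = (Ofd h k).sh.gl.h q :=
    fun k q => (aug h _ k).gl.h_eq (hf k q).1 (hf k q).2
  rw [Finset.length_toList, Finset.card_univ] at h1
  exact ⟨fun k => ((aug h _ k).gl.good_iff (hf k)).1 (h1.good k),
    fun k => ((aug h _ k).gl.chi_eq (hf k)).symm.trans (h1.chi k),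
    fun k hk q hq => (e k q).symm.trans_le (h1.lo k hk q hq),
    fun k hk q hq => (e k q).symm.trans_le (h1.hi k hk q hq)⟩

end Vale.Agent.P269.Hdg
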