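import Vale.Agent.P269.Hdg.Coh

/-!
# The Hodge numbers of a complete intersection
-/

namespace Vale.Agent.P269.Hdg

open scoped ComplexConjugate ContDiff
open Complex (I)
open Topology Filter MvPolynomial

variable {N : ℕ} {ι : Type} [Fintype ι] [DecidableEq ι] {F : ι → MP N} {d : ι → ℕ}

/-- Binomial coefficients with an integer lower index. -/
def bz (c : ℕ) (p : ℤ) : ℕ := if p < 0 then 0 else c.choose p.toNat

theorem bz_succ (c : ℕ) (p : ℤ) : bz (c + 1) p = bz c (p - 1) + bz c p := by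
  unfold bz
  rcases lt_trichotomy p 0 with h | rfl | h
  · rw [if_pos h, if_pos h, if_pos (by omega)]
  · simp
  · obtain ⟨r, rfl⟩ : ∃ r : ℕ, p = r + 1 := ⟨(p - 1).toNat, by omega⟩
    rw [if_neg (by omega), if_neg (by omega), if_neg (by omega), add_sub_cancel_right,
      show ((r : ℤ) + 1).toNat = r + 1 by omega, Int.toNat_natCast, Nat.choose_succ_succ]

theorem bz_zero {p : ℤ} (hp : p ≠ 0) : bz 0 p = 0 := by
  unfold bz
  split_ifs with h
  · rfl
  · exact Nat.choose_eq_zero_of_lt (by omega)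

theorem bz_big {c : ℕ} {p : ℤ} (hp : (c : ℤ) < p) : bz c p = 0 := by
  rw [bz, if_neg (by omega)]; exact Nat.choose_eq_zero_of_lt (by omega)

section
variable (h : IsCI F d) {κ : Type} [DecidableEq κ] {Q : κ → MP N} {e : κ → ℕ}
  {ξ : κ → E N → E N} (hQ : DualFam (cone F) Q e ξ)

/-- The Dolbeault complex of `Λ^p (T^* / ⟨dQ_i : i ∈ l⟩) ⊗ O(k)`. -/
noncomputable abbrev Ec {l : List κ} (hl : l.Nodup) (p k : ℤ) : Cx :=
  (Efd h (h.dualL_app hQ hl) (fun j => List.mem_append_right _ (mem_allL false j)) p k).sh.gl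

theorem Ec_nul {l : List κ} (hl : l.Nodup) {p k : ℤ} {u : SM N} : u ∈ (Ec h hQ hl p k).nul ↔
    ∀ y ≠ 0, y ∈ cone F → u.1 y ∈ ann (pl (l.map (fun i => (true, Q i)) ++ allL false F) y) :=
  FD.mem_nul _

theorem Ec_neg {l : List κ} (hl : l.Nodup) {p : ℤ} (hp : p < 0) (k q : ℤ) :
    (Ec h hQ hl p k).Exact q :=
  Cx.exact_of_le fun u hu => (Ec_nul h hQ hl).2 fun y hy _ => by
    rw [Fm_neg (Or.inl hp) hu hy]; exact zero_mem _

theorem Ec_big {l : List κ} (hl : l.Nodup) {p : ℤ} (hp : (N : ℤ) + 1 < l.length + p) (k q : ℤ) :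
    (Ec h hQ hl p k).Exact q :=
  Cx.exact_of_le fun u hu => (Ec_nul h hQ hl).2 fun y hy _ => by
    refine mem_ann.2 (Eg_big ?_ (Eg_mul (wl_pl_mem _ y).1 (hu.1 y hy).1.1))
    have := countP_allL (F := F) false true
    simp only [List.countP_append, List.countP_map, Function.comp_def, List.countP_true]
    simp only [Bool.false_eq_true, if_false, Bool.decide_eq_true] at this
    rw [this]; omega

theorem Ec_tri {j : κ} {l : List κ} (hl : (j :: l).Nodup) (p k : ℤ) :
    Tri (Ec h hQ hl (p - 1) (k - e j)) (Ec h hQ hl.of_cons p k) (Ec h hQ hl p k) := by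
  have hd : ∀ y ∈ cone F, vec true (ξ j y) (df true (Q j) y) = 1 ∧
      ∀ w ∈ pl (l.map (fun i => (true, Q i)) ++ allL false F) y, vec true (ξ j y) w = 0 := by
    intro y hy
    refine ⟨by simp [vec_df, hQ.dual y hy], forall_pl.2 fun a ha => ?_⟩
    rcases List.mem_append.1 ha with ha | ha
    · obtain ⟨i, hi, rfl⟩ := List.mem_map.1 ha
      have : i ≠ j := by rintro rfl; exact (List.nodup_cons.1 hl).1 hi
      simp [vec_df, hQ.dual y hy, this]
    · obtain ⟨i, rfl⟩ := of_mem_allL ha; simp [vec_df]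
  refine ⟨⟨ML (dfS true (Q j)), -1, by simp, fun q u hu => ?_, fun u hu => ?_, fun q u _ => ?_⟩,
    ⟨LinearMap.id, 1, one_ne_zero, fun _ _ hu => hu, fun u hu => ?_, fun q u _ => ?_⟩,
    fun q u _ hu => ?_, fun q u _ => ?_, fun q v hv h0 => ?_, fun q w hw => ⟨w, hw, ?_⟩⟩
  · have := ML_Fm (dfS_Fm (hQ.hom j)) hu
    rwa [add_sub_cancel, zero_add, add_sub_cancel] at this
  · exact (Ec_nul h hQ _).2 fun y hy hc => ann_cons.1 ((Ec_nul h hQ hl).1 hu y hy hc)
  · refine (Ec_nul h hQ _).2 fun y hy _ => mem_of_eq (zero_mem _) ?_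
    change io (df true (Q j) y) * (DB false u).1 y -
      (-1 : ℂ) • (DB false (ML (dfS true (Q j)) u)).1 y = 0
    rw [DB_apply _ _ hy, DB_apply _ _ hy]
    erw [db_df_mul true false (Q j) (SM.df u hy)]
    simp
  · exact (Ec_nul h hQ _).2 fun y hy hc => ann_le_cons _ _ ((Ec_nul h hQ _).1 hu y hy hc)
  · rw [one_smul]; exact mem_of_eq (zero_mem _) (sub_self _)
  · exact (Ec_nul h hQ _).2 fun y hy hc => ann_cons.2 ((Ec_nul h hQ _).1 hu y hy hc)
  · exact (Ec_nul h hQ _).2 fun y _ _ => ann_mul_right (io_mem_ann (by simp [pl])) _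
  · exact ⟨CT true (ξ j) (hQ.sm j) v, CT_Fm _ (hQ.hm j) hv, (Ec_nul h hQ _).2 fun y hy hc =>
      ann_sub (hd y hc).1 (hd y hc).2 ((Ec_nul h hQ hl).1 h0 y hy hc)⟩
  · exact mem_of_eq (zero_mem _) (sub_self _)

theorem Ec_zero {l : List κ} (hl : l.Nodup) (k : ℤ) : (Ec h hQ hl 0 k).Good ∧
    (Ec h hQ hl 0 k).chi = (Ofd h k).sh.gl.chi ∧
      ∀ q, (Ec h hQ hl 0 k).h q ≤ (Ofd h k).sh.gl.h q := by
  induction l with
  | nil => exact ⟨(OX_Ofd h).good k, rfl, fun _ => le_rfl⟩
  | cons j l ih =>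
    obtain ⟨g, c, v⟩ := ih hl.of_cons
    have t := Ec_tri h hQ hl 0 k
    have e := Ec_neg h hQ hl (p := 0 - 1) (by norm_num) (k - e j)
    have g0 := Cx.good_of_exact e
    have g1 := t.good_right g0.1 g
    refine ⟨g1, ?_, fun q => ?_⟩
    · rw [← c, t.chi g0.1 g1, g0.2, zero_add]
    · have := t.right g0.1 g q
      rw [(e _).h_eq] at this
      exact this.trans (v q)

end

theorem Ec_coord (h : IsCI F d) (c : ℕ) {l : List (Fin (N + 1))} (hl : l.Nodup)
    (hc : l.length + c = N + 1) (p k : ℤ) : (Ec h (dualFam_X _) hl p k).Good ∧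
      (Ec h (dualFam_X _) hl p k).chi = bz c p * (Ofd h (k - p)).sh.gl.chi ∧
      ∀ q, (Ec h (dualFam_X _) hl p k).h q ≤ bz c p * (Ofd h (k - p)).sh.gl.h q := by
  induction c generalizing l p k with
  | zero =>
    by_cases hp : p = 0
    · subst hp; simpa [bz] using Ec_zero h (dualFam_X _) hl k
    · have e : ∀ q, (Ec h (dualFam_X _) hl p k).Exact q := by
        by_cases h' : p < 0
        · exact Ec_neg h _ hl h' k
        · exact Ec_big h _ hl (by omega) k
      exact ⟨(Cx.good_of_exact e).1, by simp [(Cx.good_of_exact e).2, bz_zero hp],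
        fun q => by simp [(e q).h_eq]⟩
  | succ c ih =>
    obtain ⟨j, hj⟩ : ∃ j, j ∉ l := by
      by_contra hn
      have := List.Nodup.length_le_of_subset (List.nodup_finRange (N + 1))
        (l₂ := l) fun j _ => by simpa using not_exists.1 hn j
      simp at this; omega
    have hl' : (j :: l).Nodup := List.nodup_cons.2 ⟨hj, hl⟩
    have t := Ec_tri h (dualFam_X _) hl' p k
    obtain ⟨g1, c1, v1⟩ := ih hl' (by simp; omega) (p - 1) (k - (1 : ℕ))
    obtain ⟨g2, c2, v2⟩ := ih hl' (by simp; omega) p k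
    rw [show k - (1 : ℕ) - (p - 1) = k - p by omega] at c1 v1
    refine ⟨t.good_mid g1 g2, ?_, fun q => ?_⟩
    · rw [t.chi g1 g2, c1, c2, bz_succ]; push_cast; ring
    · rw [bz_succ, add_mul]
      exact (t.mid g1 g2 q).trans (add_le_add (v1 q) (v2 q))

section
variable (h : IsCI F d) {ξ : ι → E N → E N} (hQ : DualFam (cone F) F d ξ)

theorem Ec_good {l : List ι} (hl : l.Nodup) (p k : ℤ) : (Ec h hQ hl p k).Good := by
  induction l generalizing p k with
  | nil => exact (Ec_coord h (N + 1) List.nodup_nil (by simp) p k).1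
  | cons j l ih =>
    induction p using Int.inductionOn' (b := -1) generalizing k with
    | zero => exact (Cx.good_of_exact (Ec_neg h hQ hl (by norm_num) k)).1
    | succ p _ ih' =>
      refine (Ec_tri h hQ hl (p + 1) k).good_right ?_ (ih _ _ _)
      rw [add_sub_cancel_right]; exact ih' _
    | pred p hp _ => exact (Cx.good_of_exact (Ec_neg h hQ hl (by omega) k)).1

theorem Ec_lo {l : List ι} (hl : l.Nodup) (p k q : ℤ) (hk : k ≤ 0)
    (hq : p + q < N - Fintype.card ι) :
    (Ec h hQ hl p k).h q ≤ if p = 0 ∧ k = 0 ∧ q = 0 then 1 else 0 := by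
  induction l generalizing p k q with
  | nil =>
    by_cases hp : p < 0
    · simp [(Ec_neg h hQ _ hp k q).h_eq]
    have h1 := (Ec_coord h (N + 1) List.nodup_nil (by simp) p k).2.2 q
    have h2 := (OX_Ofd h).lo (k - p) (by omega) q (by omega)
    refine h1.trans ?_
    by_cases e : p = 0 ∧ k = 0 ∧ q = 0
    · obtain ⟨rfl, rfl, rfl⟩ := e
      simpa [bz] using h2
    · rw [if_neg (by omega), Nat.le_zero] at h2
      simp [h2]
  | cons j l ih =>
    induction p using Int.inductionOn' (b := -1) generalizing k q with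
    | zero => simp [(Ec_neg h hQ hl (p := -1) (by norm_num) k q).h_eq]
    | succ p _ ih' =>
      have h1 := (Ec_tri h hQ hl (p + 1) k).right (Ec_good h hQ _ _ _) (Ec_good h hQ _ _ _) q
      have hp := h.pos j
      have h2 := ih' (k - d j) (q + 1) (by omega) (by omega)
      rw [if_neg (by omega)] at h2
      have h3 := ih hl.of_cons (p + 1) k q hk hq
      rw [add_sub_cancel_right] at h1
      omega
    | pred p hp _ => simp [(Ec_neg h hQ hl (show p - 1 < 0 by omega) k q).h_eq]

theorem Ec_hi {l : List ι} (hl : l.Nodup) (p k q : ℤ)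
    (hk : ((degL d).sum : ℤ) ≤ k + ((l.map d).sum : ℕ)) (hq : (N : ℤ) + 1 < l.length + p + q) :
    (Ec h hQ hl p k).h q ≤ if l.length + p = N + 1 ∧ ((degL d).sum : ℤ) = k + ((l.map d).sum : ℕ) ∧
      q = N - Fintype.card ι then 1 else 0 := by
  induction l generalizing p k q with
  | nil =>
    simp only [List.length_nil, List.map_nil, List.sum_nil, Nat.cast_zero, zero_add,
      add_zero] at hk hq ⊢
    by_cases hp : (N : ℤ) + 1 < p
    · simp [(Ec_big h hQ List.nodup_nil (by simpa using hp) k q).h_eq]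
    have h1 := (Ec_coord h (N + 1) List.nodup_nil (by simp) p k).2.2 q
    have h2 := (OX_Ofd h).hi (k - p) (by omega) q (by omega)
    refine h1.trans ?_
    split_ifs with e
    · rw [if_pos (by omega)] at h2
      rw [e.1, bz, if_neg (by omega), show ((N : ℤ) + 1).toNat = N + 1 by omega, Nat.choose_self,
        one_mul, ← e.1]
      exact h2
    · rw [if_neg (by omega), Nat.le_zero] at h2
      simp [h2]
  | cons j l ih =>
    simp only [List.length_cons, List.map_cons, List.sum_cons] at hk hq ⊢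
    induction p using Int.inductionOn' (b := N + 1 - l.length) generalizing k q with
    | zero => simp [(Ec_big h hQ hl (p := N + 1 - l.length) (by simp; omega) k q).h_eq]
    | succ p hp _ => simp [(Ec_big h hQ hl (p := p + 1) (by simp; omega) k q).h_eq]
    | pred p hp ih' =>
      have h1 := (Ec_tri h hQ hl p (k + d j)).left (Ec_good h hQ _ _ _) (Ec_good h hQ _ _ _) q
      have hp := h.pos j
      have h2 := ih' (k + d j) (q - 1) (by omega) (by omega)
      rw [if_neg (by omega)] at h2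
      have h3 := ih hl.of_cons p (k + d j) q (by omega) (by omega)
      rw [add_sub_cancel_right] at h1
      split_ifs at h3 ⊢ <;> omega

end

/-- The Dolbeault complex of `Ω^p`. -/
noncomputable def Wfd (h : IsCI F d) (p : ℤ) : FD N where
  d := DB false
  G q := Om p q
  C := cone F
  P y := ann (pl (fullL F) y)
  dG _ _ hu := DB_Om hu
  stab u _ _ hx hn := stab_DB h false h.dualL_full (mem_fullL _) u hx hn
  dd _ u _ x hx _ := by rw [DB_DB_self false u hx]; exact zero_mem _
  cut _ _ hu _ hg hm := MF_Om hg hm hu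
  bdd := ⟨0, fun _ hq _ hu _ hx => Fm_neg (Or.inr hq) hu.1 hx⟩

/-- The global Dolbeault complex of `Ω^p`. -/
noncomputable abbrev Wc (h : IsCI F d) (p : ℤ) : Cx := (Wfd h p).sh.gl

theorem sm_lf {x : E N} (hx : x ≠ 0) (s : Bool) :
    ContDiffAt ℝ ∞ (fun y : E N => io (cv s (lf y))) x := by
  have : (fun y : E N => io (cv s (lf y))) =
      fun y => ∑ j, sg s (conj (y j) * (nu y)⁻¹) • io (dz s j) := by
    funext y
    rw [cv_eq_sum, map_sum]
    refine Finset.sum_congr rfl fun j _ => ?_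
    rw [map_smul]; simp [lf, ee, Pi.single_apply]
  rw [this]
  refine ContDiffAt.sum fun j _ => sm_smul ?_ contDiffAt_const
  have h1 := (contDiffAt_conj (contDiffAt_apply ℝ ℂ j x)).mul ((contDiffAt_nu x).inv (nu_ne hx))
  simpa [Function.comp_def] using (sgL s).contDiff.contDiffAt.comp x h1

theorem lf_smul {t : ℂ} (ht : t ≠ 0) (y : E N) : lf (t • y) = t⁻¹ • lf y := by
  have hc : conj t ≠ 0 := by simpa
  simp only [lf, Finset.smul_sum, smul_smul, nu_smul, Pi.smul_apply, smul_eq_mul, map_mul, mul_inv]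
  refine Finset.sum_congr rfl fun j _ => ?_
  congr 1; field_simp

/-- The connection form `∂ log |x|^2` or its conjugate. -/
noncomputable def eps (s : Bool) : SM N := ⟨fun y => io (cv s (lf y)), fun _ hx => sm_lf hx s⟩

theorem eps_Fm : (eps true : SM N) ∈ Fm 1 0 0 :=
  ⟨fun x _ => ⟨io_cv_mem_Ty true _, by simp [eps, ct_io, vec_cv]⟩, fun t x ht _ => by
    have : cv true (t⁻¹ • lf x) = t⁻¹ • cv true (lf x) := by ext; simp
    simp [eps, lf_smul ht, this]⟩

theorem ct_eps {y : E N} (hy : y ≠ 0) (s : Bool) (a : Λ N) :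
    ct (vec s y) ((eps s).1 y * a) = a - (eps s).1 y * ct (vec s y) a := by
  have := ct_io_mul (vec s y) (cv s (lf y)) a
  rwa [vec_cv, if_pos rfl, lf_self hy, map_one, one_smul] at this

/-- Contraction with the Euler vector field. -/
noncomputable def CE (s : Bool) : SM N →ₗ[ℂ] SM N := CT s id fun _ _ => contDiffAt_id

@[simp] theorem CE_apply (s : Bool) (u : SM N) (y : E N) : (CE s u).1 y = ct (vec s y) (u.1 y) := rfl

theorem CE_Om {p q : ℤ} {u : SM N} (hu : u ∈ Fm p q 0) : CE true u ∈ Om (p - 1) q :=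
  ⟨by simpa [CE] using CT_Fm (e := 0) (fun _ _ => contDiffAt_id) (fun t x _ _ => by simp) hu,
    fun x _ => ct_ct _ _⟩

theorem W_tri (h : IsCI F d) {ξ : ι → E N → E N} (hQ : DualFam (cone F) F d ξ) (p : ℤ) :
    Tri (Wc h p) (Ec h hQ (Finset.nodup_toList Finset.univ) p 0) (Wc h (p - 1)) := by
  refine ⟨⟨LinearMap.id, 1, one_ne_zero, fun _ _ hu => hu.1, fun u hu => hu, fun q u _ => ?_⟩,
    ⟨CE true, -1, by simp, fun _ _ hu => CE_Om hu, fun u hu => ?_, fun q u _ => ?_⟩,
    fun q u _ hu => hu, fun q u hu => ?_, fun q v hv h0 => ?_, fun q w hw => ?_⟩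
  · rw [one_smul]; exact mem_of_eq (zero_mem _) (sub_self _)
  · refine (FD.mem_nul _).2 fun y hy hc => ann_ct (forall_pl.2 fun a ha => ?_)
      ((FD.mem_nul _).1 hu y hy hc)
    obtain ⟨j, hj⟩ := of_mem_fullL ha
    rw [hj]; exact vec_self_df h hc _ _ j
  · refine (FD.mem_nul _).2 fun y hy _ => mem_of_eq (zero_mem _) ?_
    change ct (vec true y) ((DB false u).1 y) - (-1 : ℂ) • (DB false (CE true u)).1 y = 0
    have := db_ct_euler false true (SM.df u hy)
    rw [dl_ft, Int.cast_zero, zero_smul, zero_sub] at this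
    rw [DB_apply _ _ hy, DB_apply _ _ hy, neg_smul, one_smul, sub_neg_eq_add, add_comm,
      add_eq_zero_iff_eq_neg]
    exact this
  · exact (FD.mem_nul _).2 fun y hy _ => mem_of_eq (zero_mem _) (hu.2 y hy)
  · have h1 := ML_Fm eps_Fm hv
    rw [zero_add, zero_add] at h1
    replace h1 := CE_Om h1
    rw [add_sub_cancel_left] at h1
    refine ⟨_, h1, (FD.mem_nul _).2 fun y hy hc => ?_⟩
    change (v : SM N).1 y - ct (vec true y) ((eps true).1 y * (v : SM N).1 y) ∈ _
    rw [ct_eps hy, sub_sub_cancel]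
    exact ann_mul_left ((FD.mem_nul _).1 h0 y hy hc) _
  · have h1 := ML_Fm eps_Fm hw.1
    rw [add_sub_cancel, zero_add, zero_add] at h1
    refine ⟨_, h1, (FD.mem_nul _).2 fun y hy _ => mem_of_eq (zero_mem _) ?_⟩
    change (w : SM N).1 y - ct (vec true y) ((eps true).1 y * (w : SM N).1 y) = 0
    rw [ct_eps hy, hw.2 y hy]; simp

omit [DecidableEq ι] in
theorem countP_fullL (s : Bool) : (fullL F).countP (fun a => a.1 = s) = Fintype.card ι := by
  rw [fullL, List.countP_append, countP_allL, countP_allL]; cases s <;> simp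

omit [DecidableEq ι] in
/-- Forms of type `(p, q)` vanish on the variety unless `0 ≤ p, q ≤ n`. -/
theorem Om_ann (h : IsCI F d) {p q : ℤ} {u : SM N} (hu : u ∈ Om p q) (hp : p < 0 ∨ q < 0 ∨
    (N : ℤ) - Fintype.card ι < p ∨ (N : ℤ) - Fintype.card ι < q) {y : E N} (hy : y ∈ cone F) :
    u.1 y ∈ ann (pl (fullL F) y) := by
  rcases hp with hp | hp | hp | hp
  · rw [Fm_neg (Or.inl hp) hu.1 hy.1]; exact zero_mem _
  · rw [Fm_neg (Or.inr hp) hu.1 hy.1]; exact zero_mem _
  · exact ann_of_big h (fun _ => of_mem_fullL) hy (hu.1.1 y hy.1).1.1 (hu.2 y hy.1)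
      (by rw [countP_fullL]; omega)
  · exact ann_of_big h (fun _ => of_mem_fullL) hy (hu.1.1 y hy.1).1.2 (hu.1.1 y hy.1).2
      (by rw [countP_fullL]; omega)

theorem Wc_exact (h : IsCI F d) {p q : ℤ} (hp : p < 0 ∨ q < 0 ∨
    (N : ℤ) - Fintype.card ι < p ∨ (N : ℤ) - Fintype.card ι < q) : (Wc h p).Exact q :=
  Cx.exact_of_le fun _ hu => (FD.mem_nul _).2 fun _ _ hc => Om_ann h hu hp hc

theorem Wc_good (h : IsCI F d) (p : ℤ) : (Wc h p).Good := by
  obtain ⟨ξ, hQ⟩ := h.dualFam
  induction p using Int.inductionOn' (b := -1) with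
  | zero => exact (Cx.good_of_exact fun _ => Wc_exact h (by norm_num)).1
  | succ p _ ih =>
    refine (W_tri h hQ (p + 1)).good_left (Ec_good h hQ _ _ _) ?_
    rwa [add_sub_cancel_right]
  | pred p hp _ => exact (Cx.good_of_exact fun _ => Wc_exact h (by omega)).1

theorem Wc_h (h : IsCI F d) {p q : ℤ} (hn : p + q ≠ N - Fintype.card ι) :
    (Wc h p).h q ≤ if p = q then 1 else 0 := by
  obtain ⟨ξ, hQ⟩ := h.dualFam
  rcases lt_or_gt_of_ne hn with hn | hn
  · induction p using Int.inductionOn' (b := -1) generalizing q with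
    | zero => simp [(Wc_exact h (p := -1) (by norm_num)).h_eq]
    | succ p hp ih =>
      have h1 := (W_tri h hQ (p + 1)).left (Ec_good h hQ _ _ _) (Wc_good h _) q
      have h2 := Ec_lo h hQ (Finset.nodup_toList Finset.univ) (p + 1) 0 q le_rfl hn
      rw [add_sub_cancel_right] at h1
      by_cases e : p = -1
      · rw [(Wc_exact h (Or.inl (by omega))).h_eq (q := q - 1)] at h1
        split_ifs at h2 ⊢ <;> omega
      · have h3 := ih (q := q - 1) (by omega) (by omega)
        split_ifs at h2 h3 ⊢ <;> omega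
    | pred p hp _ => exact (Wc_exact h (by omega)).h_eq.trans_le (Nat.zero_le _)
  · induction p using Int.inductionOn' (b := N - Fintype.card ι + 1) generalizing q with
    | zero => exact (Wc_exact h (by omega)).h_eq.trans_le (Nat.zero_le _)
    | succ p hp _ => simp [(Wc_exact h (p := p + 1) (q := q) (by omega)).h_eq]
    | pred p hp ih =>
      have h1 := (W_tri h hQ p).right (Wc_good h _) (Ec_good h hQ _ _ _) q
      have h2 := Ec_hi h hQ (Finset.nodup_toList Finset.univ) p 0 q (by simp [degL])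
        (by simp; omega)
      rw [Finset.length_toList, Finset.card_univ] at h2
      by_cases e : p = N - Fintype.card ι + 1
      · rw [(Wc_exact h (p := p) (by omega)).h_eq (q := q + 1)] at h1
        split_ifs at h2 ⊢ <;> omega
      · have h3 := ih (q := q + 1) (by omega) (by omega)
        split_ifs at h2 h3 ⊢ <;> omega

theorem Wc_chi (h : IsCI F d) (r : ℕ) : (Wc h r).chi = chiP N (degL d : Multiset ℕ) r := by
  classical
  obtain ⟨ξ, hQ⟩ := h.dualFam
  let ls := (Finset.univ : Finset ι).toList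
  have hls : ls.Nodup := Finset.nodup_toList _
  let ch : List ι → ℤ → ℤ → ℤ := fun l p k => if hl : l.Nodup then (Ec h hQ hl p k).chi else 0
  refine chiP_of_rec' N (degL d) (oN N) (fun M => ch (ls.drop (ls.length - M.length)))
    (fun p => (Wc h p).chi) (fun _ => rfl) (fun _ _ _ _ => rfl) (fun M _ k => ?_)
    (fun p k hp => ?_) (fun a M hM p k _ => ?_) ?_ (fun p _ => ?_) r
  · simp only [ch]
    split_ifs with hl
    · exact (Cx.good_of_exact (Ec_neg h hQ hl (by norm_num) k)).2
    · rfl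
  · simp only [ch, List.length_nil, Nat.sub_zero, List.drop_length, List.nodup_nil, dif_pos]
    have := (Ec_coord h (N + 1) List.nodup_nil (by simp) p k).2.1
    rw [(OX_Ofd h).chi, bz, if_neg (by omega)] at this
    exact this
  · obtain ⟨l', h1, h2⟩ := List.suffix_map_iff.1 hM
    obtain ⟨j, l, rfl, rfl, rfl⟩ := List.map_eq_cons_iff.1 h2.symm
    have e1 := List.suffix_iff_eq_drop.1 h1
    have e2 := List.suffix_iff_eq_drop.1 ((List.suffix_cons j l).trans h1)
    have hl := hls.sublist h1.sublist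
    simp only [List.length_cons, List.length_map] at e1 ⊢
    rw [← e1, ← e2]
    simp only [ch, dif_pos hl, dif_pos hl.of_cons]
    exact (Ec_tri h hQ hl p k).chi (Ec_good h hQ _ _ _) (Ec_good h hQ _ _ _)
  · exact (Cx.good_of_exact fun _ => Wc_exact h (by norm_num)).2
  · simp only [ch, degL, List.length_map, ls, Nat.sub_self, List.drop_zero, dif_pos hls]
    exact (W_tri h hQ p).chi (Wc_good h _) (Wc_good h _)

end Vale.Agent.P269.Hdg
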