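import Mathlib

/-!
# Presented complexes of vector spaces, and families of them over a space

A complex is given by one vector space `M`, a differential, subspaces `G q` of homogeneous
elements and a subspace `nul` of elements regarded as zero.
-/

namespace Vale.Agent.P269.Hdg

open Topology Filter

/-- A presented complex. -/
structure Cx where
  M : Type
  [acg : AddCommGroup M]
  [mod : Module ℂ M]
  d : M →ₗ[ℂ] M
  G : ℤ → Submodule ℂ M
  nul : Submodule ℂ M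
  dG : ∀ q u, u ∈ G q → d u ∈ G (q + 1)
  dnul : ∀ u ∈ nul, d u ∈ nul
  dd : ∀ q u, u ∈ G q → d (d u) ∈ nul

attribute [instance] Cx.acg Cx.mod

namespace Cx

variable (C D : Cx)

/-- Cocycles. -/
def Z (q : ℤ) : Submodule ℂ C.M := C.G q ⊓ C.nul.comap C.d

/-- Coboundaries. -/
def B (q : ℤ) : Submodule ℂ C.M := (C.G (q - 1)).map C.d ⊔ C.nul

/-- Cohomology. -/
abbrev H (q : ℤ) : Type := C.Z q ⧸ (C.B q).submoduleOf (C.Z q)

/-- The dimension of cohomology. -/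
noncomputable def h (q : ℤ) : ℕ := Module.finrank ℂ (C.H q)

/-- Finite dimensionality in degree `q`. -/
def Fin (q : ℤ) : Prop := FiniteDimensional ℂ (C.H q)

/-- Finite dimensional total cohomology. -/
def Good : Prop := (∀ q, C.Fin q) ∧ {q | C.h q ≠ 0}.Finite

/-- The Euler characteristic. -/
noncomputable def chi : ℤ := ∑ᶠ q : ℤ, ((q.negOnePow : ℤˣ) : ℤ) * C.h q

/-- Exactness in degree `q`. -/
def Exact (q : ℤ) : Prop :=
  ∀ u ∈ C.G q, C.d u ∈ C.nul → ∃ v ∈ C.G (q - 1), u - C.d v ∈ C.nul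

/-- Shift of the grading. -/
@[reducible] def shift (s : ℤ) : Cx :=
  { C with
    G := fun q => C.G (q + s)
    dG := fun q u hu => by rw [add_right_comm]; exact C.dG _ u hu
    dd := fun _ u hu => C.dd _ u hu }

/-- A chain map up to a scalar factor. -/
structure Hom where
  f : C.M →ₗ[ℂ] D.M
  sg : ℂ
  sg_ne : sg ≠ 0
  fG : ∀ q u, u ∈ C.G q → f u ∈ D.G q
  fnul : ∀ u ∈ C.nul, f u ∈ D.nul
  comm : ∀ q u, u ∈ C.G q → f (C.d u) - sg • D.d (f u) ∈ D.nul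

variable {C D}

theorem mem_Z {q : ℤ} {u : C.M} : u ∈ C.Z q ↔ u ∈ C.G q ∧ C.d u ∈ C.nul := Iff.rfl

theorem mem_B {q : ℤ} {u : C.M} : u ∈ C.B q ↔ ∃ v ∈ C.G (q - 1), u - C.d v ∈ C.nul := by
  constructor
  · intro h
    obtain ⟨_, ⟨v, hv, rfl⟩, z, hz, rfl⟩ := Submodule.mem_sup.1 h
    exact ⟨v, hv, by simpa using hz⟩
  · rintro ⟨v, hv, h⟩
    exact Submodule.mem_sup.2 ⟨_, ⟨v, hv, rfl⟩, _, h, by simp⟩

namespace Hom

variable (f : Hom C D)

theorem map_Z {q : ℤ} {u : C.M} (hu : u ∈ C.Z q) : f.f u ∈ D.Z q := by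
  refine ⟨f.fG q u hu.1, ?_⟩
  have h1 := D.nul.sub_mem (f.fnul _ hu.2) (f.comm q u hu.1)
  rw [sub_sub_cancel] at h1
  have := D.nul.smul_mem f.sg⁻¹ h1
  rwa [smul_smul, inv_mul_cancel₀ f.sg_ne, one_smul] at this

theorem map_B {q : ℤ} {u : C.M} (hu : u ∈ C.B q) : f.f u ∈ D.B q := by
  obtain ⟨v, hv, h⟩ := mem_B.1 hu
  refine mem_B.2 ⟨f.sg • f.f v, Submodule.smul_mem _ _ (f.fG _ v hv), ?_⟩
  have := D.nul.add_mem (f.fnul _ h) (f.comm _ v hv)
  rwa [map_sub, sub_add_sub_cancel, ← map_smul] at this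

/-- The induced map in cohomology. -/
def map (q : ℤ) : C.H q →ₗ[ℂ] D.H q :=
  Submodule.mapQ _ _ (f.f.restrict fun _ hu => f.map_Z hu) fun _ hu => f.map_B hu

/-- Injectivity in cohomology. -/
def Inj (q : ℤ) : Prop := ∀ u ∈ C.Z q, f.f u ∈ D.B q → u ∈ C.B q

/-- Surjectivity in cohomology. -/
def Surj (q : ℤ) : Prop := ∀ w ∈ D.Z q, ∃ u ∈ C.Z q, w - f.f u ∈ D.B q

end Hom

/-- A short exact sequence. -/
structure SES {A B C : Cx} (f : Hom A B) (g : Hom B C) : Prop where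
  inj : ∀ q u, u ∈ A.G q → f.f u ∈ B.nul → u ∈ A.nul
  comp : ∀ q u, u ∈ A.G q → g.f (f.f u) ∈ C.nul
  mid : ∀ q v, v ∈ B.G q → g.f v ∈ C.nul → ∃ u ∈ A.G q, v - f.f u ∈ B.nul
  surj : ∀ q w, w ∈ C.G q → ∃ v ∈ B.G q, w - g.f v ∈ C.nul

end Cx

/-- A complex with, for every point `b` of a space, the subspace of elements vanishing near `b`. -/
structure Sh (T : Type) where
  M : Type
  [acg : AddCommGroup M]
  [mod : Module ℂ M]
  d : M →ₗ[ℂ] M
  G : ℤ → Submodule ℂ M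
  V : T → Submodule ℂ M
  dG : ∀ q u, u ∈ G q → d u ∈ G (q + 1)
  dV : ∀ b, ∀ u ∈ V b, d u ∈ V b
  dd : ∀ b q u, u ∈ G q → d (d u) ∈ V b

attribute [instance] Sh.acg Sh.mod

namespace Sh

variable {T : Type} (S R : Sh T)

/-- The stalk complex. -/
@[reducible] def st (b : T) : Cx where
  M := S.M
  d := S.d
  G := S.G
  nul := S.V b
  dG := S.dG
  dnul := S.dV b
  dd := S.dd b

/-- The complex of global sections. -/
@[reducible] def gl : Cx where
  M := S.M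
  d := S.d
  G := S.G
  nul := ⨅ b, S.V b
  dG := S.dG
  dnul u hu := (Submodule.mem_iInf _).2 fun b => S.dV b u ((Submodule.mem_iInf _).1 hu b)
  dd q u hu := (Submodule.mem_iInf _).2 fun b => S.dd b q u hu

theorem mem_gl_nul {u : S.M} : u ∈ S.gl.nul ↔ ∀ b, u ∈ S.V b := Submodule.mem_iInf _

/-- A morphism. -/
structure Hom where
  f : S.M →ₗ[ℂ] R.M
  fG : ∀ q u, u ∈ S.G q → f u ∈ R.G q
  fV : ∀ b, ∀ u ∈ S.V b, f u ∈ R.V b
  comm : ∀ b q u, u ∈ S.G q → f (S.d u) - R.d (f u) ∈ R.V b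

variable {S R}

/-- The morphism of stalks. -/
def Hom.st (f : Hom S R) (b : T) : Cx.Hom (S.st b) (R.st b) where
  f := f.f
  sg := 1
  sg_ne := one_ne_zero
  fG := f.fG
  fnul := f.fV b
  comm q u hu := by rw [one_smul]; exact f.comm b q u hu

/-- The morphism of global sections. -/
def Hom.gl (f : Hom S R) : Cx.Hom S.gl R.gl where
  f := f.f
  sg := 1
  sg_ne := one_ne_zero
  fG := f.fG
  fnul u hu := R.mem_gl_nul.2 fun b => f.fV b u (S.mem_gl_nul.1 hu b)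
  comm q u hu := by rw [one_smul]; exact R.mem_gl_nul.2 fun b => f.comm b q u hu

/-- The mapping cone. -/
@[reducible] def Hom.cone (f : Hom S R) : Sh T where
  M := R.M × S.M
  d := (R.d.coprod f.f).prod (-S.d ∘ₗ LinearMap.snd ℂ _ _)
  G q := (R.G q).prod (S.G (q + 1))
  V b := (R.V b).prod (S.V b)
  dG q u hu := ⟨add_mem (R.dG q _ hu.1) (f.fG _ _ hu.2), neg_mem (S.dG _ _ hu.2)⟩
  dV b u hu := ⟨add_mem (R.dV b _ hu.1) (f.fV b _ hu.2), neg_mem (S.dV b _ hu.2)⟩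
  dd b q u hu := by
    refine ⟨?_, ?_⟩
    · have h1 := (R.V b).sub_mem (R.dd b q _ hu.1) (f.comm b _ _ hu.2)
      convert h1 using 1
      simp
      abel_nf
    · simpa using S.dd b _ _ hu.2

theorem Hom.cone_d (f : Hom S R) (u : R.M) (v : S.M) :
    f.cone.d (u, v) = (R.d u + f.f v, -S.d v) := rfl

/-- A fine complex with compact support, bounded below. -/
structure Fine [TopologicalSpace T] (S : Sh T) : Prop where
  opn : ∀ b, ∀ u ∈ S.V b, ∀ᶠ b' in 𝓝 b, u ∈ S.V b'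
  sep : ∀ K₁ K₂ : Set T, IsCompact K₁ → IsCompact K₂ → Disjoint K₁ K₂ → ∀ q, ∀ u ∈ S.G q,
    ∃ u' ∈ S.G q, (∀ b ∈ K₁, u' - u ∈ S.V b) ∧ (∀ b ∈ K₂, u' ∈ S.V b) ∧
      ∀ b, u ∈ S.V b → u' ∈ S.V b
  bdd : ∃ q₀, ∀ q < q₀, ∀ b, S.G q ≤ S.V b
  cpt : ∃ K : Set T, IsCompact K ∧ ∀ b ∉ K, S.V b = ⊤

end Sh

end Vale.Agent.P269.Hdg
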