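import Vale.Agent.P269.Hdg.Cx

/-!
# Presented complexes: long exact sequence, Euler characteristic, fine complexes
-/

namespace Vale.Agent.P269.Hdg

open Topology Filter

namespace Cx

variable {A B C D : Cx} {q : ℤ}

/-! ### Cohomology classes -/

/-- The class of a cocycle. -/
abbrev cl (u : C.M) (hu : u ∈ C.Z q) : C.H q := Submodule.Quotient.mk ⟨u, hu⟩

theorem cl_eq_zero {u : C.M} (hu : u ∈ C.Z q) : cl u hu = 0 ↔ u ∈ C.B q :=
  Submodule.Quotient.mk_eq_zero _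

theorem cl_eq_cl {u v : C.M} (hu : u ∈ C.Z q) (hv : v ∈ C.Z q) :
    cl u hu = cl v hv ↔ u - v ∈ C.B q :=
  Submodule.Quotient.eq _

theorem exists_cl (x : C.H q) : ∃ u hu, cl u hu = x := by
  obtain ⟨⟨u, hu⟩, rfl⟩ := Submodule.Quotient.mk_surjective _ x
  exact ⟨u, hu, rfl⟩

theorem nul_le_B : C.nul ≤ C.B q := le_sup_right

theorem d_mem_G {v : C.M} (hv : v ∈ C.G (q - 1)) : C.d v ∈ C.G q := by
  simpa using C.dG _ v hv

theorem d_mem_B {v : C.M} (hv : v ∈ C.G (q - 1)) : C.d v ∈ C.B q :=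
  mem_B.2 ⟨v, hv, by simp⟩

theorem mem_B_succ {u : C.M} : u ∈ C.B (q + 1) ↔ ∃ v ∈ C.G q, u - C.d v ∈ C.nul := by
  rw [mem_B, add_sub_cancel_right]

theorem exact_iff_B : C.Exact q ↔ ∀ u ∈ C.Z q, u ∈ C.B q :=
  ⟨fun h u hu => mem_B.2 (h u hu.1 hu.2), fun h u hu hd => mem_B.1 (h u ⟨hu, hd⟩)⟩

theorem exact_iff : C.Exact q ↔ Subsingleton (C.H q) := by
  rw [exact_iff_B]
  constructor
  · intro h
    refine ⟨fun x y => ?_⟩
    obtain ⟨u, hu, rfl⟩ := exists_cl x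
    obtain ⟨v, hv, rfl⟩ := exists_cl y
    rw [(cl_eq_zero hu).2 (h u hu), (cl_eq_zero hv).2 (h v hv)]
  · intro h u hu
    exact (cl_eq_zero hu).1 (Subsingleton.elim _ _)

theorem Exact.fin (h : C.Exact q) : C.Fin q := by
  have := exact_iff.1 h
  exact Module.Finite.of_finite

theorem Exact.h_eq (h : C.Exact q) : C.h q = 0 := by
  have := exact_iff.1 h
  exact Module.finrank_zero_of_subsingleton

theorem exact_of_h (hf : C.Fin q) (h : C.h q = 0) : C.Exact q := by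
  have : FiniteDimensional ℂ (C.H q) := hf
  exact exact_iff.2 (Module.finrank_zero_iff.1 h)

theorem exact_of_le (h : C.G q ≤ C.nul) : C.Exact q :=
  fun _ hu _ => ⟨0, zero_mem _, by simpa using h hu⟩

theorem good_of_bdd (a b : ℤ) (hf : ∀ q, C.Fin q) (h : ∀ q, q < a ∨ b < q → C.h q = 0) :
    C.Good :=
  ⟨hf, (Set.finite_Icc a b).subset fun q hq => by
    by_contra hc
    exact hq (h q (by simpa [Set.mem_Icc, not_and_or, -not_and] using hc))⟩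

theorem good_of_exact (h : ∀ q, C.Exact q) : C.Good ∧ C.chi = 0 := by
  refine ⟨⟨fun q => (h q).fin, ?_⟩, ?_⟩
  · simp [fun q => (h q).h_eq]
  · simp [chi, fun q => (h q).h_eq]

theorem chi_eq_sum (s : Finset ℤ) (h : ∀ q ∉ s, C.h q = 0) :
    C.chi = ∑ q ∈ s, ((q.negOnePow : ℤˣ) : ℤ) * C.h q := by
  refine finsum_eq_sum_of_support_subset _ fun q hq => ?_
  by_contra hc
  exact hq (by simp [h q hc])

theorem fin_le_one (u₀ : C.M) (h : ∀ u ∈ C.Z q, ∃ c : ℂ, u - c • u₀ ∈ C.B q) :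
    C.Fin q ∧ C.h q ≤ 1 := by
  by_cases he : C.Exact q
  · exact ⟨he.fin, by simp [he.h_eq]⟩
  rw [exact_iff_B] at he
  push Not at he
  obtain ⟨u₁, hu₁, hn⟩ := he
  obtain ⟨c₁, hc₁⟩ := h u₁ hu₁
  have hne : c₁ ≠ 0 := fun h0 => hn (by simpa [h0] using hc₁)
  have key : ∀ w : C.H q, ∃ c : ℂ, c • cl u₁ hu₁ = w := by
    intro w
    obtain ⟨u, hu, rfl⟩ := exists_cl w
    obtain ⟨c, hc⟩ := h u hu
    refine ⟨c / c₁, (cl_eq_cl (Submodule.smul_mem _ _ hu₁) hu).2 ?_⟩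
    have := sub_mem (Submodule.smul_mem _ (c / c₁) hc₁) hc
    rw [smul_sub, smul_smul, div_mul_cancel₀ _ hne] at this
    convert this using 1
    abel
  exact ⟨Module.Finite.of_surjective (LinearMap.toSpanSingleton ℂ _ (cl u₁ hu₁)) key,
    finrank_le_one _ key⟩

theorem h_pos (hf : C.Fin q) : ∀ u ∈ C.Z q, u ∉ C.B q → 1 ≤ C.h q := by
  intro u hu hn
  by_contra hc
  exact hn (exact_iff_B.1 (exact_of_h hf (by omega)) u hu)

/-! ### Shifts -/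

theorem shift_B (s : ℤ) : (C.shift s).B q = C.B (q + s) := by
  change (C.G (q - 1 + s)).map C.d ⊔ C.nul = (C.G (q + s - 1)).map C.d ⊔ C.nul
  rw [sub_add_eq_add_sub]

/-- The cohomology of the shifted complex. -/
noncomputable def shiftEquiv (s : ℤ) : (C.shift s).H q ≃ₗ[ℂ] C.H (q + s) :=
  Submodule.quotEquivOfEq _ _ (by rw [shift_B]; rfl)

theorem shift_fin (s : ℤ) : (C.shift s).Fin q ↔ C.Fin (q + s) :=
  Module.Finite.equiv_iff (shiftEquiv s)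

theorem shift_h (s : ℤ) : (C.shift s).h q = C.h (q + s) := (shiftEquiv s).finrank_eq

theorem shift_exact (s : ℤ) : (C.shift s).Exact q ↔ C.Exact (q + s) := by
  rw [exact_iff, exact_iff]
  exact (shiftEquiv s).toEquiv.subsingleton_congr

theorem shift_good (s : ℤ) : (C.shift s).Good ↔ C.Good := by
  simp only [Good, shift_fin, shift_h]
  refine and_congr ⟨fun h q => by simpa using h (q - s), fun h q => h _⟩ ⟨fun h => ?_, fun h => ?_⟩
  · exact (h.image (· + s)).subset fun q hq => ⟨q - s, by simpa using hq, by simp⟩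
  · exact h.preimage (add_left_injective s).injOn

theorem shift_chi (s : ℤ) : (C.shift s).chi = ((s.negOnePow : ℤˣ) : ℤ) * C.chi := by
  unfold chi
  rw [mul_finsum, ← finsum_comp_equiv (Equiv.addRight s)
    (f := fun q : ℤ => ((s.negOnePow : ℤˣ) : ℤ) * (((q.negOnePow : ℤˣ) : ℤ) * C.h q))]
  refine finsum_congr fun q => ?_
  rw [shift_h, Equiv.coe_addRight, Int.negOnePow_add, Units.val_mul, ← mul_assoc, mul_left_comm,
    ← Units.val_mul, Int.units_mul_self, Units.val_one, mul_one]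

/-! ### Chain maps -/

namespace Hom

variable (f : Hom C D)

theorem comm' {u : C.M} (hu : u ∈ C.G q) : D.d (f.f u) - f.sg⁻¹ • f.f (C.d u) ∈ D.nul := by
  have := D.nul.smul_mem (-f.sg⁻¹) (f.comm q u hu)
  rw [smul_sub, smul_smul, neg_mul, inv_mul_cancel₀ f.sg_ne] at this
  convert this using 1
  module

theorem map_mk (u : C.M) (hu : u ∈ C.Z q) :
    f.map q (Submodule.Quotient.mk ⟨u, hu⟩) = Submodule.Quotient.mk ⟨f.f u, f.map_Z hu⟩ := rfl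

theorem map_cl (u : C.M) (hu : u ∈ C.Z q) : f.map q (cl u hu) = cl (f.f u) (f.map_Z hu) := rfl

theorem inj_iff : f.Inj q ↔ Function.Injective (f.map q) := by
  rw [injective_iff_map_eq_zero]
  constructor
  · intro h x hx
    obtain ⟨u, hu, rfl⟩ := exists_cl x
    exact (cl_eq_zero hu).2 (h u hu ((cl_eq_zero (f.map_Z hu)).1 hx))
  · intro h u hu hB
    exact (cl_eq_zero hu).1 (h _ ((cl_eq_zero (f.map_Z hu)).2 hB))

theorem surj_iff : f.Surj q ↔ Function.Surjective (f.map q) := by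
  constructor
  · intro h y
    obtain ⟨w, hw, rfl⟩ := exists_cl y
    obtain ⟨u, hu, hB⟩ := h w hw
    exact ⟨cl u hu, ((cl_eq_cl hw (f.map_Z hu)).2 hB).symm⟩
  · intro h w hw
    obtain ⟨x, hx⟩ := h (cl w hw)
    obtain ⟨u, hu, rfl⟩ := exists_cl x
    exact ⟨u, hu, (cl_eq_cl hw (f.map_Z hu)).1 hx.symm⟩

/-- The isomorphism in cohomology. -/
noncomputable def equiv (hi : f.Inj q) (hs : f.Surj q) : C.H q ≃ₗ[ℂ] D.H q :=
  LinearEquiv.ofBijective (f.map q) ⟨f.inj_iff.1 hi, f.surj_iff.1 hs⟩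

theorem fin_iff (hi : f.Inj q) (hs : f.Surj q) : C.Fin q ↔ D.Fin q :=
  Module.Finite.equiv_iff (f.equiv hi hs)

theorem h_eq (hi : f.Inj q) (hs : f.Surj q) : C.h q = D.h q := (f.equiv hi hs).finrank_eq

theorem good_iff (h : ∀ q, f.Inj q ∧ f.Surj q) : C.Good ↔ D.Good := by
  simp only [Good, fun q => f.fin_iff (h q).1 (h q).2, fun q => f.h_eq (h q).1 (h q).2]

theorem chi_eq (h : ∀ q, f.Inj q ∧ f.Surj q) : C.chi = D.chi := by
  simp only [chi, fun q => f.h_eq (h q).1 (h q).2]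

end Hom

/-! ### The long exact sequence -/

section Lin

variable {U V W : Type} [AddCommGroup U] [Module ℂ U] [AddCommGroup V] [Module ℂ V]
  [AddCommGroup W] [Module ℂ W] {φ : U →ₗ[ℂ] V} {ψ : V →ₗ[ℂ] W}

theorem rank_add_of_exact (h : Function.Exact φ ψ) [FiniteDimensional ℂ V] :
    Module.finrank ℂ (LinearMap.range φ) + Module.finrank ℂ (LinearMap.range ψ) =
      Module.finrank ℂ V := by
  rw [← h.linearMap_ker_eq, add_comm]
  exact LinearMap.finrank_range_add_finrank_ker ψ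

theorem fin_of_exact (h : Function.Exact φ ψ) [FiniteDimensional ℂ U] [FiniteDimensional ℂ W] :
    FiniteDimensional ℂ V ∧ Module.finrank ℂ V ≤ Module.finrank ℂ U + Module.finrank ℂ W := by
  have hV : FiniteDimensional ℂ V := by
    refine Module.Finite.of_exact (f := φ) (g := ψ.rangeRestrict) (fun y => ?_)
      ψ.surjective_rangeRestrict
    rw [← h y, Subtype.ext_iff]
    rfl
  refine ⟨hV, ?_⟩
  rw [← rank_add_of_exact h]
  exact add_le_add (LinearMap.finrank_range_le φ) (Submodule.finrank_le _)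

end Lin

namespace SES

variable {f : Hom A B} {g : Hom B C}

/-- The graph of the connecting map. -/
def gr (f : Hom A B) (g : Hom B C) (q : ℤ) : Submodule ℂ (C.H q × A.H (q + 1)) where
  carrier := {x | ∃ c hc a ha, cl c hc = x.1 ∧ cl a ha = x.2 ∧
    ∃ b ∈ B.G q, c - g.f b ∈ C.nul ∧ B.d b - f.f a ∈ B.nul}
  zero_mem' := ⟨0, zero_mem _, 0, zero_mem _, rfl, rfl, 0, zero_mem _, by simp, by simp⟩
  add_mem' := by
    rintro ⟨x, y⟩ ⟨x', y'⟩ ⟨c, hc, a, ha, rfl, rfl, b, hb, h1, h2⟩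
      ⟨c', hc', a', ha', rfl, rfl, b', hb', h1', h2'⟩
    refine ⟨c + c', add_mem hc hc', a + a', add_mem ha ha', rfl, rfl, b + b', add_mem hb hb', ?_, ?_⟩
    · convert add_mem h1 h1' using 1
      rw [map_add]; abel
    · convert add_mem h2 h2' using 1
      rw [map_add, map_add]; abel
  smul_mem' := by
    rintro t ⟨x, y⟩ ⟨c, hc, a, ha, rfl, rfl, b, hb, h1, h2⟩
    refine ⟨t • c, Submodule.smul_mem _ _ hc, t • a, Submodule.smul_mem _ _ ha, rfl, rfl, t • b,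
      Submodule.smul_mem _ _ hb, ?_, ?_⟩
    · simpa [smul_sub] using Submodule.smul_mem _ t h1
    · simpa [smul_sub] using Submodule.smul_mem _ t h2

variable (hS : SES f g)
include hS

/-- An element whose image has zero differential is a cocycle. -/
theorem mem_Z_of {a : A.M} (ha : a ∈ A.G q) (h : B.d (f.f a) ∈ B.nul) : a ∈ A.Z q := by
  refine ⟨ha, hS.inj _ _ (A.dG q a ha) ?_⟩
  simpa using add_mem (f.comm q a ha) (B.nul.smul_mem f.sg h)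

/-- An element whose image is a coboundary comes from the first complex up to a coboundary. -/
theorem lift_of_B {b : B.M} (hb : b ∈ B.G q) (h : g.f b ∈ C.B q) :
    ∃ a ∈ A.G q, ∃ b' ∈ B.G (q - 1), b - B.d b' - f.f a ∈ B.nul := by
  obtain ⟨v, hv, h1⟩ := mem_B.1 h
  obtain ⟨b', hb', h2⟩ := hS.surj _ v hv
  have h3 : g.f (b - B.d (g.sg⁻¹ • b')) ∈ C.nul := by
    convert add_mem (add_mem h1 (C.dnul _ h2)) (g.comm' hb') using 1
    simp only [map_sub, map_smul]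
    abel
  obtain ⟨a, ha, h4⟩ := hS.mid q _ (sub_mem hb (d_mem_G (Submodule.smul_mem _ _ hb'))) h3
  exact ⟨a, ha, _, Submodule.smul_mem _ _ hb', h4⟩

theorem gr_ex (x : C.H q) : ∃ y, (x, y) ∈ gr f g q := by
  obtain ⟨c, hc, rfl⟩ := exists_cl x
  obtain ⟨b, hb, h1⟩ := hS.surj q c hc.1
  have h2 : g.f (B.d b) ∈ C.nul := by
    convert add_mem (g.comm q b hb) (C.nul.smul_mem g.sg (sub_mem hc.2 (C.dnul _ h1))) using 1
    simp only [map_sub]
    module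
  obtain ⟨a, ha, h3⟩ := hS.mid _ _ (B.dG q b hb) h2
  have h4 : a ∈ A.Z (q + 1) := hS.mem_Z_of ha (by
    simpa using sub_mem (B.dd q b hb) (B.dnul _ h3))
  exact ⟨cl a h4, c, hc, a, h4, rfl, rfl, b, hb, h1, h3⟩

theorem gr_uniq {y : A.H (q + 1)} (h : (0, y) ∈ gr f g q) : y = 0 := by
  obtain ⟨c, hc, a, ha, h0, rfl, b, hb, h1, h2⟩ := h
  have hB : g.f b ∈ C.B q := by
    simpa using sub_mem ((cl_eq_zero hc).1 h0) (nul_le_B h1)
  obtain ⟨a', ha', b', hb', h3⟩ := hS.lift_of_B hb hB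
  refine (cl_eq_zero ha).2 (mem_B_succ.2 ⟨f.sg⁻¹ • a', Submodule.smul_mem _ _ ha', ?_⟩)
  refine hS.inj _ _ (sub_mem ha.1 (A.dG _ _ (Submodule.smul_mem _ _ ha'))) ?_
  convert add_mem (add_mem (sub_mem (B.dnul _ h3) h2) (B.dd _ _ hb')) (f.comm' ha') using 1
  simp only [map_sub, map_smul]
  abel

theorem exists_conn (q : ℤ) :
    ∃ δ : C.H q →ₗ[ℂ] A.H (q + 1), ∀ x y, δ x = y ↔ (x, y) ∈ gr f g q := by
  choose δ hδ using hS.gr_ex (q := q)
  have hu : ∀ x y, (x, y) ∈ gr f g q → δ x = y := fun x y h => by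
    have := sub_mem (hδ x) h
    rw [Prod.mk_sub_mk, sub_self] at this
    exact sub_eq_zero.1 (hS.gr_uniq this)
  exact ⟨⟨⟨δ, fun x x' => hu _ _ (add_mem (hδ x) (hδ x'))⟩,
    fun t x => hu _ _ (Submodule.smul_mem _ t (hδ x))⟩,
    fun x y => ⟨fun h => h ▸ hδ x, hu x y⟩⟩

theorem exact_mid (q : ℤ) : Function.Exact (f.map q) (g.map q) := by
  intro y
  constructor
  · intro h
    obtain ⟨b, hb, rfl⟩ := exists_cl y
    obtain ⟨a, ha, b', hb', h1⟩ := hS.lift_of_B hb.1 ((cl_eq_zero (g.map_Z hb)).1 h)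
    have h2 : a ∈ A.Z q := hS.mem_Z_of ha (by
      convert sub_mem (sub_mem (mem_Z.1 hb).2 (B.dd _ _ hb')) (B.dnul _ h1) using 1
      simp only [map_sub]
      abel)
    refine ⟨cl a h2, ((cl_eq_cl hb (f.map_Z h2)).2 (mem_B.2 ⟨b', hb', ?_⟩)).symm⟩
    convert h1 using 1
    abel
  · rintro ⟨x, rfl⟩
    obtain ⟨a, ha, rfl⟩ := exists_cl x
    exact (cl_eq_zero (g.map_Z (f.map_Z ha))).2 (nul_le_B (hS.comp q a ha.1))

theorem les : ∃ δ : ∀ q, C.H q →ₗ[ℂ] A.H (q + 1), ∀ q, Function.Exact (f.map q) (g.map q) ∧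
    Function.Exact (g.map q) (δ q) ∧ Function.Exact (δ q) (f.map (q + 1)) := by
  choose δ hδ using hS.exists_conn
  refine ⟨δ, fun q => ⟨hS.exact_mid q, fun x => ?_, fun y => ?_⟩⟩
  · rw [hδ]
    constructor
    · rintro ⟨c, hc, a, ha, rfl, h0, b, hb, h1, h2⟩
      obtain ⟨a', ha', h3⟩ := mem_B_succ.1 ((cl_eq_zero ha).1 h0)
      have h4 : b - f.sg • f.f a' ∈ B.Z q := by
        refine ⟨sub_mem hb (Submodule.smul_mem _ _ (f.fG _ _ ha')), ?_⟩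
        change B.d _ ∈ B.nul
        convert add_mem (add_mem h2 (f.fnul _ h3)) (f.comm _ _ ha') using 1
        simp only [map_sub, map_smul]
        abel
      refine ⟨cl _ h4, ((cl_eq_cl hc (g.map_Z h4)).2 (nul_le_B ?_)).symm⟩
      convert add_mem h1 (C.nul.smul_mem f.sg (hS.comp _ _ ha')) using 1
      simp only [map_sub, map_smul]
      abel
    · rintro ⟨y, rfl⟩
      obtain ⟨b, hb, rfl⟩ := exists_cl y
      exact ⟨g.f b, g.map_Z hb, 0, zero_mem _, rfl, rfl, b, hb.1, by simp, by simpa using hb.2⟩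
  · constructor
    · intro h
      obtain ⟨a, ha, rfl⟩ := exists_cl y
      obtain ⟨b, hb, h1⟩ := mem_B_succ.1 ((cl_eq_zero (f.map_Z ha)).1 h)
      have h2 : g.f b ∈ C.Z q := by
        refine ⟨g.fG _ _ hb, ?_⟩
        change C.d _ ∈ C.nul
        convert add_mem (g.comm' hb) (C.nul.smul_mem g.sg⁻¹
          (sub_mem (hS.comp _ _ ha.1) (g.fnul _ h1))) using 1
        simp only [map_sub]
        module
      exact ⟨cl _ h2, (hδ _ _ _).2 ⟨_, h2, a, ha, rfl, rfl, b, hb, by simp, by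
        simpa using neg_mem h1⟩⟩
    · rintro ⟨x, rfl⟩
      obtain ⟨c, hc, a, ha, -, h0, b, hb, -, h2⟩ := (hδ q x _).1 rfl
      change _ = δ q x at h0
      rw [← h0]
      exact (cl_eq_zero (f.map_Z ha)).2 (mem_B_succ.2 ⟨b, hb, by simpa using neg_mem h2⟩)

theorem fin_mid (hA : A.Fin q) (hC : C.Fin q) : B.Fin q ∧ B.h q ≤ A.h q + C.h q :=
  @fin_of_exact _ _ _ _ _ _ _ _ _ _ _ (hS.exact_mid q) hA hC

theorem fin_left' (hC : C.Fin q) (hB : B.Fin (q + 1)) :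
    A.Fin (q + 1) ∧ A.h (q + 1) ≤ C.h q + B.h (q + 1) := by
  obtain ⟨δ, hδ⟩ := hS.les
  exact @fin_of_exact _ _ _ _ _ _ _ _ _ _ _ (hδ q).2.2 hC hB

theorem fin_left (hC : C.Fin (q - 1)) (hB : B.Fin q) : A.Fin q ∧ A.h q ≤ C.h (q - 1) + B.h q := by
  have := hS.fin_left' (q := q - 1) hC (by simpa using hB)
  simpa using this

theorem fin_right (hB : B.Fin q) (hA : A.Fin (q + 1)) :
    C.Fin q ∧ C.h q ≤ B.h q + A.h (q + 1) := by
  obtain ⟨δ, hδ⟩ := hS.les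
  exact @fin_of_exact _ _ _ _ _ _ _ _ _ _ _ (hδ q).2.1 hB hA

theorem good_mid (hA : A.Good) (hC : C.Good) : B.Good :=
  ⟨fun q => (hS.fin_mid (hA.1 q) (hC.1 q)).1, (hA.2.union hC.2).subset fun q hq => by
    have := (hS.fin_mid (hA.1 q) (hC.1 q)).2
    simp only [Set.mem_union, Set.mem_ofPred_eq] at hq ⊢
    omega⟩

theorem good_left (hB : B.Good) (hC : C.Good) : A.Good :=
  ⟨fun q => (hS.fin_left (hC.1 _) (hB.1 q)).1,
    ((hC.2.preimage (sub_left_injective (b := (1 : ℤ))).injOn).union hB.2).subset fun q hq => by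
      have := (hS.fin_left (hC.1 _) (hB.1 q)).2
      simp only [Set.mem_union, Set.mem_ofPred_eq, Set.mem_preimage] at hq ⊢
      omega⟩

theorem good_right (hA : A.Good) (hB : B.Good) : C.Good :=
  ⟨fun q => (hS.fin_right (hB.1 q) (hA.1 _)).1,
    (hB.2.union (hA.2.preimage (add_left_injective (1 : ℤ)).injOn)).subset fun q hq => by
      have := (hS.fin_right (hB.1 q) (hA.1 _)).2
      simp only [Set.mem_union, Set.mem_ofPred_eq, Set.mem_preimage] at hq ⊢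
      omega⟩

theorem rank_add (hB : B.Fin q) : Module.finrank ℂ (LinearMap.range (f.map q)) +
    Module.finrank ℂ (LinearMap.range (g.map q)) = B.h q :=
  @rank_add_of_exact _ _ _ _ _ _ _ _ _ _ _ (hS.exact_mid q) hB

theorem chi_add (hA : A.Good) (hC : C.Good) : B.chi = A.chi + C.chi := by
  classical
  have hB := hS.good_mid hA hC
  obtain ⟨δ, hδ⟩ := hS.les
  obtain ⟨a, ha⟩ : ∃ a : ℤ → ℕ, ∀ q, a q = Module.finrank ℂ (LinearMap.range (f.map q)) :=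
    ⟨_, fun _ => rfl⟩
  obtain ⟨b, hb⟩ : ∃ b : ℤ → ℕ, ∀ q, b q = Module.finrank ℂ (LinearMap.range (g.map q)) :=
    ⟨_, fun _ => rfl⟩
  obtain ⟨c, hc⟩ : ∃ c : ℤ → ℕ, ∀ q, c q = Module.finrank ℂ (LinearMap.range (δ q)) :=
    ⟨_, fun _ => rfl⟩
  have h1 : ∀ q, a q + b q = B.h q := fun q => by
    rw [ha, hb]; exact hS.rank_add (hB.1 q)
  have h2 : ∀ q, b q + c q = C.h q := fun q => by
    rw [hb, hc]; exact @rank_add_of_exact _ _ _ _ _ _ _ _ _ _ _ (hδ q).2.1 (hC.1 q)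
  have h3 : ∀ q, c (q - 1) + a q = A.h q := fun q => by
    have := @rank_add_of_exact _ _ _ _ _ _ _ _ _ _ _ (hδ (q - 1)).2.2 (hA.1 _)
    rw [← hc, ← ha] at this
    have e : q - 1 + 1 = q := sub_add_cancel q 1
    change _ = A.h _ at this
    rwa [e] at this
  have fs : ∀ (X : Cx) (u : ℤ → ℕ), X.Good → (∀ q, u q ≤ X.h q) →
      Function.HasFiniteSupport fun q : ℤ => ((q.negOnePow : ℤˣ) : ℤ) * u q := fun X u hX hu =>
    hX.2.subset fun q hq h0 => hq (by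
      have := hu q
      have h5 : u q = 0 := by omega
      simp [h5])
  have fa := fs A a hA fun q => by have := h3 q; omega
  have fb := fs C b hC fun q => by have := h2 q; omega
  have fc := fs C c hC fun q => by have := h2 q; omega
  have fc' := fs A (fun q => c (q - 1)) hA fun q => by have := h3 q; omega
  have h4 : ∑ᶠ q : ℤ, ((q.negOnePow : ℤˣ) : ℤ) * c (q - 1) =
      -∑ᶠ q : ℤ, ((q.negOnePow : ℤˣ) : ℤ) * c q := by
    rw [← finsum_neg_distrib, ← finsum_comp_equiv (Equiv.addRight (1 : ℤ))]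
    refine finsum_congr fun q => ?_
    simp [Int.negOnePow_succ]
  simp only [chi, ← h1, ← h2, ← h3, Nat.cast_add, mul_add]
  rw [finsum_add_distrib fa fb, finsum_add_distrib fc' fa, finsum_add_distrib fb fc, h4]
  ring

theorem inj_of_surj (h : Function.Surjective (g.map q)) : Function.Injective (f.map (q + 1)) := by
  obtain ⟨δ, hδ⟩ := hS.les
  rw [injective_iff_map_eq_zero]
  intro y hy
  obtain ⟨x, rfl⟩ := ((hδ q).2.2 y).1 hy
  exact ((hδ q).2.1 x).2 (h x)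

end SES

end Cx

namespace Sh

variable {T : Type} {S R : Sh T}

/-! ### The mapping cone -/

theorem d_mem_G {q : ℤ} {v : S.M} (hv : v ∈ S.G (q - 1)) : S.d v ∈ S.G q := by
  simpa using S.dG _ v hv

theorem Hom.cone_exact_st (f : Hom S R) {b : T} (h : ∀ q, (f.st b).Inj q ∧ (f.st b).Surj q)
    (q : ℤ) : (f.cone.st b).Exact q := by
  have hI : ∀ v : S.M, v ∈ S.G (q + 1) → S.d v ∈ S.V b → (∃ r ∈ R.G q, f.f v - R.d r ∈ R.V b) →
      ∃ w ∈ S.G q, v - S.d w ∈ S.V b := fun v hv hd hB =>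
    Cx.mem_B_succ.1 ((h (q + 1)).1 v ⟨hv, hd⟩ (Cx.mem_B_succ.2 hB))
  have hJ : ∀ w : R.M, w ∈ R.G q → R.d w ∈ R.V b → ∃ s ∈ S.G q, S.d s ∈ S.V b ∧
      ∃ r ∈ R.G (q - 1), w - f.f s - R.d r ∈ R.V b := fun w hw hd => by
    obtain ⟨s, hs, h5⟩ := (h q).2 w ⟨hw, hd⟩
    exact ⟨s, hs.1, hs.2, Cx.mem_B.1 h5⟩
  have key : ∀ (u : R.M) (v : S.M), u ∈ R.G q → v ∈ S.G (q + 1) → R.d u + f.f v ∈ R.V b →
      -S.d v ∈ S.V b → ∃ (r : R.M) (s : S.M), r ∈ R.G (q - 1) ∧ s ∈ S.G (q - 1 + 1) ∧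
        u - (R.d r + f.f s) ∈ R.V b ∧ v - -S.d s ∈ S.V b := by
    intro u v hu hv h1 h2
    obtain ⟨w, hw, h3⟩ := hI v hv (neg_mem_iff.1 h2) ⟨-u, neg_mem hu, by
      rwa [map_neg, sub_neg_eq_add, add_comm]⟩
    have h4 : R.d (u + f.f w) ∈ R.V b := by
      convert sub_mem (sub_mem h1 (f.fV b _ h3)) (f.comm b q w hw) using 1
      simp only [map_add, map_sub]
      abel
    obtain ⟨s, hs1, hs2, r, hr, h6⟩ := hJ (u + f.f w) (add_mem hu (f.fG q w hw)) h4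
    refine ⟨r, s - w, hr, ?_, ?_, ?_⟩
    · rw [sub_add_cancel]
      exact sub_mem hs1 hw
    · convert h6 using 1
      simp only [map_sub]
      abel
    · convert add_mem h3 hs2 using 1
      simp only [map_sub]
      abel
  rintro ⟨u, v⟩ ⟨hu, hv⟩ ⟨h1, h2⟩
  obtain ⟨r, s, h3, h4, h5, h6⟩ := key u v hu hv h1 h2
  exact ⟨(r, s), ⟨h3, h4⟩, h5, h6⟩

theorem Hom.mem_cone_nul (f : Hom S R) {u : f.cone.gl.M} :
    u ∈ f.cone.gl.nul ↔ (u : R.M × S.M).1 ∈ R.gl.nul ∧ (u : R.M × S.M).2 ∈ S.gl.nul :=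
  f.cone.mem_gl_nul.trans ⟨fun h => ⟨R.mem_gl_nul.2 fun b => (h b).1,
    S.mem_gl_nul.2 fun b => (h b).2⟩,
    fun h b => ⟨R.mem_gl_nul.1 h.1 b, S.mem_gl_nul.1 h.2 b⟩⟩

theorem Hom.qiso_of_cone (f : Hom S R) (h : ∀ q, f.cone.gl.Exact q) (q : ℤ) :
    f.gl.Inj q ∧ f.gl.Surj q := by
  have key : ∀ q (u : R.gl.M) (v : S.gl.M), u ∈ R.gl.G q → v ∈ S.gl.G (q + 1) →
      R.gl.d u + f.gl.f v ∈ R.gl.nul → -S.gl.d v ∈ S.gl.nul →
      ∃ (r : R.gl.M) (s : S.gl.M), r ∈ R.gl.G (q - 1) ∧ s ∈ S.gl.G (q - 1 + 1) ∧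
        u - (R.gl.d r + f.gl.f s) ∈ R.gl.nul ∧ v - -S.gl.d s ∈ S.gl.nul := by
    intro q u v hu hv h1 h2
    obtain ⟨⟨r, s⟩, h3, h4⟩ := h q (u, v) ⟨hu, hv⟩ (f.mem_cone_nul.2 ⟨h1, h2⟩)
    exact ⟨r, s, h3.1, h3.2, f.mem_cone_nul.1 h4⟩
  constructor
  · intro u hu hB
    obtain ⟨r, hr, h1⟩ := Cx.mem_B.1 hB
    obtain ⟨r', s', -, hs', -, h2⟩ := key (q - 1) (-r) u (neg_mem hr)
      (by rw [sub_add_cancel]; exact hu.1) (by rwa [map_neg, neg_add_eq_sub])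
      (neg_mem (Cx.mem_Z.1 hu).2)
    rw [sub_add_cancel] at hs'
    exact Cx.mem_B.2 ⟨-s', neg_mem hs', by rwa [map_neg]⟩
  · intro w hw
    obtain ⟨r, s, hr, hs, h3, h4⟩ := key q w 0 hw.1 (zero_mem _)
      (by simpa using (Cx.mem_Z.1 hw).2) (by simp)
    rw [sub_add_cancel] at hs
    rw [zero_sub, neg_neg] at h4
    exact ⟨s, ⟨hs, h4⟩, Cx.mem_B.2 ⟨r, hr, by rwa [sub_sub, add_comm]⟩⟩

theorem Hom.cone_ses (f : Hom S R) :
    ∃ (i : Cx.Hom R.gl f.cone.gl) (p : Cx.Hom f.cone.gl (S.gl.shift 1)), Cx.SES i p := by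
  have z : ∀ {X : Cx} {x : X.M}, x = 0 → x ∈ X.nul := fun h => h ▸ zero_mem _
  refine ⟨⟨LinearMap.inl ℂ R.M S.M, 1, one_ne_zero, fun q u hu => ⟨hu, zero_mem _⟩,
      fun u hu => f.mem_cone_nul.2 ⟨hu, zero_mem _⟩, fun q u _ => z ?_⟩,
    ⟨LinearMap.snd ℂ R.M S.M, -1, by norm_num, fun q u hu => hu.2,
      fun u hu => (f.mem_cone_nul.1 hu).2, fun q u _ => z ?_⟩,
    fun q u _ h => (f.mem_cone_nul.1 h).1, fun q u _ => zero_mem _,
    fun q v hv h => ⟨v.1, hv.1, f.mem_cone_nul.2 ⟨z (sub_self (v : R.M × S.M).1), ?_⟩⟩,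
    fun q w hw => ⟨(0, w), ⟨zero_mem _, hw⟩, z (sub_self w)⟩⟩
  · exact (by simp : ∀ u : R.M,
      ((R.d u, 0) : R.M × S.M) - (1 : ℂ) • (R.d u + f.f 0, -S.d 0) = 0) u
  · exact (by simp : ∀ u : R.M × S.M, -S.d u.2 - (-1 : ℂ) • S.d u.2 = 0) u
  · exact S.gl.nul.sub_mem h (zero_mem _)

/-! ### Fine complexes -/

variable [TopologicalSpace T]

theorem Fine.cone {f : Hom S R} (hS : S.Fine) (hR : R.Fine) : f.cone.Fine where
  opn b u hu := (hR.opn b _ hu.1).and (hS.opn b _ hu.2)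
  sep K₁ K₂ h₁ h₂ hd q u hu := by
    obtain ⟨x, hx, hx1, hx2, hx3⟩ := hR.sep K₁ K₂ h₁ h₂ hd q _ hu.1
    obtain ⟨y, hy, hy1, hy2, hy3⟩ := hS.sep K₁ K₂ h₁ h₂ hd _ _ hu.2
    exact ⟨(x, y), ⟨hx, hy⟩, fun b hb => ⟨hx1 b hb, hy1 b hb⟩, fun b hb => ⟨hx2 b hb, hy2 b hb⟩,
      fun b hb => ⟨hx3 b hb.1, hy3 b hb.2⟩⟩
  bdd := by
    obtain ⟨q₁, h₁⟩ := hR.bdd
    obtain ⟨q₂, h₂⟩ := hS.bdd
    exact ⟨min q₁ (q₂ - 1), fun q hq b u hu =>
      ⟨h₁ q (by omega) b hu.1, h₂ (q + 1) (by omega) b hu.2⟩⟩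
  cpt := by
    obtain ⟨K₁, h₁, h₁'⟩ := hR.cpt
    obtain ⟨K₂, h₂, h₂'⟩ := hS.cpt
    refine ⟨K₁ ∪ K₂, h₁.union h₂, fun b hb => ?_⟩
    change (R.V b).prod (S.V b) = ⊤
    rw [h₁' b fun h => hb (Or.inl h), h₂' b fun h => hb (Or.inr h), Submodule.prod_top]

/-- An element which vanishes on the intersection of two compact sets is cut off. -/
theorem Fine.cut (hS : S.Fine) {K₁ K₂ : Set T} (h₁ : IsCompact K₁) (h₂ : IsCompact K₂) {q : ℤ}
    {e : S.M} (he : e ∈ S.G q) (h : ∀ b ∈ K₁ ∩ K₂, e ∈ S.V b) :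
    ∃ e' ∈ S.G q, (∀ b ∈ K₁, e' - e ∈ S.V b) ∧ ∀ b ∈ K₂, e' ∈ S.V b := by
  have hU : IsOpen {b | e ∈ S.V b} := isOpen_iff_mem_nhds.2 fun b hb => hS.opn b e hb
  obtain ⟨e', he', h3, h4, h5⟩ := hS.sep _ _ (h₁.diff hU) (h₂.diff hU)
    (Set.disjoint_left.2 fun b hb hb' => hb.2 (h b ⟨hb.1, hb'.1⟩)) q e he
  refine ⟨e', he', fun b hb => ?_, fun b hb => ?_⟩
  · by_cases hb' : e ∈ S.V b
    · exact sub_mem (h5 b hb') hb'
    · exact h3 b ⟨hb, hb'⟩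
  · by_cases hb' : e ∈ S.V b
    · exact h5 b hb'
    · exact h4 b ⟨hb, hb'⟩

/-- Induction over the compact subsets of a compact set. -/
theorem compact_ind [T2Space T] [LocallyCompactSpace T] {K : Set T} (hK : IsCompact K)
    {X : Type} {P : X → Prop} {Q : X → T → Prop} (h0 : ∃ x, P x)
    (hl : ∀ b ∈ K, ∃ x, P x ∧ ∀ᶠ b' in 𝓝 b, Q x b')
    (hu : ∀ K₁ K₂, IsCompact K₁ → IsCompact K₂ → ∀ x₁ x₂, P x₁ → P x₂ → (∀ b ∈ K₁, Q x₁ b) →
      (∀ b ∈ K₂, Q x₂ b) → ∃ x, P x ∧ ∀ b ∈ K₁ ∪ K₂, Q x b) :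
    ∃ x, P x ∧ ∀ b ∈ K, Q x b := by
  have : ∃ K', IsCompact K' ∧ K ⊆ K' ∧ ∃ x, P x ∧ ∀ b ∈ K', Q x b := by
    refine hK.induction_on (p := fun s => ∃ K', IsCompact K' ∧ s ⊆ K' ∧ ∃ x, P x ∧ ∀ b ∈ K', Q x b)
      ?_ ?_ ?_ ?_
    · obtain ⟨x, hx⟩ := h0
      exact ⟨∅, isCompact_empty, subset_rfl, x, hx, fun _ h => h.elim⟩
    · rintro s t hst ⟨K', h1, h2, h3⟩
      exact ⟨K', h1, hst.trans h2, h3⟩
    · rintro s t ⟨K₁, h1, h2, x₁, h3, h4⟩ ⟨K₂, h1', h2', x₂, h3', h4'⟩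
      exact ⟨K₁ ∪ K₂, h1.union h1', Set.union_subset_union h2 h2',
        hu K₁ K₂ h1 h1' x₁ x₂ h3 h3' h4 h4'⟩
    · intro b hb
      obtain ⟨x, hx, hq⟩ := hl b hb
      obtain ⟨K', h1, h2, h3⟩ := local_compact_nhds hq
      exact ⟨K', mem_nhdsWithin_of_mem_nhds h1, K', h3, subset_rfl, x, hx, fun b' hb' => h2 hb'⟩
  obtain ⟨K', -, h2, x, hx, h3⟩ := this
  exact ⟨x, hx, fun b hb => h3 b (h2 hb)⟩

variable [T2Space T] [LocallyCompactSpace T]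

theorem Fine.exact_compact (hS : S.Fine) (h : ∀ b q, (S.st b).Exact q) (q : ℤ) :
    ∀ K, IsCompact K → ∀ u ∈ S.G q, (∀ b ∈ K, S.d u ∈ S.V b) →
      ∃ v, v ∈ S.G (q - 1) ∧ ∀ b ∈ K, u - S.d v ∈ S.V b := by
  obtain ⟨q₀, hq₀⟩ := hS.bdd
  have base : ∀ q < q₀, ∀ K, IsCompact K → ∀ u ∈ S.G q, (∀ b ∈ K, S.d u ∈ S.V b) →
      ∃ v, v ∈ S.G (q - 1) ∧ ∀ b ∈ K, u - S.d v ∈ S.V b := fun q hq K _ u hu _ =>
    ⟨0, zero_mem _, fun b _ => by simpa using hq₀ q hq b hu⟩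
  by_cases hq : q < q₀
  · exact base q hq
  refine Int.leInduction (m := q₀ - 1) (motive := fun q _ => ∀ K, IsCompact K → ∀ u ∈ S.G q,
    (∀ b ∈ K, S.d u ∈ S.V b) → ∃ v, v ∈ S.G (q - 1) ∧ ∀ b ∈ K, u - S.d v ∈ S.V b)
    (base _ (by omega)) ?_ q (by omega)
  intro q _ ih K hK u hu hd
  rw [add_sub_cancel_right]
  refine compact_ind hK ⟨0, zero_mem _⟩ (fun b hb => ?_) ?_
  · obtain ⟨v, hv, h1⟩ := h b (q + 1) u hu (hd b hb)
    rw [add_sub_cancel_right] at hv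
    exact ⟨v, hv, hS.opn b _ h1⟩
  · intro K₁ K₂ h₁ h₂ v₁ v₂ hv₁ hv₂ g₁ g₂
    obtain ⟨w, hw, h3⟩ := ih (K₁ ∩ K₂) (h₁.inter h₂) (v₁ - v₂) (sub_mem hv₁ hv₂) fun b hb => by
      convert sub_mem (g₂ b hb.2) (g₁ b hb.1) using 1
      rw [map_sub]
      abel
    obtain ⟨e', he', h4, h5⟩ := hS.cut h₁ h₂ (sub_mem (sub_mem hv₁ hv₂) (d_mem_G hw)) h3
    refine ⟨v₂ + e', add_mem hv₂ he', fun b hb => ?_⟩
    rcases hb with hb | hb
    · convert add_mem (sub_mem (g₁ b hb) (S.dV b _ (h4 b hb))) (S.dd b _ w hw) using 1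
      simp only [map_add, map_sub]
      abel
    · convert sub_mem (g₂ b hb) (S.dV b _ (h5 b hb)) using 1
      rw [map_add]
      abel

theorem Fine.exact_gl (hS : S.Fine) (h : ∀ b q, (S.st b).Exact q) (q : ℤ) : S.gl.Exact q := by
  intro u hu hd
  obtain ⟨K, hK, hK'⟩ := hS.cpt
  obtain ⟨v, hv, h1⟩ := hS.exact_compact h q K hK u hu fun b _ => S.mem_gl_nul.1 hd b
  refine ⟨v, hv, S.mem_gl_nul.2 fun b => ?_⟩
  by_cases hb : b ∈ K
  · exact h1 b hb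
  · rw [hK' b hb]; trivial

theorem Fine.glue (hS : S.Fine) {M' : Type} [AddCommGroup M'] [Module ℂ M']
    (V' : T → Submodule ℂ M') (ρ : S.M →ₗ[ℂ] M') (a : M') (q : ℤ)
    (h1 : ∀ b u, u ∈ S.V b → ρ u ∈ V' b) (h2 : ∀ b, ∀ x ∈ V' b, ∀ᶠ b' in 𝓝 b, x ∈ V' b')
    (h3 : ∀ b u, u ∈ S.G q → ρ u ∈ V' b → u ∈ S.V b) (h4 : ∀ b, ∃ u ∈ S.G q, a - ρ u ∈ V' b)
    (h5 : ∃ K, IsCompact K ∧ ∀ b ∉ K, V' b = ⊤) : ∃ u ∈ S.G q, ∀ b, a - ρ u ∈ V' b := by
  obtain ⟨K, hK, hK'⟩ := h5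
  have : ∃ u, u ∈ S.G q ∧ ∀ b ∈ K, a - ρ u ∈ V' b := by
    refine compact_ind hK ⟨0, zero_mem _⟩ (fun b _ => ?_) ?_
    · obtain ⟨u, hu, h⟩ := h4 b
      exact ⟨u, hu, h2 b _ h⟩
    · intro K₁ K₂ h₁ h₂ u₁ u₂ hu₁ hu₂ g₁ g₂
      obtain ⟨e', he', h6, h7⟩ := hS.cut h₁ h₂ (sub_mem hu₁ hu₂) fun b hb =>
        h3 b _ (sub_mem hu₁ hu₂) (by
          convert sub_mem (g₂ b hb.2) (g₁ b hb.1) using 1
          rw [map_sub]
          abel)
      refine ⟨u₂ + e', add_mem hu₂ he', fun b hb => ?_⟩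
      rcases hb with hb | hb
      · convert sub_mem (g₁ b hb) (h1 b _ (h6 b hb)) using 1
        simp only [map_add, map_sub]
        abel
      · convert sub_mem (g₂ b hb) (h1 b _ (h7 b hb)) using 1
        rw [map_add]
        abel
  obtain ⟨u, hu, h⟩ := this
  refine ⟨u, hu, fun b => ?_⟩
  by_cases hb : b ∈ K
  · exact h b hb
  · rw [hK' b hb]; trivial

theorem Hom.qiso_of_stalk (f : Hom S R) (hS : S.Fine) (hR : R.Fine)
    (h : ∀ b q, (f.st b).Inj q ∧ (f.st b).Surj q) (q : ℤ) : f.gl.Inj q ∧ f.gl.Surj q :=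
  f.qiso_of_cone ((hS.cone hR).exact_gl fun b => f.cone_exact_st (h b)) q

end Sh

end Vale.Agent.P269.Hdg
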