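import Vale.Agent.P269.Hdg.Null

/-!
# The de Rham complex of a complete intersection and its Hodge filtration
-/

namespace Vale.Agent.P269.Hdg

open scoped ComplexConjugate ContDiff
open Complex (I)
open Topology Filter MvPolynomial

variable {N : ℕ} {p q k l : ℤ} {u v : SM N}

theorem Fm_congr (hu : u ∈ Fm p q k) (h : ∀ x ≠ 0, v.1 x = u.1 x) : v ∈ Fm p q k :=
  ⟨fun x hx => by rw [h x hx]; exact hu.1 x hx, hu.2.congr h⟩

theorem Om_congr (hu : u ∈ Om p q) (h : ∀ x ≠ 0, v.1 x = u.1 x) : v ∈ Om p q :=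
  ⟨Fm_congr hu.1 h, fun x hx => by rw [h x hx]; exact hu.2 x hx⟩

/-- The component of type `(p, q)`. -/
noncomputable def PT (p q : ℤ) : SM N →ₗ[ℂ] SM N := LT (pt p q)

@[simp] theorem PT_apply (p q : ℤ) (u : SM N) (x : E N) : (PT p q u).1 x = pt p q (u.1 x) := rfl

theorem sum_PT (u : SM N) : ∑ p ∈ rng N, ∑ q ∈ rng N, PT p q u = u := by
  refine Subtype.ext (funext fun x => ?_)
  simpa using sum_pt (u.1 x)

/-- Basic forms of degree `k`: the `k`-forms on projective space. -/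
def Ak (k : ℤ) : Submodule ℂ (SM N) where
  carrier := {u | (∀ p q, PT p q u ∈ Om p q) ∧ ∀ x ≠ 0, u.1 x ∈ Dg k}
  zero_mem' := ⟨fun _ _ => by rw [map_zero]; exact zero_mem _, fun _ _ => zero_mem _⟩
  add_mem' hu hv := ⟨fun p q => by rw [map_add]; exact add_mem (hu.1 p q) (hv.1 p q),
    fun x hx => add_mem (hu.2 x hx) (hv.2 x hx)⟩
  smul_mem' c _ hu := ⟨fun p q => by rw [map_smul]; exact Submodule.smul_mem _ _ (hu.1 p q),
    fun x hx => Submodule.smul_mem _ _ (hu.2 x hx)⟩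

theorem mem_Ak : u ∈ Ak k ↔ (∀ p q, PT p q u ∈ Om p q) ∧ ∀ x ≠ 0, u.1 x ∈ Dg k := Iff.rfl

theorem Om_le_Ak (hu : u ∈ Om p q) : u ∈ Ak (p + q) := by
  refine ⟨fun p' q' => ?_, fun x hx => Ty_le_Dg (hu.1.1 x hx).1⟩
  by_cases h : p' = p ∧ q' = q
  · obtain ⟨rfl, rfl⟩ := h
    exact Om_congr hu fun x hx => pt_self (hu.1.1 x hx).1
  · exact Om_congr (zero_mem _) fun x hx => by
      rw [PT_apply, pt_of_mem (hu.1.1 x hx).1, if_neg h]; rfl

theorem Ak_congr (hu : u ∈ Ak k) (h : ∀ x ≠ 0, v.1 x = u.1 x) : v ∈ Ak k :=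
  ⟨fun p q => Om_congr (hu.1 p q) fun x hx => by simp [h x hx],
    fun x hx => by rw [h x hx]; exact hu.2 x hx⟩

theorem PT_Ak (hu : u ∈ Ak k) (p q : ℤ) : PT p q u ∈ Ak k := by
  by_cases h : p + q = k
  · rw [← h]; exact Om_le_Ak (hu.1 p q)
  · exact Ak_congr (zero_mem _) fun x hx => pt_of_Dg (hu.2 x hx) h

/-- Induction principle: a submodule containing all pure basic forms of degree `k` and all forms
vanishing away from the origin contains `Ak k`. -/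
theorem Ak_ind (K : Submodule ℂ (SM N)) (h0 : ∀ u : SM N, (∀ x ≠ 0, u.1 x = 0) → u ∈ K)
    (h : ∀ p q, p + q = k → ∀ u ∈ Om p q, u ∈ K) (hu : u ∈ Ak k) : u ∈ K := by
  rw [← sum_PT u]
  refine Submodule.sum_mem _ fun p _ => Submodule.sum_mem _ fun q _ => ?_
  by_cases e : p + q = k
  · exact h p q e _ (hu.1 p q)
  · exact h0 _ fun x hx => pt_of_Dg (hu.2 x hx) e

theorem Ak_of_zero (h : ∀ x ≠ 0, u.1 x = 0) : u ∈ Ak k := Ak_congr (zero_mem _) h

theorem DB_of_zero (s : Bool) (h : ∀ x ≠ 0, u.1 x = 0) {x : E N} (hx : x ≠ 0) :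
    (DB s u).1 x = 0 := by
  rw [DB_apply _ _ hx, db_congr (v := fun _ => 0) ((ne_zero_ev hx).mono h), db_const]

theorem DB_Ak (s : Bool) (hu : u ∈ Ak k) : DB s u ∈ Ak (k + 1) := by
  refine Ak_ind ((Ak (k + 1)).comap (DB s)) (fun u h => Ak_of_zero fun x hx => DB_of_zero s h hx)
    (fun p q e u hu => ?_) hu
  cases s
  · rw [← e, add_assoc]; exact Om_le_Ak (DB_Om hu)
  · rw [← e, add_right_comm]; exact Om_le_Ak (DB_Om' hu)

theorem DD_Ak (hu : u ∈ Ak k) : DD u ∈ Ak (k + 1) := add_mem (DB_Ak true hu) (DB_Ak false hu)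

theorem MF_Ak {g : E N → ℂ} (hg : ∀ x ≠ 0, ContDiffAt ℝ ∞ g x) (hm : Hm 0 0 g) (hu : u ∈ Ak k) :
    MF g hg u ∈ Ak k :=
  Ak_ind ((Ak k).comap (MF g hg)) (fun u h => Ak_of_zero fun x hx => by simp [h x hx])
    (fun p q e u hu => by rw [← e]; exact Om_le_Ak (MF_Om hg hm hu)) hu

theorem ML_add (u u' v : SM N) : ML (u + u') v = ML u v + ML u' v :=
  Subtype.ext (funext fun x => by simp [add_mul])

theorem ML_smul (c : ℂ) (u v : SM N) : ML (c • u) v = c • ML u v :=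
  Subtype.ext (funext fun x => by simp)

/-- Right multiplication. -/
noncomputable def MR (v : SM N) : SM N →ₗ[ℂ] SM N where
  toFun u := ML u v
  map_add' u u' := ML_add u u' v
  map_smul' c u := ML_smul c u v

theorem ML_Ak (hu : u ∈ Ak k) (hv : v ∈ Ak l) : ML u v ∈ Ak (k + l) := by
  refine Ak_ind ((Ak (k + l)).comap (MR v))
    (fun u h => Ak_of_zero fun x hx => by simp [MR, h x hx]) (fun p q e u hu => ?_) hu
  refine Ak_ind ((Ak (k + l)).comap (ML u))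
    (fun u h => Ak_of_zero fun x hx => by simp [h x hx]) (fun p' q' e' v hv => ?_) hv
  rw [← e, ← e', add_add_add_comm]
  exact Om_le_Ak (ML_Om hu hv)

theorem Ak_neg (hk : k < 0) (hu : u ∈ Ak k) {x : E N} (hx : x ≠ 0) : u.1 x = 0 := by
  rw [← sum_pt (u.1 x)]
  refine Finset.sum_eq_zero fun p hp => Finset.sum_eq_zero fun q hq => pt_of_Dg (hu.2 x hx) ?_
  simp only [rng, Finset.mem_Icc] at hp hq
  omega

theorem Ak_ct (hu : u ∈ Ak k) (s : Bool) {x : E N} (hx : x ≠ 0) : ct (vec s x) (u.1 x) = 0 := by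
  rw [← sum_pt (u.1 x), map_sum]
  refine Finset.sum_eq_zero fun p _ => ?_
  rw [map_sum]
  refine Finset.sum_eq_zero fun q _ => ?_
  cases s
  · exact ((hu.1 p q).1.1 x hx).2
  · exact (hu.1 p q).2 x hx

theorem pb_sum {α : Type} (t : Finset α) (f : E N → E N) (w : α → E N → Λ N) (y : E N) :
    pb f (fun z => ∑ i ∈ t, w i z) y = ∑ i ∈ t, pb f (w i) y := by simp [pb]

theorem pb_cpr_eq (hu : u ∈ Ak k) {x y : E N} (h : lf x y ≠ 0) (hy : y ≠ 0) :
    pb (cpr x) u.1 y = u.1 y := by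
  have e : u.1 = fun z => ∑ p ∈ rng N, ∑ q ∈ rng N, pt p q (u.1 z) := by
    funext z; rw [sum_pt]
  rw [e, pb_sum]
  refine Finset.sum_congr rfl fun p _ => ?_
  rw [pb_sum]
  refine Finset.sum_congr rfl fun q _ => ?_
  have h1 := hu.1 p q
  rw [← ext_zero]
  exact ext_eq h hy (h1.1.1 y hy).1 (fun s => by
    cases s
    · exact (h1.1.1 y hy).2
    · exact h1.2 y hy) h1.1.2

theorem exists_ext_Ak {x : E N} (hx : x ≠ 0) {w : E N → Λ N}
    (hw : ∀ᶠ y in 𝓝 x, ContDiffAt ℝ ∞ w y ∧ w y ∈ Dg k) :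
    ∃ u ∈ Ak k, u.1 =ᶠ[𝓝 x] pb (cpr x) w := by
  have h1 : ∀ p q : ℤ, ∃ u ∈ Ak k, u.1 =ᶠ[𝓝 x] pb (cpr x) fun y => pt p q (w y) := by
    intro p q
    by_cases e : p + q = k
    · obtain ⟨u, h1, h2, h3⟩ := exists_ext hx (p := p) (q := q) 0 (v := fun y => pt p q (w y))
        (hw.mono fun y hy => ⟨sm_T _ hy.1, pt_mem _ _ _⟩)
      exact ⟨u, e ▸ Om_le_Ak ⟨h1, h2⟩, by rwa [ext_zero] at h3⟩
    · refine ⟨0, zero_mem _, ((cpr_tendsto hx).eventually hw).mono fun y hy => ?_⟩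
      simp [pb, pt_of_Dg hy.2 e]
  choose U hU hU' using h1
  refine ⟨∑ p ∈ rng N, ∑ q ∈ rng N, U p q,
    Submodule.sum_mem _ fun p _ => Submodule.sum_mem _ fun q _ => hU p q, ?_⟩
  have : ∀ᶠ y in 𝓝 x, ∀ p ∈ rng N, ∀ q ∈ rng N,
      (U p q).1 y = pb (cpr x) (fun y => pt p q (w y)) y :=
    (eventually_all_finset _).2 fun p _ => (eventually_all_finset _).2 fun q _ => hU' p q
  filter_upwards [this] with y hy
  have e : w = fun z => ∑ p ∈ rng N, ∑ q ∈ rng N, pt p q (w z) := by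
    funext z; rw [sum_pt]
  rw [e, pb_sum]
  simp only [Submodule.coe_sum, Finset.sum_apply]
  refine Finset.sum_congr rfl fun p hp => ?_
  rw [pb_sum]
  exact Finset.sum_congr rfl fun q hq => hy p hp q hq

variable {ι : Type} [Fintype ι] [DecidableEq ι] {F : ι → MP N} {d : ι → ℕ}

theorem stab_DB (h : IsCI F d) (s : Bool) {L : List (Bool × MP N)} (hL : DualL (cone F) L)
    (hs : ∀ j, (s, F j) ∈ L) (u : SM N) {x : E N} (hx : x ∈ cone F)
    (hn : ∀ᶠ y in 𝓝 x, y ∈ cone F → u.1 y ∈ ann (pl L y)) : (DB s u).1 x ∈ ann (pl L x) := by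
  rw [DB_apply _ _ hx.1]; exact stab h hx s hL hs (u.sm hx.1) hn

/-- The de Rham complex of the complete intersection. -/
noncomputable def dR (h : IsCI F d) : FD N where
  d := DD
  G := Ak
  C := cone F
  P y := ann (pl (fullL F) y)
  dG _ _ hu := DD_Ak hu
  stab u _ _ hx hn := add_mem (stab_DB h true h.dualL_full (mem_fullL _) u hx hn)
    (stab_DB h false h.dualL_full (mem_fullL _) u hx hn)
  dd _ u _ x hx _ := by rw [DD_DD u hx]; exact zero_mem _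
  cut _ _ hu _ hg hm := MF_Ak hg hm hu
  bdd := ⟨0, fun _ hq _ hu _ hx => Ak_neg hq hu hx⟩

omit [Fintype ι] [DecidableEq ι] in
theorem Vn_of_ev_Ak (h : IsCI F d) {L : List (Bool × MP N)} (hL : DualL (cone F) L) {x : E N}
    (hx : x ≠ 0) (hu : u ∈ Ak k) (hv : ∀ᶠ y in 𝓝 x, y ∈ cone F → u.1 y ∈ ann (pl L y)) :
    u ∈ Vn (cone F) (fun y => ann (pl L y)) (prP x) := by
  rw [← sum_PT u]
  exact Submodule.sum_mem _ fun p _ => Submodule.sum_mem _ fun q _ =>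
    Vn_of_ev h hL hx (hu.1 p q).1.2 (hv.mono fun y hy hc => ann_pl_pt L y (hy hc) p q)

/-- The product of closed forms is closed; products with exact forms are exact. -/
theorem DD_ML (u v : SM N) {x : E N} (hx : x ≠ 0) :
    (DD (ML u v)).1 x = (DD u).1 x * v.1 x + par (u.1 x) * (DD v).1 x := by
  rw [DD_apply _ hx, DD_apply _ hx, DD_apply _ hx]
  exact dd_mul (u.df hx) (v.df hx)

theorem ML_Z (h : IsCI F d) (hu : u ∈ (dR h).sh.gl.Z k) (hv : v ∈ (dR h).sh.gl.Z l) :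
    ML u v ∈ (dR h).sh.gl.Z (k + l) := by
  refine ⟨ML_Ak hu.1 hv.1, (dR h).mem_nul.2 fun y hy hc => ?_⟩
  change (DD (ML u v)).1 y ∈ ann _
  rw [DD_ML u v hy]
  exact add_mem (ann_mul_right ((dR h).mem_nul.1 hu.2 y hy hc) _)
    (ann_mul_left ((dR h).mem_nul.1 hv.2 y hy hc) _)

end Vale.Agent.P269.Hdg
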