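import Vale.Agent.P291Z.AS2

/-!
# Hodge types of cohomology classes of a complete intersection

`E N = ℂ^{N+1}`.  A family `F` of homogeneous polynomials defines the punctured affine cone
`cone F`; the projective variety is any space `X` with a quotient map `π : cone F → X` whose fibres
are the punctured lines.  Cohomology is Alexander-Spanier cohomology `P291Z.H X`.
A class has Hodge type `(p, q)` if it is represented by a cocycle which is smooth near the diagonal
and whose de Rham form (antisymmetrised mixed derivative at the diagonal) has type `(p, q)`.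
-/

namespace Vale.Agent.P269.Hdg

open MvPolynomial Topology Filter
open scoped ContDiff ComplexConjugate

/-- The affine space `ℂ^{N+1}`. -/
abbrev E (N : ℕ) : Type := Fin (N + 1) → ℂ

variable {N : ℕ} {ι : Type}

/-- The punctured affine cone. -/
def cone (F : ι → MvPolynomial (Fin (N + 1)) ℂ) : Set (E N) :=
  {x | x ≠ 0 ∧ ∀ j, eval x (F j) = 0}

/-- Homogeneous equations of degrees `d` satisfying the Jacobian criterion. -/
structure IsCI (F : ι → MvPolynomial (Fin (N + 1)) ℂ) (d : ι → ℕ) : Prop where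
  hom : ∀ j, (F j).IsHomogeneous (d j)
  pos : ∀ j, 1 ≤ d j
  jac : ∀ x ∈ cone F, LinearIndependent ℂ fun j => fun i => eval x (pderiv i (F j))

/-- `π` presents `X` as the projectivisation of the cone `C`. -/
structure IsProj {C : Set (E N)} {X : Type} [TopologicalSpace X] (π : C → X) : Prop where
  quot : IsQuotientMap π
  fib : ∀ x y : C, π x = π y ↔ ∃ t : ℂ, t • x.1 = y.1

/-- The tangent space of the cone. -/
def tang (F : ι → MvPolynomial (Fin (N + 1)) ℂ) (x : E N) : Set (E N) :=
  {v | ∀ j, ∑ i, eval x (pderiv i (F j)) * v i = 0}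

/-- The de Rham form of a function `f` of `k + 1` points: the antisymmetrised mixed derivative in
the last `k` points at the diagonal (`f₀ ⊗ ⋯ ⊗ f_k ↦ f₀ df₁ ∧ ⋯ ∧ df_k`). -/
noncomputable def form {k : ℕ} (f : (Fin (k + 1) → E N) → ℂ) (x : E N) (v : Fin k → E N) : ℂ :=
  ∑ σ : Equiv.Perm (Fin k), ((Equiv.Perm.sign σ : ℤ) : ℂ) *
    iteratedFDeriv ℝ k f (fun _ => x) fun i => Pi.single i.succ (v (σ i))

/-- `c ∈ H^{p,q}(X)`. -/
def IsHodge (F : ι → MvPolynomial (Fin (N + 1)) ℂ) {X : Type} [TopologicalSpace X]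
    (π : cone F → X) (p q : ℕ) (c : P291Z.H X) : Prop :=
  ∃ a : P291Z.Zs X, P291Z.IsDeg (p + q : ℕ) a.1 ∧ P291Z.H.mk a = c ∧
    ∀ x : cone F, ∃ f : (Fin (p + q + 1) → E N) → ℂ, ContDiff ℝ ∞ f ∧
      (∀ᶠ y : Fin (p + q + 1) → cone F in 𝓝 fun _ => x,
        a.1.1 (List.ofFn fun i => π (y i)) = f fun i => (y i).1) ∧
      ∀ (t : ℂ) (v : Fin (p + q) → E N), (∀ i, v i ∈ tang F x.1) →
        form f x.1 (t • v) = t ^ p * conj t ^ q * form f x.1 v

end Vale.Agent.P269.Hdg
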