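import Vale.Agent.P269.Hdg.Final

/-!
# The conjugate complete intersection
-/

namespace Vale.Agent.P269.Hdg.Ex

open MvPolynomial Module
open scoped ComplexConjugate

variable {N : ℕ} {ι : Type} [Fintype ι] [DecidableEq ι] {F : ι → MP N} {d : ι → ℕ}

/-- The image of the filtered piece in de Rham cohomology. -/
noncomputable def RF (h : IsCI F d) (s : Bool) (r k : ℤ) : Submodule ℂ ((Ac h).H k) :=
  LinearMap.range ((toA h s r).map k)

theorem finrank_FH_eq (h : IsCI F d) {X : Type} [TopologicalSpace X] {π : cone F → X}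
    (hπ : IsProj π) (s : Bool) (r k : ℤ) : finrank ℂ (FH h hπ s r k) = finrank ℂ (RF h s r k) := by
  rw [FH, LinearMap.range_comp]
  exact (Submodule.equivMapOfInjective _ (cmp_inj h hπ) _).finrank_eq.symm

/-- The conjugate equations. -/
noncomputable def cjF (F : ι → MP N) (j : ι) : MP N := map (starRingEnd ℂ) (F j)

theorem eval_cj (f : MP N) (x : E N) :
    eval x (map (starRingEnd ℂ) f) = conj (eval (cjE N x) f) := by
  induction f using MvPolynomial.induction_on with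
  | C a => simp
  | add p q a b => simp [a, b]
  | mul_X p i a => simp [a]

theorem map_cj_cj (f : MP N) : map (starRingEnd ℂ) (map (starRingEnd ℂ) f) = f := by
  ext α; simp [coeff_map]

omit [Fintype ι] [DecidableEq ι] in
theorem mem_cone_cj {F' : ι → MP N} (e : ∀ j, F' j = map (starRingEnd ℂ) (F j)) {x : E N}
    (hx : x ∈ cone F) : cjE N x ∈ cone F' :=
  ⟨cjE_ne hx.1, fun j => by rw [e, eval_cj, cjE_cjE, hx.2, map_zero]⟩

theorem dEval_cj (f : MP N) (x v : E N) :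
    dEval (map (starRingEnd ℂ) f) (cjE N x) (cjE N v) = conj (dEval f x v) := by
  simp [dEval_apply, pderiv_map, eval_cj, cjE_cjE, -eval_map]

theorem isCI_cj (h : IsCI F d) : IsCI (cjF F) d := by
  refine ⟨fun j => (h.hom j).map _, h.pos, fun x hx => Fintype.linearIndependent_iff.2
    fun c hc j => ?_⟩
  have := Fintype.linearIndependent_iff.1 (h.jac _ (mem_cone_cj (F := cjF F)
    (fun j => (map_cj_cj _).symm) hx)) (fun j => conj (c j)) (funext fun i => by
      simpa [cjF, pderiv_map, eval_cj, -eval_map] using congrArg conj (congrFun hc i)) j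
  simpa using this

variable {F' : ι → MP N} (h : IsCI F d) (h' : IsCI F' d)
  (e : ∀ j, F' j = map (starRingEnd ℂ) (F j))

include h h' e in
theorem CJ_Nl {u : SM N} (hu : u ∈ Nl F') : CJ u ∈ Nl F := fun y hy => by
  obtain ⟨P, h1, -, h2⟩ := exists_prj h hy
  have h3 := mp_of_ann (h'.dualL_full.hasDual (mem_cone_cj e hy))
    (A := tr (P.restrictScalars ℝ) ∘ₗ tr (cjE N)) (forall_pl.2 fun a ha => ?_)
      (hu _ (mem_cone_cj e hy))
  · have := h2 ((CJ u).1 y)
    rwa [CJ_apply, mp_mp, h3, zero_sub, neg_mem_iff] at this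
  · obtain ⟨j, hj⟩ := of_mem_fullL ha
    ext v
    simp [df, hj, e, dEval_cj, mem_tang.1 (h1 v) j]

/-- Conjugation as a map of the de Rham complexes. -/
noncomputable def cjA : Cx.Hom (Ac h') (Ac h) :=
  ⟨CJ, 1, one_ne_zero, fun _ _ hu => (CJ_Fk (Fk_of_Ak (s := true) le_rfl hu)).1,
    fun _ hu => (Ac_nul h).2 (CJ_Nl h h' e ((Ac_nul h').1 hu)), fun _ u _ => by
      rw [one_smul]
      exact (Ac_nul h).2 (Z0_le_Nl fun x hx => sub_eq_zero.2 (DD_CJ u hx).symm)⟩

theorem cjA_qiso (k : ℤ) : (cjA h h' e).Inj k ∧ (cjA h h' e).Surj k := by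
  have e' : ∀ j, F j = map (starRingEnd ℂ) (F' j) := fun j => by rw [e, map_cj_cj]
  exact ⟨fun u _ hu => mem_of_eq ((cjA h' h e').map_B hu) (CJ_CJ u).symm, fun w hw =>
    ⟨CJ w, (cjA h' h e').map_Z hw, mem_of_eq (zero_mem _) (sub_eq_zero.2 (CJ_CJ w).symm)⟩⟩

theorem Ac_h_cj (h : IsCI F d) (k : ℤ) : (Ac (isCI_cj h)).h k = (Ac h).h k :=
  have := cjA_qiso h (isCI_cj h) (fun _ => rfl) k
  Cx.Hom.h_eq _ this.1 this.2

theorem finrank_RF_cj (h : IsCI F d) (r k : ℤ) :
    finrank ℂ (RF (isCI_cj h) true r k) ≤ finrank ℂ (RF h false r k) := by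
  have : FiniteDimensional ℂ ((Ac h).H k) := (Ac_good h).1 k
  have a := (Cx.Hom.inj_iff _).1 (cjA_qiso h (isCI_cj h) (fun _ => rfl) k).1
  refine (Submodule.equivMapOfInjective _ a _).finrank_eq.trans_le (Submodule.finrank_mono ?_)
  rintro _ ⟨_, ⟨x, rfl⟩, rfl⟩
  obtain ⟨u, hu, rfl⟩ := Cx.exists_cl x
  have b : CJ u ∈ (Fc h false r).Z k := ⟨CJ_Fk hu.1,
    ((cjA h (isCI_cj h) fun _ => rfl).map_Z ((toA _ true r).map_Z hu)).2⟩
  refine ⟨Cx.cl _ b, ?_⟩
  rw [Cx.Hom.map_cl, Cx.Hom.map_cl, Cx.Hom.map_cl]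
  exact (Cx.cl_eq_cl _ _).2 (mem_of_eq (zero_mem _) (sub_self (CJ u)))

end Vale.Agent.P269.Hdg.Ex
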