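import Vale.Agent.P269.Hdg.Near
import Vale.Agent.P272.K.Stmt

/-!
# A complete intersection as a complex manifold: the data of the charts
-/

namespace Vale.Agent.P269.Hdg.Ex

open MvPolynomial
open Vale.Agent.P272.K (Cm Chart At)

/-- `M` is the projectivisation of the cone of `F`, embedded by `ε` in the space of projectors;
the chart `e` is induced by `p e`, and `σ e` is a holomorphic section over it with values in the
affine hyperplane `lf (b e) = 1`. -/
structure Mdl {N : ℕ} {ι : Type} (F : ι → MvPolynomial (Fin (N + 1)) ℂ) {n : ℕ} {M : Type}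
    [TopologicalSpace M] [ChartedSpace (Cm n) M] (ε : M → TT N) (b : Chart n M → E N)
    (σ : Chart n M → Cm n → E N) (p : Chart n M → E N → Cm n) : Prop where
  emb : Topology.IsEmbedding ε
  srj : ∀ y ∈ cone F, ∃ m, ε m = prP y
  an : ∀ e m, At e m → AnalyticAt ℂ (σ e) (e m)
  mem : ∀ e m, At e m → σ e (e m) ∈ cone F
  prp : ∀ e m, At e m → prP (σ e (e m)) = ε m
  lf1 : ∀ e m, At e m → lf (b e) (σ e (e m)) = 1
  pan : ∀ e m, At e m → ∀ y ∈ cone F, prP y = ε m → AnalyticAt ℂ (p e) y
  peq : ∀ e m, At e m → ∀ y ∈ cone F, prP y = ε m → p e y = e m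

end Vale.Agent.P269.Hdg.Ex
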