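import Vale.Agent.P269.Hdg.Sm

/-!
# Evaluation of forms on vectors
-/

namespace Vale.Agent.P269.Hdg.Ex

open scoped ComplexConjugate ContDiff
open Topology Filter

variable {N : ℕ} {ι : Type} [Fintype ι] [DecidableEq ι] {F : ι → MP N} {d : ι → ℕ}

/-- Evaluation of forms on the vectors `v`. -/
noncomputable def evl {k : ℕ} (v : Fin k → E N) : Λ N →ₗ[ℂ] ℂ :=
  ExteriorAlgebra.liftAlternating (Function.update 0 k (Matrix.detRowAlternating.compLinearMap
    (⟨⟨fun w j => w (v j), fun _ _ => rfl⟩, fun _ _ => rfl⟩ : W N →ₗ[ℂ] Fin k → ℂ)))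

theorem evl_wl {k : ℕ} (v : Fin k → E N) (w : Fin k → W N) : evl v (wl (List.ofFn w)) =
    ∑ σ : Equiv.Perm (Fin k), ((Equiv.Perm.sign σ : ℤ) : ℂ) * ∏ i, w i (v (σ i)) := by
  have h : wl (List.ofFn w) = ExteriorAlgebra.ιMulti ℂ k w := by
    rw [ExteriorAlgebra.ιMulti_apply, wl, List.map_ofFn]
    rfl
  rw [h]
  refine (ExteriorAlgebra.liftAlternating_apply_ιMulti _ w).trans ?_
  rw [Function.update_self]
  exact (Matrix.det_transpose _).symm.trans (Matrix.det_apply' _)

theorem evl_mp_Df {k : ℕ} {f : (Fin (k + 1) → E N) → ℂ} {x : E N}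
    (hf : ContDiffAt ℝ ∞ f fun _ => x) (A : E N →L[ℝ] E N) (v : Fin k → E N) :
    evl v (mp (tr A) (Df f x)) = form f x fun i => A (v i) := by
  simp only [mp_Df hf, map_sum, map_smul, evl_wl, form, smul_eq_mul, Finset.mul_sum]
  rw [Finset.sum_comm]
  refine Finset.sum_congr rfl fun σ _ => ?_
  have h (i : Fin k) : (Pi.single i.succ (A (v (σ i))) : Fin (k + 1) → E N) =
      ∑ j, (Module.finBasis ℝ (E N)).repr (v (σ i)) j • Pi.single i.succ (A (eR j)) := by
    conv_lhs => rw [← (Module.finBasis ℝ (E N)).sum_repr (v (σ i)), map_sum]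
    simp only [map_smul, eR, ← LinearMap.coe_single ℝ (fun _ => E N), map_sum]
  simp only [h]
  rw [ContinuousMultilinearMap.map_sum, Finset.mul_sum]
  refine Finset.sum_congr rfl fun τ _ => ?_
  rw [ContinuousMultilinearMap.map_smul_univ, Complex.real_smul, Complex.ofReal_prod,
    mul_left_comm, mul_comm (∏ _, _)]
  rfl

/-- The converse of `Df_type`. -/
theorem form_type (h : IsCI F d) {p q : ℕ} {f : (Fin (p + q + 1) → E N) → ℂ} {x : E N}
    (hx : x ∈ cone F) (hf : ContDiffAt ℝ ∞ f fun _ => x) {o : Λ N} (ho : o ∈ Ty p q)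
    (e : Df f x - o ∈ ann (pl (fullL F) x)) (t : ℂ) (v : Fin (p + q) → E N)
    (hv : ∀ i, v i ∈ tang F x) : form f x (t • v) = t ^ p * conj t ^ q * form f x v := by
  obtain ⟨P, h1, h2, -⟩ := exists_prj h hx
  have h3 := mp_of_ann (h.dualL_full.hasDual hx) (A := tr (P.restrictScalars ℝ))
    (forall_pl.2 fun a ha => ?_) e
  · rw [map_sub, sub_eq_zero] at h3
    have h4 := evl_mp_Df hf ((P.restrictScalars ℝ).comp (scal t)) v
    rw [← tr_comp, ← mp_mp, h3, mp_scal (mp_tr_mem P ho), ← h3, map_smul, evl_mp_Df hf,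
      zpow_natCast, zpow_natCast] at h4
    simp only [ContinuousLinearMap.comp_apply, ContinuousLinearMap.coe_restrictScalars',
      scal_apply, map_smul, h2 _ (hv _)] at h4
    exact h4.symm
  · obtain ⟨j, hj⟩ := of_mem_fullL ha
    ext w
    have := fderiv_tang h hx (sm_diff (sm_sg_eval a.1 (F j) x))
      (Eventually.of_forall fun z hz => by simp [hz.2 j]) (h1 w)
    rw [fderiv_sg_eval] at this
    rw [hj]
    exact this

end Vale.Agent.P269.Hdg.Ex
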