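import Vale.Agent.P269.Hdg.CmpB

/-!
# Every basic form is the form of a smooth cochain

The entries `P i j` of the projector onto the line through `y` are global invariant functions, and
a basic form `w` of degree `k + 1` satisfies
`(k + 1) w = ∑ dP i j ∧ ι(y j • e i) w + conjugate`, where the contractions are again basic.
-/

namespace Vale.Agent.P269.Hdg.Ex

open scoped ComplexConjugate ContDiff
open Topology Filter P291Z

variable {N : ℕ}

/-- The vector field `y ↦ y j • e i`. -/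
noncomputable def sjXi (i j : Fin (N + 1)) (y : E N) : E N := y j • ee i

theorem sm_sjXi (i j : Fin (N + 1)) (y : E N) (_ : y ≠ 0) : ContDiffAt ℝ ∞ (sjXi i j) y :=
  sm_smul (contDiffAt_apply ℝ ℂ j y) contDiffAt_const

theorem hm_sjXi (i j : Fin (N + 1)) : Hm 1 0 (sjXi i j) := fun t x _ _ => by
  simp [sjXi, smul_smul]

theorem sjCT_Om (s : Bool) {ξ : E N → E N} (h : ∀ x ≠ 0, ContDiffAt ℝ ∞ ξ x) (hm : Hm 1 0 ξ)
    {p q : ℤ} {u : SM N} (hu : u ∈ Om p q) :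
    CT s ξ h u ∈ Om (p - dl true s) (q - dl false s) := by
  have h0 : ∀ s', ∀ x ≠ 0, ct (vec s' x) ((CT s ξ h u).1 x) = 0 := fun s' x hx => by
    rw [CT_apply, ct_comm, Ak_ct (Om_le_Ak hu) s' hx, map_zero, neg_zero]
  refine ⟨⟨fun x hx => ⟨ct_mem_Ty (hu.1.1 x hx).1 s _, h0 _ x hx⟩, ?_⟩, h0 _⟩
  have := hu.1.2.ct s hm
  rwa [show 0 - p + 1 * dl true s = 0 - (p - dl true s) by ring,
    show -q + 1 * dl false s = -(q - dl false s) by ring] at this

theorem sjCT_Ak (s : Bool) {ξ : E N → E N} (h : ∀ x ≠ 0, ContDiffAt ℝ ∞ ξ x) (hm : Hm 1 0 ξ)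
    {k : ℤ} {u : SM N} (hu : u ∈ Ak (k + 1)) : CT s ξ h u ∈ Ak k := by
  refine Ak_ind ((Ak k).comap (CT s ξ h)) (fun u h => Ak_of_zero fun x hx => by simp [h x hx])
    (fun p q e u hu => ?_) hu
  have := Om_le_Ak (sjCT_Om s h hm hu)
  rwa [show p - dl true s + (q - dl false s) = k by cases s <;> simp <;> omega] at this

/-- The entries of the projector or their conjugates. -/
noncomputable def sjP (s : Bool) (i j : Fin (N + 1)) (y : E N) : ℂ := sgL s (prP y i j)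

theorem sm_sjP (s : Bool) (i j : Fin (N + 1)) {y : E N} (hy : y ≠ 0) :
    ContDiffAt ℝ ∞ (sjP s i j) y :=
  (sgL s).contDiff.contDiffAt.comp y (contDiffAt_pi.1 (contDiffAt_pi.1 (sm_prP hy) i) j)

theorem sum_fderiv_sjP (s : Bool) (i : Fin (N + 1)) {y : E N} (hy : y ≠ 0) :
    ∑ j, sg s (y j) • fderiv ℝ (sjP s i j) y =
      dz s i - sg s (y i) • ∑ j, sg s (conj (y j) * (nu y)⁻¹) • dz s j := by
  have h1 : (fun z : E N => ∑ j, sjP s i j z * dz s j z) =ᶠ[𝓝 y] dz s i :=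
    (ne_zero_ev hy).mono fun z hz => by
      have := congrArg (sg s) (congrFun (app_prP_self hz) i)
      simpa [app, sjP] using this
  have h2 : HasFDerivAt (fun z : E N => ∑ j, sjP s i j z * dz s j z)
      (∑ j, (sjP s i j y • dz s j + dz s j y • fderiv ℝ (sjP s i j) y)) y :=
    HasFDerivAt.fun_sum fun j _ =>
      (sm_diff (sm_sjP s i j hy)).hasFDerivAt.fun_mul (dz s j).hasFDerivAt
  have h3 := (h2.congr_of_eventuallyEq h1.symm).unique (dz s i).hasFDerivAt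
  rw [Finset.sum_add_distrib] at h3
  rw [← h3, Finset.smul_sum]
  simp only [dz_apply, sjP, prP, sgL_apply, smul_smul, ← map_mul, mul_assoc]
  abel

theorem sum_sjP (s : Bool) {y : E N} (hy : y ≠ 0) {o : Λ N} (ho : ct (vec s y) o = 0) :
    ∑ i, ∑ j, io (fderiv ℝ (sjP s i j) y) * ct (vec s (sjXi i j y)) o = num s o := by
  have h1 : ∀ i, ∑ j, io (fderiv ℝ (sjP s i j) y) * ct (vec s (sjXi i j y)) o =
      io (dz s i) * ct (vec s (ee i)) o - io (∑ j, sg s (conj (y j) * (nu y)⁻¹) • dz s j) *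
        (sg s (y i) • ct (vec s (ee i)) o) := fun i => by
    rw [mul_smul_comm, ← smul_mul_assoc, ← map_smul, ← sub_mul, ← map_sub,
      ← sum_fderiv_sjP s i hy, map_sum, Finset.sum_mul]
    refine Finset.sum_congr rfl fun j _ => ?_
    rw [sjXi, vec_smul, map_smul, map_smul, LinearMap.smul_apply, mul_smul_comm, smul_mul_assoc]
  have h2 : ∑ i, sg s (y i) • ct (vec s (ee i)) o = 0 := by
    rw [← ho, vec_eq_sum s y, map_sum, LinearMap.sum_apply]
    exact Finset.sum_congr rfl fun i _ => by rw [map_smul, LinearMap.smul_apply]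
  simp only [h1]
  rw [Finset.sum_sub_distrib, ← Finset.mul_sum, h2, mul_zero, sub_zero, num_apply]

theorem Dm_mul_delta {g : E N → ℂ} (hg : ∀ y ≠ 0, ContDiffAt ℝ ∞ g y)
    (hm : ∀ (t : ℂ) y, t ≠ 0 → g (t • y) = g y) {k : ℕ} {b : smA N} (hb : IsDeg k b.1) :
    ∃ a : smA N, IsDeg (k + 1 : ℕ) a.1 ∧
      ∀ x ≠ 0, (DM a).1 x = io (fderiv ℝ g x) * (DM b).1 x := by
  have hG : IsSm (ofG (k := 0) fun y => g (y 0)) :=
    isSm_ofG (fun y hy => (hg _ (hy 0)).comp y (contDiffAt_apply ℝ (E N) 0 y))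
      fun _ _ _ ht => hm _ _ (ht 0)
  have hd : IsDeg (1 : ℕ) (δ (ofG (k := 0) fun y : Fin 1 → E N => g (y 0))) :=
    (isDeg_ofG _).δ.cast (by simp)
  have h0 : Dm 0 (ofG (k := 0) fun y : Fin 1 → E N => g (y 0)) = fun x => g x • (1 : Λ N) :=
    funext fun x => by rw [Dm_zero]; rfl
  have h1 : ∀ x ≠ 0, Dm 1 (δ (ofG (k := 0) fun y : Fin 1 → E N => g (y 0))) x =
      io (fderiv ℝ g x) := fun x hx => by
    rw [Dm_delta (k := 0) hG hx, h0, dd_scalar (sm_diff (hg x hx))]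
  have h2 : IsDeg (k + 1 : ℕ) (b.1 * δ (ofG (k := 0) fun y : Fin 1 → E N => g (y 0))) :=
    (hb.mul hd).cast (by simp)
  refine ⟨((-1 : ℂ) ^ (k : ℤ)) • ⟨_, IsSm.mul b.2 hG.delta⟩, h2.smul _, fun x hx => ?_⟩
  obtain ⟨c, hc⟩ := Dm_mul b.2 hG.delta hb hd hx
  rw [dd_congr ((ne_zero_ev hx).mono h1), dd_io_fderiv (hg x hx), mul_zero, add_zero, h1 x hx] at hc
  rw [map_smul, Submodule.coe_smul, Pi.smul_apply, DM_of_isDeg h2 hx, hc, io_mul_eq,
    DM_of_isDeg hb hx, par_of_Dg (Dm_mem_Dg b.2 hx), smul_mul_assoc]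

theorem DM_surj_nat (k : ℕ) : ∀ w : SM N, w ∈ Ak k →
    ∃ a : smA N, IsDeg k a.1 ∧ ∀ x ≠ 0, (DM a).1 x = w.1 x := by
  induction k with
  | zero =>
    intro w hw
    have ht : ∀ x ≠ 0, w.1 x ∈ Ty 0 0 := fun x hx => Ty_of_Dg_zero (hw.2 x hx)
    have hG : IsSm (ofG (k := 0) fun y : Fin 1 → E N => sca (w.1 (y 0))) := by
      refine isSm_ofG (fun y hy => sm_sca ((w.sm (hy 0)).comp y (contDiffAt_apply ℝ (E N) 0 y)))
        fun y t hy h => ?_
      have := (hw.1 0 0).1.2 (t 0) (y 0) (h 0) (hy 0)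
      rw [PT_apply, PT_apply, pt_self (ht _ (hy 0)),
        pt_self (ht _ (smul_ne_zero (h 0) (hy 0)))] at this
      simp [this]
    have hd : IsDeg (0 : ℕ) (ofG (k := 0) fun y : Fin 1 → E N => sca (w.1 (y 0))) := isDeg_ofG _
    refine ⟨⟨_, hG⟩, hd, fun x hx => ?_⟩
    rw [DM_of_isDeg (a := ⟨_, hG⟩) hd hx, Dm_zero]
    exact (eq_sca (ht x hx)).symm
  | succ k ih =>
    intro w hw
    have h1 : ∀ (s : Bool) (i j : Fin (N + 1)), ∃ a : smA N, IsDeg (k + 1 : ℕ) a.1 ∧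
        ∀ x ≠ 0, (DM a).1 x =
          io (fderiv ℝ (sjP s i j) x) * ct (vec s (sjXi i j x)) (w.1 x) := fun s i j => by
      obtain ⟨b, hb, e⟩ := ih _ (sjCT_Ak s (sm_sjXi i j) (hm_sjXi i j) (by exact_mod_cast hw))
      obtain ⟨a, ha, e'⟩ := Dm_mul_delta (g := sjP s i j) (fun y hy => sm_sjP s i j hy)
        (fun t y ht => by rw [sjP, sjP, prP_smul ht]) hb
      exact ⟨a, ha, fun x hx => by rw [e' x hx, e x hx, CT_apply]⟩
    choose a ha e using h1
    have hk : (((k + 1 : ℕ) : ℤ) : ℂ) ≠ 0 := by exact_mod_cast k.succ_ne_zero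
    refine ⟨(((k + 1 : ℕ) : ℤ) : ℂ)⁻¹ • ((∑ i, ∑ j, a true i j) + ∑ i, ∑ j, a false i j), ?_,
      fun x hx => ?_⟩
    · simp only [Submodule.coe_smul, Submodule.coe_add, Submodule.coe_sum]
      exact IsDeg.smul _ ((IsDeg.sum fun i _ => IsDeg.sum fun j _ => ha _ i j).add
        (IsDeg.sum fun i _ => IsDeg.sum fun j _ => ha _ i j))
    · simp only [map_smul, map_add, map_sum, Submodule.coe_smul, Submodule.coe_add,
        Submodule.coe_sum, Pi.smul_apply, Pi.add_apply, Finset.sum_apply, e _ _ _ x hx]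
      rw [sum_sjP true hx (Ak_ct hw _ hx), sum_sjP false hx (Ak_ct hw _ hx),
        mem_Dg.1 (hw.2 x hx), smul_smul, inv_mul_cancel₀ hk, one_smul]

theorem DM_surj {k : ℤ} {w : SM N} (hw : w ∈ Ak k) :
    ∃ a : smA N, IsDeg k a.1 ∧ ∀ x ≠ 0, (DM a).1 x = w.1 x := by
  by_cases hk : k < 0
  · exact ⟨0, isDeg_zero k, fun x hx => by rw [map_zero, Ak_neg hk hw hx]; rfl⟩
  lift k to ℕ using by omega
  exact DM_surj_nat k w hw

end Vale.Agent.P269.Hdg.Ex
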