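import Vale.Agent.P269.Hdg.ExE
import Vale.Agent.P269.Hdg.ExS
import Vale.Agent.P269.Hdg.Final

/-!
# Classes in the Hodge filtration and in its conjugate have pure type
-/

namespace Vale.Agent.P269.Hdg.Ex

open scoped ComplexConjugate ContDiff
open Topology Filter

variable {N : ℕ} {ι : Type} [Fintype ι] [DecidableEq ι] {F : ι → MP N} {d : ι → ℕ}
  {X : Type} [TopologicalSpace X] {π : cone F → X} (h : IsCI F d) (hπ : IsProj π)

namespace ExH

/-- A form of degree `p + q - 1` is the sum of a form in `F^p` and of a form in the conjugate of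
`F^q`. -/
theorem mem_sup {k p q : ℤ} (e : p + q - 1 = k) {w : SM N} (hw : w ∈ Ak k) :
    w ∈ Fk true p k ⊔ Fk false q k := by
  refine Ak_ind _ (fun u hu => Submodule.mem_sup_left (Fk_of_zero hu)) (fun p' q' e' u hu => ?_) hw
  by_cases hp : p ≤ p'
  · exact Submodule.mem_sup_left (Om_le_Fk hu e' hp)
  · exact Submodule.mem_sup_right (Om_le_Fk hu e' (show q ≤ q' by omega))

omit [DecidableEq ι] in
theorem sub_PT {p q : ℤ} {a b : SM N} (ha : a ∈ Fk true p (p + q)) (hb : b ∈ Fk false q (p + q))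
    (e : a - b ∈ Nl F) : a - PT p q a ∈ Nl F := fun y hy => by
  rw [← sum_pt ((a - PT p q a).1 y)]
  refine Submodule.sum_mem _ fun p' _ => Submodule.sum_mem _ fun q' _ => ?_
  rw [Submodule.coe_sub, Pi.sub_apply, PT_apply, map_sub, pt_of_mem (pt_mem p q _)]
  split_ifs with c
  · rw [c.1, c.2, sub_self]; exact zero_mem _
  rw [sub_zero]
  by_cases c1 : p' + q' = p + q
  · by_cases c2 : p' < p
    · rw [ha.2 p' q' c2 y hy.1]; exact zero_mem _
    · have := ann_pl_pt _ y (e y hy) p' q'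
      rwa [Submodule.coe_sub, Pi.sub_apply, map_sub, hb.2 p' q' (show q' < q by omega) y hy.1,
        sub_zero] at this
  · rw [pt_of_Dg (ha.1.2 y hy.1) c1]; exact zero_mem _

theorem DD_Nl (h : IsCI F d) {u : SM N} (hu : u ∈ Nl F) : DD u ∈ Nl F :=
  (Ac_nul h (u := DD u)).1 ((Ac h).dnul u ((Ac_nul h).2 hu))

/-- A function which is smooth near a point agrees near the point with a smooth function. -/
theorem exists_contDiff {V : Type} [NormedAddCommGroup V] [NormedSpace ℝ V] [FiniteDimensional ℝ V]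
    {g : V → ℂ} {x : V} (hg : ∀ᶠ y in 𝓝 x, ContDiffAt ℝ ∞ g y) :
    ∃ f : V → ℂ, ContDiff ℝ ∞ f ∧ f =ᶠ[𝓝 x] g := by
  obtain ⟨O, hO, hOo, hxO⟩ := eventually_nhds_iff.1 hg
  obtain ⟨φ, h0, h1, -⟩ := exists_contMDiffMap_zero_one_nhds_of_isClosed (n := ⊤)
    (modelWithCornersSelf ℝ V) hOo.isClosed_compl (isClosed_singleton (x := x))
    (by simpa using hxO)
  refine ⟨fun y => φ y • g y, contDiff_iff_contDiffAt.2 fun y => ?_,
    (h1.filter_mono (nhds_le_nhdsSet (Set.mem_singleton x))).mono fun y hy => by simp [hy]⟩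
  by_cases hy : y ∈ O
  · exact φ.contMDiff.contDiff.contDiffAt.smul (hO y hy)
  · exact contDiffAt_const.congr_of_eventuallyEq (f := fun _ => 0)
      ((h0.filter_mono (nhds_le_nhdsSet hy)).mono fun z hz => by simp [hz])

end ExH

theorem exists_pure {p q : ℤ} {c : P291Z.H X} (h1 : c ∈ FH h hπ true p (p + q))
    (h2 : c ∈ FH h hπ false q (p + q)) :
    ∃ u, ∃ hu : u ∈ (Ac h).Z (p + q), u ∈ Om p q ∧ cmp h hπ _ (Cx.cl u hu) = c := by
  obtain ⟨u, hu, h3, rfl⟩ := (mem_FH h hπ).1 h1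
  obtain ⟨v, hv, h4, e⟩ := (mem_FH h hπ).1 h2
  obtain ⟨w, hw, e1⟩ := (dR_B h (u := u - v)).1 ((Cx.cl_eq_cl hu hv).1 (cmp_inj h hπ e.symm))
  obtain ⟨w₁, hw₁, w₂, hw₂, rfl⟩ := Submodule.mem_sup.1 (ExH.mem_sup rfl hw)
  have k1 := DD_Fk hw₁
  have k2 := DD_Fk hw₂
  rw [sub_add_cancel] at k1 k2
  have e2 : (u - DD w₁ : SM N) - (v + DD w₂) ∈ Nl F := by
    have : (u - DD w₁ : SM N) - (v + DD w₂) = (u - v) - DD (w₁ + w₂) := by rw [map_add]; abel
    rw [this]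
    exact e1
  have e3 := ExH.sub_PT (sub_mem h3 k1) (add_mem h4 k2) e2
  have ha : (u - DD w₁ : SM N) ∈ Ak (p + q) := (sub_mem h3 k1).1
  have e4 : DD (u - DD w₁ : SM N) ∈ Nl F := by
    rw [map_sub]
    exact sub_mem ((Ac_nul h (u := DD u)).1 hu.2) (Z0_le_Nl fun _ hx => DD_DD _ hx)
  have e5 := sub_mem e4 (ExH.DD_Nl h e3)
  rw [← map_sub, sub_sub_cancel] at e5
  have h5 : PT p q (u - DD w₁) ∈ (Ac h).Z (p + q) := (dR_Z h).2 ⟨PT_Ak ha p q, e5⟩
  refine ⟨_, h5, ha.1 p q, congrArg _ ((Cx.cl_eq_cl hu h5).2 ?_).symm⟩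
  refine (dR_B h (u := u - PT p q (u - DD w₁))).2 ⟨w₁, hw₁.1, ?_⟩
  rw [sub_right_comm] at e3
  exact e3

theorem isHodge_cmp {p q : ℕ} {u : SM N} (hu : u ∈ (Ac h).Z ((p : ℤ) + q)) (h1 : u ∈ Om p q) :
    IsHodge F π p q (cmp h hπ _ (Cx.cl u hu)) := by
  obtain ⟨a, ha, e⟩ := exists_SmZ h hu
  obtain ⟨w, hw, e1⟩ := (dR_B h).1 e
  obtain ⟨b, hb, eb⟩ := DM_surj hw
  obtain ⟨c, hc⟩ : ∃ c : smA N, c.1 = P291Z.δ b.1 := ⟨⟨_, IsSm.delta b.2⟩, rfl⟩
  have h2 : P291Z.IsDeg ((p + q : ℕ) : ℤ) (a + c).1 := by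
    rw [Submodule.coe_add, hc]
    exact (ha.1.add (hb.δ.cast (by ring))).cast (by simp)
  have h3 : SmZ F ((p : ℤ) + q) (a + c) := ⟨h2.cast (by simp), fun x => by
    rw [Submodule.coe_add, hc, map_add, P291Z.δ_δ, add_zero]; exact ha.2 x⟩
  have e2 : ∀ y ∈ cone F, u.1 y - (DM (a + c)).1 y ∈ ann (pl (fullL F) y) := fun y hy => by
    have e3 := DD_of_zero (u := DM b - w) (fun x hx => sub_eq_zero.2 (eb x hx)) hy.1
    rw [map_sub, Submodule.coe_sub, Pi.sub_apply, sub_eq_zero] at e3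
    rw [map_add, Submodule.coe_add, Pi.add_apply, DM_δ hc hb hy.1, e3, ← sub_sub]
    exact e1 y hy
  rw [cmp_eq h hπ hu h3 (Cx.nul_le_B ((dR_nul h).2 e2))]
  refine ⟨⟨rs hπ (a + c).1, h3.cyc h hπ⟩, h2.pull _, (P291Z.hcls_of_mem _).symm, fun x => ?_⟩
  obtain ⟨f, hf, ef⟩ := ExH.exists_contDiff
    (IsSm.ofFn_ev (a + c).2 (y := fun _ : Fin (p + q + 1) => x.1) fun _ => x.2.1)
  refine ⟨f, hf, ?_, form_type h x.2 hf.contDiffAt (h1.1.1 x.1 x.2.1).1 ?_⟩
  · have hc : Continuous fun (y : Fin (p + q + 1) → cone F) i => (y i).1 := by fun_prop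
    filter_upwards [(hc.tendsto fun _ => x).eventually ef] with y hy
    have := rs_val hπ (a + c).2 (List.ofFn y)
    rw [List.map_ofFn, List.map_ofFn] at this
    exact this.trans hy.symm
  · have := neg_mem (e2 x.1 x.2)
    rw [neg_sub, DM_of_isDeg h2 x.2.1] at this
    rwa [Df_congr ef]

theorem isHodge_of_FH {p q : ℕ} {c : P291Z.H X} (h1 : c ∈ FH h hπ true p (p + q))
    (h2 : c ∈ FH h hπ false q (p + q)) : IsHodge F π p q c := by
  obtain ⟨u, hu, h3, rfl⟩ := exists_pure h hπ h1 h2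
  exact isHodge_cmp h hπ hu h3

end Vale.Agent.P269.Hdg.Ex
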