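import Vale.Agent.P281Z.Hg.One
import Vale.Agent.P281Z.Hg.F2a
import Vale.Agent.P281Z.Hg.F2b
import Vale.Agent.P281Z.Hg.K1b
import Vale.Agent.P281Z.Hg.Ab0a
import Vale.Agent.P281Z.Hg.Ab0b
import Vale.Agent.P281Z.Hg.Ab1
import Vale.Agent.P281Z.Hg.Vt2
import Vale.Agent.P281Z.Hg.Vt3
import Vale.Agent.P281Z.Hg.Zr
import Vale.Agent.P281Z.Hg.Zi
import Vale.Agent.P281Z.Hg.Lt
import Vale.Agent.P281Z.Hg.G3
import Vale.Agent.P281Z.Hg.G4
import Vale.Agent.P269.Hdg.G5c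
import Vale.Agent.P281Z.Hg.G6
import Vale.Agent.P281Z.Hg.G7
import Vale.Agent.P281Z.Hg.Po1
import Vale.Agent.P281Z.Hg.Po2
import Vale.Agent.P281Z.Hg.Po3

/-!
# On a compact Kaehler manifold the Hodge filtration is opposed to its conjugate
-/

namespace Vale.Agent.P269.Hdg.Ex

open scoped Manifold ContDiff Topology
open Filter Vale.Agent.P272.K Vale.Agent.P281Z.Hg

section
variable {S : Type} [AddCommGroup S] [Module ℂ S] {D : ℕ} {X : Cx S D}

theorem nul_of_types {K : KP X} (h : K.OK) (hb : K.KIb) (hh : K.KH) {p : ℕ} {z z' y : S}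
    (hz : X.d z = 0) (h1 : ∀ j < p, K.pr j z = 0) (h2 : ∀ j, p ≤ j → K.pr j z' = 0)
    (e : z - z' = X.d y) : z ∈ X.Nul := by
  refine ⟨hz, fun a ha => ?_⟩
  obtain ⟨v, hv⟩ := hh.ex a ha
  obtain ⟨C, -, hC⟩ := hb.bQ
  have k1 : ∀ j ∈ Finset.range (D + 1),
      Tendsto (fun s => X.Q z (K.pr j (v s))) atTop (𝓝 0) := fun j hj => by
    have hj' : D - j + j = D := by have := Finset.mem_range.1 hj; omega
    by_cases c : D - j < p
    · simp only [← h.alg.Qpr _ _ _ _ hj', h1 _ c, map_zero, LinearMap.zero_apply]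
      exact tendsto_const_nhds
    · have k2 : ∀ s, X.Q z (K.pr j (v s)) = -X.Q y (X.d (K.pr j (v s))) := fun s => by
        rw [← h.cx.Qd, ← e, map_sub, LinearMap.sub_apply, ← h.alg.Qpr _ _ z' _ hj',
          h2 _ (not_lt.1 c), map_zero, LinearMap.zero_apply, sub_zero]
      have k3 := (hh.hpr j hv.toHar).d.const_mul (C * K.nrm y)
      rw [mul_zero] at k3
      refine squeeze_zero_norm (fun s => ?_) k3
      rw [k2, norm_neg]
      exact hC _ _
  have k4 := tendsto_finsetSum _ k1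
  simp only [← map_sum, ← LinearMap.sum_apply, h.alg.pr_sum, Module.End.one_apply,
    Finset.sum_const_zero] at k4
  rw [h.cx.Qs, tendsto_nhds_unique (hh.Qlim' hz hv) k4, mul_zero]

open Lt in
theorem exact_of_nul {M : Type} [MetricSpace M] {E : LC M X} (h : E.OK) (hN : E.NC) {m : ℕ}
    (hP : PER M m) {u : S} (hu : X.Cl m u) (e : u ∈ X.Nul) : ∃ β, u = X.d β := by
  obtain ⟨⟨ε, hε, A, C, hA, hZ⟩, hU2⟩ := zr vt1 S D X M E h m
  obtain ⟨-, hU1⟩ := zi' S D X M E h m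
  obtain ⟨r, c, p0, -, p2, p3, -⟩ := hP ε hε
  let per : S →ₗ[ℂ] Fin r → ℂ := LinearMap.pi fun i => ∑ l ∈ (c i).support, (c i l : ℂ) • A l
  have hper : ∀ u i, per u i = evc (fun l => A l u) (c i) := fun u i => by
    simp [per, evc, Finsupp.sum, LinearMap.sum_apply]
  have hb : ∀ u i, ‖per u i‖ ≤ (∑ l ∈ (c i).support, ‖(c i l : ℂ)‖ * C) * E.nrm u := fun u i => by
    rw [hper, evc, Finsupp.sum, Finset.sum_mul]
    refine norm_sum_le_of_le _ fun l hl => ?_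
    rw [norm_mul, mul_assoc]
    exact mul_le_mul_of_nonneg_left (hA l u (p0 i l hl).1) (norm_nonneg _)
  have hc : ∀ u, X.Cl m u → Coc ε m fun l => A l u := fun u hu => zg_coc vt1 h (hZ u hu)
  have e0 : ∀ β, X.Cl m (X.d β) → per (X.d β) = 0 := fun β hβ => funext fun i => by
    obtain ⟨η, k1, k2⟩ := hU2 ε hε
    exact (hper _ i).trans (p2 _ η (hc _ hβ) k1 (k2 β _ (hZ _ hβ)) i)
  have Nz : per u = 0 := funext fun i => by
    obtain ⟨y, hy⟩ := hN u e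
    have k1 : ∀ y, per (X.dg m (X.d y)) = 0 := fun y => by
      obtain ⟨β, k⟩ : ∃ β, X.dg m (X.d y) = X.d β := by
        cases m with
        | zero => exact ⟨0, (LinearMap.congr_fun h.cx.dg0_d y).trans (map_zero _).symm⟩
        | succ m => exact ⟨_, LinearMap.congr_fun (h.cx.dg_d m) y⟩
      rw [k]
      refine e0 β ⟨h.cx.dd β, ?_⟩
      rw [← k]
      exact LinearMap.congr_fun ((h.cx.dg_mul m m).trans (if_pos rfl)) _
    have k2 := (squeeze_zero (fun s => h.nn _) (fun s => h.dgb m _) hy).const_mul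
      (∑ l ∈ (c i).support, ‖(c i l : ℂ)‖ * C)
    rw [mul_zero] at k2
    refine norm_le_zero_iff.1 (ge_of_tendsto' k2 fun s => ?_)
    refine le_of_eq_of_le ?_ (hb _ i)
    rw [map_sub, map_sub, hu.2, k1, sub_zero]
  obtain ⟨η, k1, k2⟩ := p3 _ (hc u hu) fun i => (hper u i).symm.trans (congrFun Nz i)
  exact hU1 _ u _ (lt_min hε k1) (zg_mono (min_le_left _ _) (hZ u hu))
    (cob_mono (min_le_right _ _) k2)

end

theorem kahler_opp {n : ℕ} {M : Type} [MetricSpace M] [ChartedSpace (Cm n) M] [CompactSpace M]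
    [IsManifold 𝓘(ℂ, Cm n) ω M] {w : Rw n M (Matrix (Fin n) (Fin n) ℂ)} (hw : IsKahler w) :
    ∃ (X : Cx (SF n M) n) (K : KP X), RealX X ∧ X.OK ∧ RealK w K ∧
      ∀ (p k : ℕ) z z' y, X.Cl k z → (∀ j < p, K.pr j z = 0) → (∀ j, p ≤ j → K.pr j z' = 0) →
        z - z' = X.d y → ∃ β, z = X.d β := by
  have f2 := f2b f1a f1b f2a
  have k1 := k1a f1a f1b
  have a1 := g1 f1a f2 k1b' n M
  have a2 := g2 f1a f1b k1 k1b' a1
  have a4 := g4 f1a f1b f2 a1
  obtain ⟨X, hX, hok⟩ := a2.1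
  obtain ⟨⟨K, hK⟩, halg⟩ := g3 f1a f1b f2 k1 a1 a2 a4 X w hX hok hw
  obtain ⟨-, -, hl2⟩ := a4 X w K hX hw hK
  have hal := halg K hK hl2
  have ha := KP.kia f2a hok hal
  have hb := KP.kib f2a hok hal ha
  obtain ⟨⟨E, hE⟩, hEo⟩ := g7 k1 a1 a2 (g4b n M) X K hX hok hl2 hb
  have heo : E.OK := hEo E hE (pog' k1 (po1' k1) po2 a1 X K E hX hl2 hb hE)
  have hs1 : K.S1 := by
    intro u hu hd
    have h := zs vt1 zi' _ _ X M E heo u
    rw [hE.nrm] at h
    exact h hu hd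
  have hKo : K.OK :=
    ⟨hok, hal, G5c.g5 f2 a1 a4 X w K hX hok hw hK hal ha hb, hs1, g6 f1b k1 n M a1 X w K hX hK hl2 hb⟩
  have hh := KP.kh hKo ha hb
  refine ⟨X, K, hX, hok, hK, fun p k z z' y hz h1 h2 e => exact_of_nul heo (fun z hz => ?_)
    (vt3 vt1 M k (vt2' M (ulcg n M) k)) hz (nul_of_types hKo hb hh hz.1 h1 h2 e)⟩
  rw [hE.nrm]
  exact hh.nc z hz

end Vale.Agent.P269.Hdg.Ex
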