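import Vale.Agent.P269.Hdg.ExC
import Vale.Agent.P269.Hdg.PrimGeo

/-!
# The dimensions of the Hodge filtration and of its conjugate
-/

namespace Vale.Agent.P269.Hdg.Ex

open MvPolynomial Module

variable {N : ℕ} {ι : Type} [Fintype ι] [DecidableEq ι] {F : ι → MP N} {d : ι → ℕ}
  (h : IsCI F d) {n : ℕ} (hn : n + Fintype.card ι = N)
  (hb : ∀ j : ℕ, j ≤ n → 0 < (Ac h).h (2 * j))

namespace ExN

theorem RF_le (r k : ℤ) : finrank ℂ (RF h true r k) ≤
    finrank ℂ (RF h true (r + 1) k) + (Wc h r).h (k - r) := by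
  have : FiniteDimensional ℂ ((Fc h true r).H k) := (Fc_good h r).1 k
  have : FiniteDimensional ℂ (((Wc h r).shift (-r)).H k) :=
    ((Cx.shift_good _).2 (Wc_good h r)).1 k
  have h1 := rank_le ((F_ses h r).exact_mid k) ((toA h true r).map k)
  have h2 : (toA h true r).map k ∘ₗ (incF h true r).map k = (toA h true (r + 1)).map k :=
    LinearMap.ext fun x => by obtain ⟨u, hu, rfl⟩ := Cx.exists_cl x; rfl
  rw [h2] at h1
  exact h1.trans (add_le_add le_rfl (Cx.shift_h (-r)).le)

theorem RF_top (s : Bool) {r : ℤ} (hr : r ≤ 0) (k : ℤ) :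
    finrank ℂ (RF h s r k) = (Ac h).h k := by
  rw [RF, LinearMap.range_eq_top.2 ((toA h s r).surj_iff.1 (toA_qiso h hr k).2), finrank_top]
  rfl

theorem RF_bot {r : ℤ} (hr : (N : ℤ) - Fintype.card ι < r) (k : ℤ) :
    finrank ℂ (RF h true r k) = 0 := by
  have := Cx.exact_iff.1 (Fc_exact h (s := true) hr k)
  rw [RF, LinearMap.range_eq_bot.2 (LinearMap.ext fun x => by
    rw [Subsingleton.elim x 0, map_zero, map_zero]), finrank_bot]

theorem h_le (m : ℕ) (k : ℤ) : (Ac h).h k ≤
    finrank ℂ (RF h true m k) + ∑ r ∈ Finset.range m, (Wc h r).h (k - r) := by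
  induction m with
  | zero => exact (RF_top h true le_rfl k).ge
  | succ m ih =>
    have := RF_le h m k
    rw [Finset.sum_range_succ, Nat.cast_succ]
    omega

theorem sum_even (f : ℕ → ℤ) (m : ℕ) : ∑ k ∈ Finset.range (2 * m + 1), (if Even k then f k else 0) =
    ∑ r ∈ Finset.range (m + 1), f (2 * r) := by
  induction m with
  | zero => simp
  | succ m ih =>
    rw [show 2 * (m + 1) + 1 = 2 * m + 1 + 1 + 1 by ring, Finset.sum_range_succ,
      Finset.sum_range_succ, ih, if_neg (by simp), if_pos (by simp [Nat.even_add_one]), add_zero,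
      Finset.sum_range_succ _ (m + 1)]
    rfl

include hn

theorem W_zero {p q : ℤ} (h1 : p + q ≠ n) (h2 : p ≠ q) : (Wc h p).h q = 0 :=
  Nat.le_zero.1 ((Wc_h h (by omega)).trans (if_neg h2).le)

theorem off {k p : ℤ} (hk : k ≠ n) (hp : 2 * p ≤ k + 1) :
    (Ac h).h k ≤ finrank ℂ (RF h true p k) := by
  by_cases h0 : p ≤ 0
  · exact (RF_top h true h0 k).ge
  lift p to ℕ using by omega
  have := h_le h p k
  rwa [Finset.sum_eq_zero fun r hr => W_zero h hn (by omega)
    (by have := Finset.mem_range.1 hr; omega), add_zero] at this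

theorem h_le' (k : ℤ) : (Ac h).h k ≤ ∑ r ∈ Finset.range (n + 1), (Wc h r).h (k - r) := by
  have := h_le h (n + 1) k
  rwa [RF_bot h (by omega), zero_add] at this

theorem h_odd {k : ℕ} (hk : k ≠ n) (ho : ¬Even k) : (Ac h).h k = 0 := by
  have := h_le' h hn k
  rw [Nat.even_iff] at ho
  rwa [Finset.sum_eq_zero fun r _ => W_zero h hn (by omega) (by omega), Nat.le_zero] at this

include hb

theorem one {j : ℕ} (hj : j ≤ n) (hj' : 2 * j ≠ n) :
    (Ac h).h (2 * j) = 1 ∧ (Wc h j).h j = 1 := by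
  have h1 := h_le' h hn (2 * j)
  rw [Finset.sum_eq_single_of_mem j (Finset.mem_range.2 (by omega))
    fun r _ e => W_zero h hn (by omega) (by omega), show (2 * j - j : ℤ) = j by ring] at h1
  have h2 := Wc_h h (p := j) (q := j) (by omega)
  have h3 := hb j hj
  rw [if_pos rfl] at h2
  omega

theorem chiP_eq {r : ℕ} (hr : r ≤ n) : (-1) ^ r * chiP N (degL d : Multiset ℕ) r =
    (-1) ^ n * (Wc h r).h (n - r) + if 2 * r = n then 0 else 1 := by
  rw [← Wc_chi h, Cx.chi_eq_sum ((Finset.range (n + 1)).map Nat.castEmbedding)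
    fun k hk => (Wc_exact h (by
      by_contra h1
      lift k to ℕ using by omega
      simp at hk; omega)).h_eq, Finset.sum_map, Finset.mul_sum,
    Finset.sum_congr rfl (g := fun j => (if j = n - r then (-1 : ℤ) ^ n * (Wc h r).h (n - r) else 0)
      + if j = r then if 2 * r = n then 0 else 1 else 0) fun j _ => ?_, Finset.sum_add_distrib,
    Finset.sum_ite_eq', Finset.sum_ite_eq', if_pos (Finset.mem_range.2 (by omega)),
    if_pos (Finset.mem_range.2 (by omega))]
  rw [Nat.castEmbedding_apply, Int.coe_negOnePow_natCast, ← mul_assoc, ← pow_add]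
  by_cases e : j = n - r
  · rw [if_pos e, e, Nat.add_sub_cancel' hr, Nat.cast_sub hr]
    split_ifs <;> omega
  rw [if_neg e, zero_add]
  by_cases e' : j = r
  · rw [if_pos e', if_neg (by omega), e', (one h hn hb hr (by omega)).2, ← two_mul, pow_mul]
    simp
  · rw [if_neg e', W_zero h hn (by omega) (by omega)]
    simp

theorem W_eq {r : ℕ} (hr : r ≤ n) : ((Wc h r).h (n - r) : ℤ) =
    hp N (Finset.univ.val.map d) r + if 2 * r = n then 1 else 0 := by
  have h1 := chiP_eq h hn hb hr
  rw [coe_degL, ← cz_nat, cz_eq, dm_map hn, if_pos (by omega), sn_add, sn_nat, sn_nat] at h1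
  have h3 : ((-1 : ℤ) ^ r) * (-1) ^ r = 1 := by rw [← mul_pow]; simp
  have h4 : ((-1 : ℤ) ^ n) * (-1) ^ n = 1 := by rw [← mul_pow]; simp
  split_ifs at h1 ⊢ with e
  · have h5 : (-1 : ℤ) ^ n = 1 := by rw [← e, pow_mul]; simp
    rw [h5] at h1
    linear_combination -h1 + (1 + hp N _ r) * h3
  · linear_combination -(-1) ^ n * h1 + ((-1) ^ n + (-1) ^ n * (-1) ^ n * hp N _ r) * h3 +
      (hp N _ r - (Wc h r).h (n - r)) * h4

theorem h_mid : (Ac h).h n = ∑ r ∈ Finset.range (n + 1), (Wc h r).h (n - r) := by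
  have h1 := Ac_chi h hn
  rw [Cx.chi_eq_sum ((Finset.range (2 * n + 1)).map Nat.castEmbedding)
    fun k hk => (Ac_exact h (by
      by_contra h1
      lift k to ℕ using by omega
      simp at hk; omega)).h_eq, Finset.sum_map,
    Finset.sum_congr rfl (g := fun k => (if k = n then (-1 : ℤ) ^ n * (Ac h).h n else 0)
      + if Even k then if k = n then 0 else 1 else 0) fun k hk => ?_, Finset.sum_add_distrib,
    Finset.sum_ite_eq', if_pos (Finset.mem_range.2 (by omega)), sum_even,
    Finset.sum_congr (s₁ := Finset.range (n + 1)) (f := fun r => (-1) ^ r * chiP N _ r) rfl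
      fun r hr => chiP_eq h hn hb (Nat.lt_succ_iff.1 (Finset.mem_range.1 hr)),
    Finset.sum_add_distrib, add_left_inj, ← Finset.mul_sum, mul_right_inj' (by simp)] at h1
  · exact_mod_cast h1
  rw [Nat.castEmbedding_apply, Int.coe_negOnePow_natCast]
  by_cases e : k = n
  · rw [if_pos e, if_pos e, e, ite_self, add_zero]
  rw [if_neg e, if_neg e, zero_add]
  split_ifs with e'
  · obtain ⟨j, rfl⟩ := e'
    have := Finset.mem_range.1 hk
    rw [← two_mul, pow_mul, Nat.cast_mul, Nat.cast_two, (one h hn hb (by omega) (by omega)).1]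
    simp
  · rw [h_odd h hn e e']
    simp

end ExN

open ExN

include hn hb

theorem h_le_add {k p q : ℤ} (e : p + q = k + 1) :
    (Ac h).h k ≤ finrank ℂ (RF h true p k) + finrank ℂ (RF h false q k) := by
  have c := finrank_RF_cj h q k
  have hb' : ∀ j : ℕ, j ≤ n → 0 < (Ac (isCI_cj h)).h (2 * j) := fun j hj =>
    (hb j hj).trans_eq (Ac_h_cj h _).symm
  by_cases hk : k = n
  swap
  · by_cases hp : 2 * p ≤ k + 1
    · exact (off h hn hk hp).trans (Nat.le_add_right _ _)
    · exact ((Ac_h_cj h k).ge.trans ((off _ hn hk (by omega)).trans c)).trans (Nat.le_add_left _ _)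
  subst hk
  by_cases hp : p ≤ 0
  · exact (RF_top h true hp _).ge.trans (Nat.le_add_right _ _)
  by_cases hq : q ≤ 0
  · exact (RF_top h false hq _).ge.trans (Nat.le_add_left _ _)
  lift p to ℕ using by omega
  lift q to ℕ using by omega
  have h1 := h_le h p n
  have h2 := h_le (isCI_cj h) q n
  have h3 := h_mid h hn hb
  rw [show n + 1 = p + q by omega, Finset.sum_range_add, ← Finset.sum_range_reflect _ q,
    Finset.sum_congr (s₁ := Finset.range q) rfl (g := fun r => (Wc (isCI_cj h) r).h (n - r))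
      fun r hr => ?_] at h3
  · rw [Ac_h_cj h] at h2
    omega
  have h4 := Finset.mem_range.1 hr
  have h5 := W_eq _ hn hb' (r := r) (by omega)
  have h6 := W_eq h hn hb (r := p + (q - 1 - r)) (by omega)
  have h7 := hp_symm (N := N) h.pos_map r
  rw [dm_map hn, show (n - r : ℤ) = (p + (q - 1 - r) : ℕ) by omega] at h7
  split_ifs at h5 h6 <;> omega

end Vale.Agent.P269.Hdg.Ex
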