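import Vale.Agent.P269.Hdg.Pull

/-!
# Smooth forms on the punctured affine space, twisted and basic forms
-/

namespace Vale.Agent.P269.Hdg

open scoped ComplexConjugate ContDiff
open Complex (I)
open Topology Filter MvPolynomial

variable {N : ℕ}

/-! ## Scalars and total degree -/

/-- The scalar part. -/
noncomputable def sca : Λ N →ₐ[ℂ] ℂ := ExteriorAlgebra.algebraMapInv

theorem sca_io (w : W N) : sca (io w) = 0 := by
  unfold sca io ExteriorAlgebra.algebraMapInv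
  exact ExteriorAlgebra.lift_ι_apply ℂ _ _ w

theorem mp_zero (a : Λ N) : mp 0 a = sca a • (1 : Λ N) := by
  induction a using ind with
  | one => simp
  | smul c a h => simp [h, smul_smul]
  | add a b ha hb => simp [ha, hb, add_smul]
  | mul w a _ => simp [mp_io, sca_io]

theorem eq_sca {a : Λ N} (ha : a ∈ Ty 0 0) : a = sca a • (1 : Λ N) := by
  have := mp_sc (p := 0) (q := 0) ha 0 0
  simp only [sc, zero_smul, add_zero, pow_zero, mul_one, one_smul, mp_zero] at this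
  exact this.symm

theorem io_injective : Function.Injective (io : W N → Λ N) := fun v w h =>
  (ExteriorAlgebra.ι_inj ℂ v w).1 h

theorem smul_one_injective {a b : ℂ} (h : a • (1 : Λ N) = b • 1) : a = b := by
  simpa using congrArg sca h

/-- The scalar part as a continuous linear map. -/
noncomputable def scaL : Λ N →L[ℝ] ℂ :=
  (LinearMap.toContinuousLinearMap (sca (N := N)).toLinearMap).restrictScalars ℝ

theorem sm_sca {Y : Type} [NormedAddCommGroup Y] [NormedSpace ℝ Y] {u : Y → Λ N} {x : Y}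
    (h : ContDiffAt ℝ ∞ u x) : ContDiffAt ℝ ∞ (fun y => sca (u y)) x :=
  scaL.contDiff.contDiffAt.comp x h

/-- Forms of total degree `k`. -/
def Dg (k : ℤ) : Submodule ℂ (Λ N) where
  carrier := {a | num true a + num false a = (k : ℂ) • a}
  zero_mem' := by simp
  add_mem' := by
    intro a b ha hb
    simp only [Set.mem_ofPred_eq] at ha hb ⊢
    rw [map_add, map_add, add_add_add_comm, ha, hb, smul_add]
  smul_mem' := by
    intro c a ha
    simp only [Set.mem_ofPred_eq] at ha ⊢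
    rw [map_smul, map_smul, ← smul_add, ha, smul_comm]

theorem mem_Dg {k : ℤ} {a : Λ N} : a ∈ Dg k ↔ num true a + num false a = (k : ℂ) • a := Iff.rfl

theorem Ty_le_Dg {p q : ℤ} {a : Λ N} (ha : a ∈ Ty p q) : a ∈ Dg (p + q) := by
  rw [mem_Dg, mem_Eg.1 ha.1, mem_Eg.1 ha.2]; simp [add_smul]

theorem pt_num (s : Bool) (p q : ℤ) (a : Λ N) :
    pt p q (num s a) = ((if s then p else q : ℤ) : ℂ) • pt p q a := by
  refine ty_ext (pt p q ∘ₗ num s) (((if s then p else q : ℤ) : ℂ) • pt p q)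
    (fun p' q' a ha => ?_) a
  cases s
  · simp only [LinearMap.comp_apply, mem_Eg.1 ha.2, map_smul, pt_of_mem ha, LinearMap.smul_apply]
    split_ifs with h <;> simp_all
  · simp only [LinearMap.comp_apply, mem_Eg.1 ha.1, map_smul, pt_of_mem ha, LinearMap.smul_apply]
    split_ifs with h <;> simp_all

theorem pt_of_Dg {k p q : ℤ} {a : Λ N} (ha : a ∈ Dg k) (h : p + q ≠ k) : pt p q a = 0 := by
  have := congrArg (pt p q) (mem_Dg.1 ha)
  rw [map_add, pt_num, pt_num, map_smul, ← add_smul, ← sub_eq_zero, ← sub_smul] at this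
  refine (smul_eq_zero.1 this).resolve_left ?_
  simp only [if_true, Bool.false_eq_true, if_false]
  exact_mod_cast sub_ne_zero.2 h

theorem mem_Dg_of_pt {k : ℤ} {a : Λ N} (h : ∀ p q, p + q ≠ k → pt p q a = 0) : a ∈ Dg k := by
  rw [← sum_pt a]
  refine Submodule.sum_mem _ fun p _ => Submodule.sum_mem _ fun q _ => ?_
  by_cases e : p + q = k
  · rw [← e]; exact Ty_le_Dg (pt_mem p q a)
  · rw [h p q e]; exact zero_mem _

theorem Dg_mul {k l : ℤ} {a b : Λ N} (ha : a ∈ Dg k) (hb : b ∈ Dg l) : a * b ∈ Dg (k + l) := by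
  rw [mem_Dg] at *
  rw [num_mul, num_mul, add_add_add_comm, ← add_mul, ← mul_add, ha, hb]; simp [add_smul]

theorem io_mem_Dg (w : W N) : io w ∈ Dg 1 := by
  rw [mem_Dg, num_io, num_io, ← map_add, pr_add_pr]; simp

theorem mp_mem_Dg (A : W N →ₗ[ℂ] W N) {k : ℤ} {a : Λ N} (ha : a ∈ Dg k) : mp A a ∈ Dg k := by
  have : ∀ a, num true (mp A a) + num false (mp A a) = mp A (num true a + num false a) := by
    intro a
    induction a using ind with
    | one => simp [num_one]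
    | smul c a h => simp only [map_smul, ← smul_add, h]
    | add a b ha hb =>
      simp only [map_add] at ha hb ⊢
      rw [add_add_add_comm, ha, hb, add_add_add_comm]
    | mul w a h =>
      simp only [map_mul, mp_io, num_io_mul]
      have e : ∀ (w : W N) (a b c : Λ N), io (pr true w) * a + io w * b +
          (io (pr false w) * a + io w * c) = io w * a + io w * (b + c) := fun w a b c => by
        rw [add_add_add_comm, ← add_mul, ← map_add, pr_add_pr, ← mul_add]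
      rw [e, e, h, map_add (mp A) (io w * a), map_mul, map_mul, mp_io]
  rw [mem_Dg, this, mem_Dg.1 ha, map_smul]

theorem analyticAt_of_db {g : E N → ℂ} {x : E N} (h : ∀ᶠ y in 𝓝 x, DifferentiableAt ℝ g y ∧
    db false idE (fun z => g z • (1 : Λ N)) y = 0) : AnalyticAt ℂ g x := by
  obtain ⟨U, hU, hUo, hx⟩ := eventually_nhds_iff.1 h
  refine Vale.Agent.P281.MF.analyticAt_of_differentiableOn hUo (fun y hy => ?_) hx
  obtain ⟨h1, h2⟩ := hU y hy
  rw [db_scalar false h1] at h2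
  have h3 : pr false (fderiv ℝ g y) = 0 := io_injective (by rw [h2, map_zero])
  refine ((differentiableAt_iff_restrictScalars ℝ h1).2
    ⟨∑ j, vec true (ee j) (fderiv ℝ g y) • ContinuousLinearMap.proj j, ?_⟩).differentiableWithinAt
  conv_rhs => rw [← pr_add_pr (fderiv ℝ g y), h3, add_zero, pr_eq]
  ext v; simp

/-! ## Smooth forms -/

/-- Maps to the exterior algebra that are smooth away from the origin. -/
def smS (N : ℕ) : Submodule ℂ (E N → Λ N) where
  carrier := {u | ∀ x ≠ 0, ContDiffAt ℝ ∞ u x}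
  zero_mem' := fun _ _ => contDiffAt_const
  add_mem' hu hv x hx := (hu x hx).add (hv x hx)
  smul_mem' c _ hu x hx := (hu x hx).const_smul c

/-- The space of smooth forms. -/
abbrev SM (N : ℕ) : Type := smS N

theorem SM.sm (u : SM N) {x : E N} (hx : x ≠ 0) : ContDiffAt ℝ ∞ u.1 x := u.2 x hx

theorem SM.df (u : SM N) {x : E N} (hx : x ≠ 0) : DifferentiableAt ℝ u.1 x := sm_diff (u.2 x hx)

open Classical in
/-- `∂` and `\bar ∂` on smooth forms. -/
noncomputable def DB (s : Bool) : SM N →ₗ[ℂ] SM N where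
  toFun u := ⟨fun x => if x = 0 then 0 else db s idE u.1 x, fun x hx =>
    (sm_db (u.sm hx)).congr_of_eventuallyEq ((ne_zero_ev hx).mono fun y hy => if_neg hy)⟩
  map_add' u v := Subtype.ext (funext fun x => by
    by_cases hx : x = 0
    · simp [hx]
    · simp only [Submodule.coe_add, Pi.add_apply, if_neg hx]
      exact db_add (u.df hx) (v.df hx))
  map_smul' c u := Subtype.ext (funext fun x => by
    by_cases hx : x = 0
    · simp [hx]
    · simp only [Submodule.coe_smul, Pi.smul_apply, if_neg hx, RingHom.id_apply]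
      exact db_csmul c (u.df hx))

theorem DB_apply (s : Bool) (u : SM N) {x : E N} (hx : x ≠ 0) : (DB s u).1 x = db s idE u.1 x :=
  if_neg hx

theorem DB_ev (s : Bool) (u : SM N) {x : E N} (hx : x ≠ 0) : (DB s u).1 =ᶠ[𝓝 x] db s idE u.1 :=
  (ne_zero_ev hx).mono fun _ hy => DB_apply s u hy

theorem DB_DB (s s' : Bool) (u : SM N) {x : E N} (hx : x ≠ 0) :
    (DB s' (DB s u)).1 x = -(DB s (DB s' u)).1 x := by
  rw [DB_apply _ _ hx, DB_apply _ _ hx, db_congr (DB_ev s u hx), db_congr (DB_ev s' u hx),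
    db_db _ _ _ _ (u.sm hx)]

theorem DB_DB_self (s : Bool) (u : SM N) {x : E N} (hx : x ≠ 0) : (DB s (DB s u)).1 x = 0 := by
  rw [DB_apply _ _ hx, db_congr (DB_ev s u hx), db_db_self (u.sm hx)]

/-- The exterior derivative on smooth forms. -/
noncomputable def DD : SM N →ₗ[ℂ] SM N := DB true + DB false

theorem DD_apply (u : SM N) {x : E N} (hx : x ≠ 0) : (DD u).1 x = dd idE u.1 x := by
  simp [DD, DB_apply _ _ hx, dd]

theorem DD_ev (u : SM N) {x : E N} (hx : x ≠ 0) : (DD u).1 =ᶠ[𝓝 x] dd idE u.1 :=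
  (ne_zero_ev hx).mono fun _ hy => DD_apply u hy

theorem DD_DD (u : SM N) {x : E N} (hx : x ≠ 0) : (DD (DD u)).1 x = 0 := by
  rw [DD_apply _ hx, dd_congr (DD_ev u hx), dd_dd_self (u.sm hx)]

/-- A smooth family of linear maps acts on smooth forms. -/
noncomputable def fam (Φ : E N → Λ N →ₗ[ℂ] Λ N)
    (h : ∀ x ≠ 0, ∀ a, ContDiffAt ℝ ∞ (fun y => Φ y a) x) : SM N →ₗ[ℂ] SM N where
  toFun u := ⟨fun x => Φ x (u.1 x), fun x hx => sm_app (h x hx) (u.sm hx)⟩
  map_add' u v := Subtype.ext (funext fun x => by simp)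
  map_smul' c u := Subtype.ext (funext fun x => by simp)

/-- A constant linear map. -/
noncomputable def LT (T : Λ N →ₗ[ℂ] Λ N) : SM N →ₗ[ℂ] SM N :=
  fam (fun _ => T) fun _ _ _ => contDiffAt_const

@[simp] theorem LT_apply (T : Λ N →ₗ[ℂ] Λ N) (u : SM N) (x : E N) : (LT T u).1 x = T (u.1 x) := rfl

/-- Multiplication by a smooth function. -/
noncomputable def MF (g : E N → ℂ) (hg : ∀ x ≠ 0, ContDiffAt ℝ ∞ g x) : SM N →ₗ[ℂ] SM N :=
  fam (fun x => g x • LinearMap.id) fun x hx _ => sm_smul (hg x hx) contDiffAt_const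

@[simp] theorem MF_apply (g : E N → ℂ) (hg : ∀ x ≠ 0, ContDiffAt ℝ ∞ g x) (u : SM N) (x : E N) :
    (MF g hg u).1 x = g x • u.1 x := rfl

/-- Left multiplication by a smooth form. -/
noncomputable def ML (a : SM N) : SM N →ₗ[ℂ] SM N :=
  fam (fun x => LinearMap.mulLeft ℂ (a.1 x)) fun _ hx _ => (a.sm hx).mul contDiffAt_const

@[simp] theorem ML_apply (a u : SM N) (x : E N) : (ML a u).1 x = a.1 x * u.1 x := rfl

/-- Contraction with a smooth vector field. -/
noncomputable def CT (s : Bool) (ξ : E N → E N) (h : ∀ x ≠ 0, ContDiffAt ℝ ∞ ξ x) :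
    SM N →ₗ[ℂ] SM N :=
  fam (fun x => ct (vec s (ξ x))) fun x hx _ => sm_ct s (h x hx) contDiffAt_const

@[simp] theorem CT_apply (s : Bool) (ξ : E N → E N) (h : ∀ x ≠ 0, ContDiffAt ℝ ∞ ξ x) (u : SM N)
    (x : E N) : (CT s ξ h u).1 x = ct (vec s (ξ x)) (u.1 x) := rfl

/-- The one-form `dF` or its conjugate. -/
noncomputable def dfS (s : Bool) (F : MvPolynomial (Fin (N + 1)) ℂ) : SM N :=
  ⟨fun y => io (df s F y), fun x _ => sm_df s F x⟩

@[simp] theorem dfS_apply (s : Bool) (F : MvPolynomial (Fin (N + 1)) ℂ) (x : E N) :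
    (dfS s F).1 x = io (df s F x) := rfl

/-- Forms of type `(p, q)` on the cone of weight `k`, horizontal in the antiholomorphic direction:
the `(0, q)`-forms on projective space with values in `Λ^p T^*(ℂ^{N+1}) ⊗ O(k)`. -/
def Fm (p q k : ℤ) : Submodule ℂ (SM N) where
  carrier := {u | (∀ x ≠ 0, u.1 x ∈ Ty p q ∧ ct (vec false x) (u.1 x) = 0) ∧ Hm (k - p) (-q) u.1}
  zero_mem' := ⟨fun _ _ => ⟨zero_mem _, map_zero _⟩, Hm.zero⟩
  add_mem' hu hv := ⟨fun x hx => ⟨add_mem (hu.1 x hx).1 (hv.1 x hx).1, by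
    simp [(hu.1 x hx).2, (hv.1 x hx).2]⟩, hu.2.add hv.2⟩
  smul_mem' c _ hu := ⟨fun x hx => ⟨Submodule.smul_mem _ _ (hu.1 x hx).1, by
    simp [(hu.1 x hx).2]⟩, hu.2.csmul c⟩

theorem mem_Fm {p q k : ℤ} {u : SM N} : u ∈ Fm p q k ↔
    (∀ x ≠ 0, u.1 x ∈ Ty p q ∧ ct (vec false x) (u.1 x) = 0) ∧ Hm (k - p) (-q) u.1 := Iff.rfl

/-- Basic forms of type `(p, q)`: the `(p, q)`-forms on projective space. -/
def Om (p q : ℤ) : Submodule ℂ (SM N) where
  carrier := {u | u ∈ Fm p q 0 ∧ ∀ x ≠ 0, ct (vec true x) (u.1 x) = 0}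
  zero_mem' := ⟨zero_mem _, fun _ _ => map_zero _⟩
  add_mem' hu hv := ⟨add_mem hu.1 hv.1, fun x hx => by simp [hu.2 x hx, hv.2 x hx]⟩
  smul_mem' c _ hu := ⟨Submodule.smul_mem _ _ hu.1, fun x hx => by simp [hu.2 x hx]⟩

theorem mem_Om {p q : ℤ} {u : SM N} :
    u ∈ Om p q ↔ u ∈ Fm p q 0 ∧ ∀ x ≠ 0, ct (vec true x) (u.1 x) = 0 := Iff.rfl

variable {p q k p' q' k' : ℤ} {u v : SM N}

theorem ct_db_of_ne {s s' : Bool} (h : s ≠ s') (h0 : ∀ x ≠ 0, ct (vec s' x) (u.1 x) = 0)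
    {x : E N} (hx : x ≠ 0) : ct (vec s' x) (db s idE u.1 x) = 0 := by
  have := db_ct_euler s s' (u.df hx)
  rw [db_congr (v := fun _ => 0) ((ne_zero_ev hx).mono h0), db_const, dl, if_neg h] at this
  simpa using this

theorem ct_db_self {s : Bool} {a b r : ℤ} (h0 : ∀ x ≠ 0, ct (vec s x) (u.1 x) = 0)
    (hm : Hm a b u.1) {x : E N} (hx : x ≠ 0) (ht : u.1 x ∈ Eg s r) :
    ct (vec s x) (db s idE u.1 x) = ((r + if s then a else b : ℤ) : ℂ) • u.1 x := by
  have := db_ct_euler s s (u.df hx)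
  rw [db_congr (v := fun _ => 0) ((ne_zero_ev hx).mono h0), db_const, dl_self, mem_Eg.1 ht,
    hm.euler hx (u.df hx)] at this
  rw [Int.cast_add, add_smul]
  rw [Int.cast_one, one_smul] at this
  exact (sub_eq_zero.1 this.symm).symm

theorem DB_ty (s : Bool) (h : ∀ x ≠ 0, u.1 x ∈ Ty p q) {x : E N} (hx : x ≠ 0) :
    (DB s u).1 x ∈ Ty (p + dl true s) (q + dl false s) := by
  rw [DB_apply _ _ hx]; exact db_mem (u.df hx) ((ne_zero_ev hx).mono h)

theorem DB_hm (s : Bool) {a b : ℤ} (h : Hm a b u.1) :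
    Hm (a - dl true s) (b - dl false s) (DB s u).1 :=
  (h.db (fun _ hx => u.df hx) s).congr fun _ hx => DB_apply s u hx

theorem DB_Fm (hu : u ∈ Fm p q k) : DB false u ∈ Fm p (q + 1) k := by
  refine ⟨fun x hx => ⟨by simpa using DB_ty false (fun x hx => (hu.1 x hx).1) hx, ?_⟩, ?_⟩
  · rw [DB_apply _ _ hx, ct_db_self (fun x hx => (hu.1 x hx).2) hu.2 hx (hu.1 x hx).1.2]; simp
  · have := DB_hm false hu.2
    simpa [neg_add', sub_eq_add_neg, add_comm] using this

theorem DB_Om (hu : u ∈ Om p q) : DB false u ∈ Om p (q + 1) :=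
  ⟨DB_Fm hu.1, fun x hx => by rw [DB_apply _ _ hx]; exact ct_db_of_ne (by simp) hu.2 hx⟩

theorem DB_Om' (hu : u ∈ Om p q) : DB true u ∈ Om (p + 1) q := by
  refine ⟨⟨fun x hx => ⟨by simpa using DB_ty true (fun x hx => (hu.1.1 x hx).1) hx, ?_⟩, ?_⟩,
    fun x hx => ?_⟩
  · rw [DB_apply _ _ hx]; exact ct_db_of_ne (by simp) (fun x hx => (hu.1.1 x hx).2) hx
  · have := DB_hm true hu.1.2
    simpa [neg_add', sub_eq_add_neg, add_comm] using this
  · rw [DB_apply _ _ hx, ct_db_self hu.2 hu.1.2 hx (hu.1.1 x hx).1.1]; simp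

theorem ML_Fm (hu : u ∈ Fm p q k) (hv : v ∈ Fm p' q' k') :
    ML u v ∈ Fm (p + p') (q + q') (k + k') := by
  refine ⟨fun x hx => ⟨Ty_mul (hu.1 x hx).1 (hv.1 x hx).1, ?_⟩, ?_⟩
  · rw [ML_apply, ct_mul, (hu.1 x hx).2, (hv.1 x hx).2]; simp
  · have := hu.2.mul hv.2
    rwa [show k - p + (k' - p') = k + k' - (p + p') by ring, ← neg_add] at this

theorem ML_Om (hu : u ∈ Om p q) (hv : v ∈ Om p' q') : ML u v ∈ Om (p + p') (q + q') :=
  ⟨by simpa using ML_Fm hu.1 hv.1, fun x hx => by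
    rw [ML_apply, ct_mul, hu.2 x hx, hv.2 x hx]; simp⟩

theorem MF_Fm {g : E N → ℂ} (hg : ∀ x ≠ 0, ContDiffAt ℝ ∞ g x) {e : ℤ} (hm : Hm e 0 g)
    (hu : u ∈ Fm p q k) : MF g hg u ∈ Fm p q (k + e) := by
  refine ⟨fun x hx => ⟨Submodule.smul_mem _ _ (hu.1 x hx).1, by simp [(hu.1 x hx).2]⟩, ?_⟩
  have := hm.smul hu.2
  rwa [zero_add, show e + (k - p) = k + e - p by ring] at this

theorem MF_Om {g : E N → ℂ} (hg : ∀ x ≠ 0, ContDiffAt ℝ ∞ g x) (hm : Hm 0 0 g)
    (hu : u ∈ Om p q) : MF g hg u ∈ Om p q :=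
  ⟨by simpa using MF_Fm hg hm hu.1, fun x hx => by simp [hu.2 x hx]⟩

theorem CT_Fm {ξ : E N → E N} (h : ∀ x ≠ 0, ContDiffAt ℝ ∞ ξ x) {e : ℤ} (hm : Hm (1 - e) 0 ξ)
    (hu : u ∈ Fm p q k) : CT true ξ h u ∈ Fm (p - 1) q (k - e) := by
  refine ⟨fun x hx => ⟨by simpa using ct_mem_Ty (hu.1 x hx).1 true (ξ x), ?_⟩, ?_⟩
  · rw [CT_apply, ct_comm, (hu.1 x hx).2]; simp
  · have := hu.2.ct true hm
    simp only [dl_self, mul_one, dl_ft, mul_zero, add_zero] at this
    rwa [show k - p + (1 - e) = k - e - (p - 1) by ring] at this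

theorem dfS_Fm {F : MvPolynomial (Fin (N + 1)) ℂ} {e : ℕ} (hF : F.IsHomogeneous e) :
    dfS true F ∈ Fm 1 0 e :=
  ⟨fun x _ => ⟨io_cv_mem_Ty true _, by simp [ct_io, vec_df]⟩, hm_df hF⟩

/-- The constant form one. -/
noncomputable def oneS : SM N := ⟨fun _ => 1, fun _ _ => contDiffAt_const⟩

theorem oneS_Om : (oneS : SM N) ∈ Om 0 0 :=
  ⟨⟨fun _ _ => ⟨one_mem_Ty, ct_one _⟩, Hm.const (N := N) (1 : Λ N)⟩,
    fun _ _ => ct_one _⟩

theorem Fm_neg (h : p < 0 ∨ q < 0) (hu : u ∈ Fm p q k) {x : E N} (hx : x ≠ 0) : u.1 x = 0 :=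
  h.elim (fun h => Eg_neg h (hu.1 x hx).1.1) fun h => Eg_neg h (hu.1 x hx).1.2

end Vale.Agent.P269.Hdg
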