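import Vale.Agent.P269.Hdg.Pull
import Vale.Agent.P269.Hdg.Forms
import Vale.Agent.P281Z.Hg.K1b

/-!
# The exterior algebra as a Fock space
-/

namespace Vale.Agent.P269.Hdg.Ex

open scoped ContDiff Matrix
open Topology Filter
open Vale.Agent.P281Z.Hg (Fo hl ah lr jc pbk dT pm)
open Vale.Agent.P299.IX.Fock (epsV ev)
open Vale.Agent.P272.K (Cm)

variable {N : ℕ}

/-- The coordinates of a covector in the basis `dz_j`, `d\bar z_j`. -/
noncomputable def cd (w : W N) (c : Fin (N + 1 + (N + 1))) : ℂ :=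
  Fin.addCases (motive := fun _ => ℂ) (fun j => vec true (ee j) w) (fun j => vec false (ee j) w) c

namespace ExT

open P281Z.Hg P299.IX P299.IX.Fock

theorem cd_hl (w : W N) (j : Fin (N + 1)) : cd w (hl j) = vec true (ee j) w := Fin.addCases_left j

theorem cd_ah (w : W N) (j : Fin (N + 1)) : cd w (ah j) = vec false (ee j) w := Fin.addCases_right j

theorem cd_ext {w : W N} {v : Fin (N + 1 + (N + 1)) → ℂ} (h : ∀ j, vec true (ee j) w = v (hl j))
    (h' : ∀ j, vec false (ee j) w = v (ah j)) : cd w = v :=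
  funext (F1bH.idx (fun j => (cd_hl w j).trans (h j)) fun j => (cd_ah w j).trans (h' j))

theorem cd_add (v w : W N) : cd (v + w) = cd v + cd w :=
  cd_ext (fun j => by rw [map_add, Pi.add_apply, cd_hl, cd_hl]) fun j => by
    rw [map_add, Pi.add_apply, cd_ah, cd_ah]

theorem cd_smul (c : ℂ) (w : W N) : cd (c • w) = c • cd w :=
  cd_ext (fun j => by rw [map_smul, Pi.smul_apply, cd_hl]) fun j => by
    rw [map_smul, Pi.smul_apply, cd_ah]

theorem eps_hl (j : Fin (N + 1)) : epsV (cd (dz true j)) = eps (hl j) := by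
  rw [← epsV_single]
  exact congrArg epsV (cd_ext (fun i => by simp [vec_ee_dz, Pi.single_apply, F1bH.hl_inj])
    fun i => by simp [vec_ee_dz, (F1bH.hl_ne j i).symm])

theorem eps_ah (j : Fin (N + 1)) : epsV (cd (dz false j)) = eps (ah j) := by
  rw [← epsV_single]
  exact congrArg epsV (cd_ext (fun i => by simp [vec_ee_dz, F1bH.hl_ne i j])
    fun i => by simp [vec_ee_dz, Pi.single_apply, F1bH.ah_inj])

theorem cd_fderiv (g : E N → ℂ) (z : E N) : cd (fderiv ℝ g z) = fun c => dr c g z := by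
  have e : ∀ j : Fin (N + 1), Complex.I • ee j = (Pi.single j Complex.I : E N) := fun j => by
    rw [ee, ← Pi.single_smul, smul_eq_mul, mul_one]
  refine cd_ext (fun j => ?_) fun j => ?_
  · rw [Ka.dr_hl, vec_apply, e]
    rfl
  · rw [Ka.dr_ah, vec_apply, e, sg_false, Complex.conj_I, neg_mul, sub_neg_eq_add]
    rfl

theorem finrank_W : Module.finrank ℂ (W N) = N + 1 + (N + 1) := by
  have h := Module.finrank_mul_finrank ℝ ℂ (W N)
  rw [← (LinearMap.toContinuousLinearMap (𝕜 := ℝ) (E := E N) (F' := ℂ)).finrank_eq,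
    Module.finrank_linearMap, Module.finrank_pi_fintype, Complex.finrank_real_complex,
    Finset.sum_const, Finset.card_univ, Fintype.card_fin, smul_eq_mul] at h
  omega

theorem dw_lr {m n : ℕ} {w : Fin m → ℕ} {w' : Fin n → ℕ} {J : Matrix (Fin m) (Fin n) ℂ}
    (h : ∀ p l, J p l ≠ 0 → w p = w' l) (c : ℕ → ℂ) :
    F1bH.dw w c * lr J = lr J * F1bH.dw w' c := by
  have h0 : ∀ {n : ℕ} (w : Fin n → ℕ) (c : ℕ → ℂ) I,
      F1bH.dw w c *ᵥ ev I = c (∑ l ∈ I, w l) • ev I := fun w c I => funext fun K => by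
    rw [F1bH.dw, Matrix.mulVec_diagonal, Pi.smul_apply, smul_eq_mul]
    by_cases e : K = I <;> simp [ev, e]
  have h1 : ∀ l (c : ℕ → ℂ), F1bH.dw w c * epsV (fun p => J p l) =
      epsV (fun p => J p l) * F1bH.dw w fun m => c (m + w' l) := fun l c => by
    rw [epsV, Finset.mul_sum, Finset.sum_mul]
    refine Finset.sum_congr rfl fun p _ => ?_
    by_cases e : J p l = 0
    · rw [e, zero_smul, mul_zero, zero_mul]
    · rw [Matrix.mul_smul, Matrix.smul_mul, F1bH.dw_eps, h p l e]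
  refine ext_ev' fun I => ?_
  rw [← Matrix.mulVec_mulVec, ← Matrix.mulVec_mulVec]
  induction I using Finset.induction_on_min generalizing c with
  | empty => rw [F1aH.lr_ev, h0, h0, Matrix.mulVec_smul, F1aH.lr_ev, Finset.sum_empty,
      Finset.sum_empty]
  | insert i I hi ih =>
    rw [Kb.lr_insert J hi, Matrix.mulVec_mulVec, h1, ← Matrix.mulVec_mulVec, ih, h0, h0,
      Matrix.mulVec_smul, Matrix.mulVec_smul, Matrix.mulVec_smul, Kb.lr_insert J hi,
      Finset.sum_insert fun h' => lt_irrefl i (hi i h'), add_comm]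

end ExT

open ExT P281Z.Hg P299.IX.Fock in
theorem exists_fk (N : ℕ) : ∃ T : Λ N ≃ₗ[ℂ] Fo (N + 1), T 1 = ev ∅ ∧
    ∀ w a, T (io w * a) = epsV (cd w) *ᵥ T a := by
  let e : W N →ₗ[ℂ] P281Z.Hg.Fm (N + 1) := ⟨⟨fun w => epsV (cd w), fun v w => by
    rw [cd_add, epsV_add]⟩, fun c w => (congrArg epsV (cd_smul c w)).trans (epsV_smul _ _)⟩
  let A : Λ N →ₐ[ℂ] P281Z.Hg.Fm (N + 1) := ExteriorAlgebra.lift ℂ ⟨e, fun w => epsV_sq _⟩
  have hA : ∀ w, A (io w) = epsV (cd w) := ExteriorAlgebra.lift_ι_apply ℂ e _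
  let T : Λ N →ₗ[ℂ] Fo (N + 1) := ⟨⟨fun a => A a *ᵥ ev ∅, fun a b => by
    rw [map_add, Matrix.add_mulVec]⟩, fun c a =>
      (congrArg (· *ᵥ ev ∅) (map_smul A c a)).trans (Matrix.smul_mulVec _ _ _)⟩
  have h1 : T 1 = ev ∅ := (congrArg (· *ᵥ ev ∅) (map_one A)).trans (Matrix.one_mulVec _)
  have h2 : ∀ w a, T (io w * a) = epsV (cd w) *ᵥ T a := fun w a =>
    (congrArg (· *ᵥ ev ∅) ((map_mul A _ _).trans (by rw [hA]))).trans
      (Matrix.mulVec_mulVec _ _ _).symm
  have hs : Function.Surjective T := fun u => by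
    induction u using F1aH.fk_ind with
    | h0 => exact ⟨1, h1⟩
    | he l u h =>
      obtain ⟨a, rfl⟩ := h
      induction l using F1bH.idx with
      | h j => exact ⟨_, (h2 _ a).trans (by rw [eps_hl])⟩
      | h' j => exact ⟨_, (h2 _ a).trans (by rw [eps_ah])⟩
    | ha u v h h' => exact add_mem (S := Submodule ℂ _) (s := LinearMap.range T) h h'
    | hs c u h => exact (LinearMap.range T).smul_mem c h
  have hd : Module.finrank ℂ (Λ N) = Module.finrank ℂ (Fo (N + 1)) := by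
    rw [Module.finrank_eq_card_basis (bΛ N), Module.finrank_fintype_fun_eq_card,
      Fintype.card_finset, Fintype.card_finset, Fintype.card_fin, Fintype.card_fin, finrank_W]
  exact ⟨.ofBijective T ⟨(LinearMap.injective_iff_surjective_of_finrank_eq_finrank hd).2 hs, hs⟩,
    h1, h2⟩

/-- The identification of the exterior algebra with the Fock space. -/
noncomputable def fk : Λ N ≃ₗ[ℂ] Fo (N + 1) := (exists_fk N).choose

theorem fk_one : fk (1 : Λ N) = ev ∅ := (exists_fk N).choose_spec.1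

theorem fk_io (w : W N) (a : Λ N) : fk (io w * a) = epsV (cd w) *ᵥ fk a :=
  (exists_fk N).choose_spec.2 w a

theorem sm_fk {Y : Type} [NormedAddCommGroup Y] [NormedSpace ℝ Y] {u : Y → Λ N} {y : Y}
    (hu : ContDiffAt ℝ ∞ u y) : ContDiffAt ℝ ∞ (fun z => fk (u z)) y :=
  (((fk (N := N)).toContinuousLinearEquiv : Λ N →L[ℂ] Fo (N + 1)).restrictScalars
    ℝ).contDiff.contDiffAt.comp y hu

theorem sm_fk_symm {Y : Type} [NormedAddCommGroup Y] [NormedSpace ℝ Y] {u : Y → Fo (N + 1)}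
    {y : Y} (hu : ContDiffAt ℝ ∞ u y) : ContDiffAt ℝ ∞ (fun z => (fk.symm (u z) : Λ N)) y :=
  (((fk (N := N)).symm.toContinuousLinearEquiv : Fo (N + 1) →L[ℂ] Λ N).restrictScalars
    ℝ).contDiff.contDiffAt.comp y hu

open ExT P281Z.Hg in
theorem fk_dd {u : E N → Λ N} {x : E N} (hu : DifferentiableAt ℝ u x) :
    fk (dd idE u x) = dT (fun y => fk (u y)) x := by
  have h : ∀ s v I, fk (vv s v (fderiv ℝ u x)) I =
      vec s v (fderiv ℝ (fun y => fk (u y) I) x) := fun s v I => by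
    let L : Λ N →L[ℝ] ℂ := ((ContinuousLinearMap.proj I).comp
      ((fk (N := N)).toContinuousLinearEquiv : Λ N →L[ℂ] Fo (N + 1))).restrictScalars ℝ
    rw [show fderiv ℝ (fun y => fk (u y) I) x = L.comp (fderiv ℝ u x) from
      (L.hasFDerivAt.comp x hu.hasFDerivAt).fderiv, vec_apply, vv, map_smul, map_sub, map_smul]
    exact (mul_comm _ _).trans (div_eq_mul_inv _ _).symm
  rw [dd, db_id, db_id, al_apply, al_apply, map_add, map_sum, map_sum, dT, Ka.sum_idx]
  refine congrArg₂ _ (Finset.sum_congr rfl fun j _ => ?_) (Finset.sum_congr rfl fun j _ => ?_)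
  · rw [fk_io, eps_hl]
    exact congrArg _ (funext fun I => by rw [h, ← cd_hl, cd_fderiv]; rfl)
  · rw [fk_io, eps_ah]
    exact congrArg _ (funext fun I => by rw [h, ← cd_ah, cd_fderiv]; rfl)

open ExT P281Z.Hg in
theorem fk_mp {f : E N → E N} {x : E N} (hf : DifferentiableAt ℝ f x) (a : Λ N) :
    fk (mp (tr (fderiv ℝ f x)) a) = lr (jc f x) *ᵥ fk a := by
  induction a using ind with
  | one => rw [map_one, fk_one, F1aH.lr_ev]
  | smul c a h => rw [map_smul, map_smul, map_smul, h, Matrix.mulVec_smul]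
  | add a b ha hb => rw [map_add, map_add, map_add, ha, hb, Matrix.mulVec_add]
  | mul w a h =>
    have e : cd (tr (fderiv ℝ f x) w) = jc f x *ᵥ cd w := by
      rw [tr_fderiv w hf, cd_fderiv, ← congrArg cd (w.fderiv (x := f x)), cd_fderiv]
      exact funext fun p => Kb.dr_comp p hf w.differentiableAt
    rw [map_mul, mp_io, fk_io, fk_io, h, e, Matrix.mulVec_mulVec, Matrix.mulVec_mulVec,
      F1aH.lr_epsV]

theorem fk_pb {f : E N → E N} {x : E N} (hf : DifferentiableAt ℝ f x) (u : E N → Λ N) :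
    fk (pb f u x) = pbk f (fun y => fk (u y)) x := fk_mp hf _

open P299.IX P299.IX.Fock in
theorem ExT.fk_num (s : Bool) (a : Λ N) (I : FI (N + 1 + (N + 1))) : fk (num s a) I =
    (∑ l ∈ I, if s = decide (l.val < N + 1) then 1 else 0) * fk a I := by
  rw [← dlam_diagonal_mulVec]
  refine congrFun ?_ I
  induction a using ind with
  | one => rw [num_one, map_zero, fk_one, dlam_ev_empty]
  | smul c a h => rw [map_smul, map_smul, map_smul, h, Matrix.mulVec_smul]
  | add a b ha hb => rw [map_add, map_add, map_add, ha, hb, Matrix.mulVec_add]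
  | mul w a h =>
    rw [num_io_mul, map_add, fk_io, fk_io, fk_io, h, Matrix.mulVec_mulVec, Matrix.mulVec_mulVec,
      dlam_epsV, Matrix.add_mulVec, add_comm (_ *ᵥ fk a)]
    refine congrArg (fun v => _ + epsV v *ᵥ fk a) (ExT.cd_ext (fun j => ?_) fun j => ?_)
    · rw [Matrix.mulVec_diagonal, vec_pr, ExT.cd_hl, decide_eq_true (P281Z.Hg.F1bH.hl_lt j)]
      cases s <;> simp
    · rw [Matrix.mulVec_diagonal, vec_pr, ExT.cd_ah, decide_eq_false (P281Z.Hg.F1bH.ah_lt j)]
      cases s <;> simp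

theorem fk_Dg {k : ℕ} {a : Λ N} : a ∈ Dg k ↔ P299.IX.Fock.dg k *ᵥ fk a = fk a := by
  rw [mem_Dg, ← fk.injective.eq_iff, funext_iff, funext_iff]
  refine forall_congr' fun I => ?_
  rw [map_add, map_smul, Pi.add_apply, ExT.fk_num, ExT.fk_num, ← add_mul, ← Finset.sum_add_distrib,
    Finset.sum_congr rfl (g := fun _ => (1 : ℂ)) fun l _ => by
      cases decide (l.val < N + 1) <;> simp, P299.IX.Fock.dg_mulVec]
  by_cases e : I.card = k <;> simp [e, eq_comm (a := (0 : ℂ))]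

theorem fk_Eg {p : ℤ} {a : Λ N} (ha : a ∈ Eg true p) {j : ℕ} (hj : (j : ℤ) ≠ p) :
    pm (N + 1) j *ᵥ fk a = 0 := by
  funext I
  have h := ExT.fk_num true a I
  simp only [mem_Eg.1 ha, map_smul, true_eq_decide_iff, Finset.sum_boole] at h
  rw [pm, Matrix.mulVec_diagonal]
  split_ifs with e
  · rw [show (I.filter fun l => l.val < N + 1).card = j from e] at h
    exact (one_mul _).trans ((mul_eq_mul_right_iff.1 h).resolve_left fun e =>
      hj (by exact_mod_cast e.symm))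
  · exact zero_mul _

variable {a b c : ℕ} {ψ ψ' : Cm a → Cm b} {φ : Cm b → Cm c} {z : Cm a}

theorem jc_of_fderiv (h : DifferentiableAt ℝ ψ z) (h' : DifferentiableAt ℝ ψ' z)
    (e : fderiv ℝ ψ z = fderiv ℝ ψ' z) : jc ψ z = jc ψ' z := by
  ext p l
  obtain ⟨s, t, v, w, k⟩ := P281Z.Hg.Ka.dr_DD p
  simp only [jc, Matrix.of_apply, k, P272.K.C2.DD, P281Z.Hg.Kb.cx_fd _ h, P281Z.Hg.Kb.cx_fd _ h', e]

theorem lr_jc_comp (h : DifferentiableAt ℝ ψ z) (h' : DifferentiableAt ℝ φ (ψ z)) :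
    lr (jc (fun y => φ (ψ y)) z) = lr (jc ψ z) * lr (jc φ (ψ z)) := by
  rw [P281Z.Hg.k1b'.jc_comp h h', P281Z.Hg.f1a.lr_mul]

theorem lr_jc_id (h : ψ' =ᶠ[𝓝 z] ψ) : lr (jc ψ' z) = lr (jc ψ z) := by
  rw [P281Z.Hg.k1b'.jc_congr h]

theorem lr_jc_one {τ : Cm a → Cm a} (h : ∀ᶠ y in 𝓝 z, τ y = y) : lr (jc τ z) = 1 := by
  rw [P281Z.Hg.k1b'.jc_congr (ψ := fun y => y) h, P281Z.Hg.k1b'.jc_id]
  exact P299.IX.lam_one

open P281Z.Hg in
theorem pm_lr_jc (h : DifferentiableAt ℂ ψ z) (k : ℕ) :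
    pm a k * lr (jc ψ z) = lr (jc ψ z) * pm b k := by
  rw [F1bH.pm_dw, F1bH.pm_dw]
  refine ExT.dw_lr (fun p l e => ?_) _
  have h0 := fun i j => Kb.dzb_hol (differentiableAt_pi.1 h j) i
  induction p using F1bH.idx <;> induction l using F1bH.idx
  · simp only [F1bH.hl_lt, if_true]
  · exact (e (by rw [Kb.jc_ha (h.restrictScalars ℝ), h0, star_zero])).elim
  · exact (e (by rw [Kb.jc_ah, h0])).elim
  · simp only [F1bH.ah_lt, if_false]

end Vale.Agent.P269.Hdg.Ex
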