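import Vale.Agent.P269.Hdg.Conormal
import Vale.Agent.P269.Hdg.Cmp

/-!
# The Hodge filtration of the de Rham complex
-/

namespace Vale.Agent.P269.Hdg

open scoped ComplexConjugate ContDiff
open Complex (I)
open Topology Filter MvPolynomial

variable {N : ℕ} {s : Bool} {p q r r' k l : ℤ} {u v : SM N}

/-- Basic forms of degree `k` of holomorphic (or antiholomorphic) degree at least `r`. -/
def Fk (s : Bool) (r k : ℤ) : Submodule ℂ (SM N) where
  carrier := {u | u ∈ Ak k ∧ ∀ p q, cond s p q < r → ∀ x ≠ 0, pt p q (u.1 x) = 0}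
  zero_mem' := ⟨zero_mem _, fun _ _ _ _ _ => map_zero _⟩
  add_mem' hu hv := ⟨add_mem hu.1 hv.1, fun p q h x hx => by
    simp [hu.2 p q h x hx, hv.2 p q h x hx]⟩
  smul_mem' c _ hu := ⟨Submodule.smul_mem _ _ hu.1, fun p q h x hx => by simp [hu.2 p q h x hx]⟩

theorem Om_le_Fk (hu : u ∈ Om p q) (e : p + q = k) (h : r ≤ cond s p q) : u ∈ Fk s r k :=
  ⟨e ▸ Om_le_Ak hu, fun p' q' h' x hx => by
    rw [pt_of_mem (hu.1.1 x hx).1, if_neg]
    rintro ⟨rfl, rfl⟩; omega⟩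

theorem Fk_of_zero (h : ∀ x ≠ 0, u.1 x = 0) : u ∈ Fk s r k :=
  ⟨Ak_of_zero h, fun _ _ _ x hx => by rw [h x hx, map_zero]⟩

theorem Fk_ind (K : Submodule ℂ (SM N)) (h0 : ∀ u : SM N, (∀ x ≠ 0, u.1 x = 0) → u ∈ K)
    (h : ∀ p q, p + q = k → r ≤ cond s p q → ∀ u ∈ Om p q, u ∈ K) (hu : u ∈ Fk s r k) : u ∈ K := by
  rw [← sum_PT u]
  refine Submodule.sum_mem _ fun p _ => Submodule.sum_mem _ fun q _ => ?_
  by_cases e : p + q = k
  · by_cases e' : r ≤ cond s p q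
    · exact h p q e e' _ (hu.1.1 p q)
    · exact h0 _ (hu.2 p q (by omega))
  · exact h0 _ fun x hx => pt_of_Dg (hu.1.2 x hx) e

theorem Fk_map (T : SM N →ₗ[ℂ] SM N) (K : Submodule ℂ (SM N))
    (h0 : ∀ u : SM N, (∀ x ≠ 0, u.1 x = 0) → T u ∈ K)
    (h : ∀ p q, p + q = k → r ≤ cond s p q → ∀ u ∈ Om p q, T u ∈ K) (hu : u ∈ Fk s r k) :
    T u ∈ K := Submodule.mem_comap.1 (Fk_ind (K.comap T) h0 h hu)

theorem Fk_mono (h : r ≤ r') (hu : u ∈ Fk s r' k) : u ∈ Fk s r k :=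
  ⟨hu.1, fun p q h' => hu.2 p q (by omega)⟩

theorem Fk_of_Ak (h : r ≤ 0) (hu : u ∈ Ak k) : u ∈ Fk s r k :=
  ⟨hu, fun p q h' _ hx => Fm_neg (by cases s <;> simp at h' <;> omega) (hu.1 p q).1 hx⟩

theorem DD_Fk (hu : u ∈ Fk s r k) : DD u ∈ Fk s r (k + 1) :=
  Fk_map DD _ (fun _ h => Fk_of_zero fun _ hx => DD_of_zero h hx)
    (fun p q e h _ hu => add_mem
      (Om_le_Fk (DB_Om' hu) (by omega) (by cases s <;> simp at h ⊢ <;> omega))
      (Om_le_Fk (DB_Om hu) (by omega) (by cases s <;> simp at h ⊢ <;> omega))) hu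

theorem MF_Fk {g : E N → ℂ} (hg : ∀ x ≠ 0, ContDiffAt ℝ ∞ g x) (hm : Hm 0 0 g)
    (hu : u ∈ Fk s r k) : MF g hg u ∈ Fk s r k :=
  ⟨MF_Ak hg hm hu.1, fun p q h x hx => by simp [hu.2 p q h x hx]⟩

theorem ML_Fk (hu : u ∈ Fk s r k) (hv : v ∈ Fk s r' l) : ML u v ∈ Fk s (r + r') (k + l) := by
  refine Fk_map (MR v) _ (fun u h => Fk_of_zero fun x hx => by simp [MR, h x hx]) (fun p q e h u hu => ?_) hu
  refine Fk_map (ML u) _ (fun u h => Fk_of_zero fun x hx => by simp [h x hx]) (fun p' q' e' h' v hv => ?_) hv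
  exact Om_le_Fk (ML_Om hu hv) (by omega) (by cases s <;> simp at h h' ⊢ <;> omega)

theorem exists_PH (r : ℤ) : ∃ f : SM N →ₗ[ℂ] SM N, ∀ u x,
    (f u).1 x = ∑ q ∈ rng N, pt r q (u.1 x) := ⟨∑ q ∈ rng N, PT r q, fun u x => by simp⟩

/-- The component of holomorphic degree `r`. -/
noncomputable def PH (r : ℤ) : SM N →ₗ[ℂ] SM N := (exists_PH r).choose

theorem PH_apply (r : ℤ) (u : SM N) (x : E N) : (PH r u).1 x = ∑ q ∈ rng N, pt r q (u.1 x) :=
  (exists_PH r).choose_spec u x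

theorem PH_of_Om (hu : u ∈ Om p q) {x : E N} (hx : x ≠ 0) :
    (PH r u).1 x = if r = p then u.1 x else 0 := by
  simp only [PH_apply, pt_of_mem (hu.1.1 x hx).1]
  split_ifs with h
  · simp only [h, true_and, Finset.sum_ite_eq']
    split_ifs with h'
    · rfl
    · simp only [rng, Finset.mem_Icc] at h'
      by_cases h1 : q < 0
      · exact (Fm_neg (Or.inr h1) hu.1 hx).symm
      · exact (Eg_big (by omega) (hu.1.1 x hx).1.2).symm
  · simp [h]

theorem PH_of_zero (h : ∀ x ≠ 0, u.1 x = 0) {x : E N} (hx : x ≠ 0) : (PH r u).1 x = 0 := by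
  simp [PH_apply, h x hx]

/-- Forms vanishing away from the origin. -/
def Z0 (N : ℕ) : Submodule ℂ (SM N) where
  carrier := {u | ∀ x ≠ 0, u.1 x = 0}
  zero_mem' := fun _ _ => rfl
  add_mem' hu hv x hx := by simp [hu x hx, hv x hx]
  smul_mem' c _ hu x hx := by simp [hu x hx]

theorem PH_Om (hu : u ∈ Ak k) : PH r u ∈ Om r (k + -r) := by
  refine Fk_map (PH r) _ (fun u h => Om_congr (zero_mem _) fun x hx => PH_of_zero h hx)
    (fun p q e _ u hu => ?_) (Fk_of_Ak (s := true) le_rfl hu)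
  by_cases h : r = p
  · rw [show k + -r = q by omega, h]
    exact Om_congr hu fun x hx => by rw [PH_of_Om hu hx, if_pos rfl]
  · exact Om_congr (zero_mem _) fun x hx => by rw [PH_of_Om hu hx, if_neg h]; rfl

theorem PH_DD (hu : u ∈ Fk true r k) : PH r (DD u) - DB false (PH r u) ∈ Z0 N := by
  suffices (PH r ∘ₗ DD - DB false ∘ₗ PH r : SM N →ₗ[ℂ] SM N) u ∈ Z0 N by simpa using this
  refine Fk_map _ (Z0 N) (fun u h x hx => ?_)
    (fun p q _ h u hu x hx => ?_) hu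
  · change (PH r (DD u)).1 x - (DB false (PH r u)).1 x = 0
    rw [PH_of_zero (fun _ => DD_of_zero h) hx, DB_of_zero _ (fun _ => PH_of_zero h) hx, sub_zero]
  · change (PH r (DB true u + DB false u)).1 x - (DB false (PH r u)).1 x = 0
    rw [map_add, Submodule.coe_add, Pi.add_apply, PH_of_Om (DB_Om' hu) hx, PH_of_Om (DB_Om hu) hx,
      if_neg (by simp at h; omega), zero_add, sub_eq_zero]
    split_ifs with e
    · rw [DB_apply _ _ hx, DB_apply _ _ hx]
      exact db_congr ((ne_zero_ev hx).mono fun y hy => by rw [PH_of_Om hu hy, if_pos e])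
    · exact (DB_of_zero _ (fun y hy => by rw [PH_of_Om hu hy, if_neg e]) hx).symm

theorem sub_PH (hu : u ∈ Fk true r k) : u - PH r u ∈ Fk true (r + 1) k := by
  suffices (LinearMap.id - PH r : SM N →ₗ[ℂ] SM N) u ∈ Fk true (r + 1) k by simpa using this
  refine Fk_map _ _ (fun u h => Fk_of_zero fun x hx => ?_)
    (fun p q e h u hu => ?_) hu
  · change u.1 x - (PH r u).1 x = 0
    rw [h x hx, PH_of_zero h hx, sub_zero]
  · by_cases e' : r = p
    · refine Fk_of_zero fun x hx => ?_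
      change u.1 x - (PH r u).1 x = 0
      rw [PH_of_Om hu hx, if_pos e', sub_self]
    · exact sub_mem (Om_le_Fk hu e (by simp at h ⊢; omega))
        (Fk_of_zero (u := PH r u) fun x hx => by rw [PH_of_Om hu hx, if_neg e'])

theorem PH_of_succ (hu : u ∈ Fk true (r + 1) k) {x : E N} (hx : x ≠ 0) : (PH r u).1 x = 0 := by
  rw [PH_apply]; exact Finset.sum_eq_zero fun q _ => hu.2 r q (by simp) x hx

variable {ι : Type} [Fintype ι] [DecidableEq ι] {F : ι → MP N} {d : ι → ℕ}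

/-- Forms whose values on the cone are annihilated by the differentials of the equations. -/
noncomputable def Nl (F : ι → MP N) : Submodule ℂ (SM N) where
  carrier := {u | ∀ y ∈ cone F, u.1 y ∈ ann (pl (fullL F) y)}
  zero_mem' := fun _ _ => zero_mem _
  add_mem' hu hv y hy := add_mem (hu y hy) (hv y hy)
  smul_mem' c _ hu y hy := Submodule.smul_mem _ c (hu y hy)

omit [DecidableEq ι] in
theorem Z0_le_Nl (hu : ∀ x ≠ 0, u.1 x = 0) : u ∈ Nl F := fun y hy => by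
  rw [hu y hy.1]; exact zero_mem _

omit [DecidableEq ι] in
theorem Fk_Nl (h : IsCI F d) (hr : (N : ℤ) - Fintype.card ι < r) (hu : u ∈ Fk s r k) : u ∈ Nl F :=
  Fk_ind (Nl F) (fun _ => Z0_le_Nl) (fun p q _ h' _ hu _ hy =>
    Om_ann h hu (by cases s <;> simp at h' <;> omega) hy) hu

omit [DecidableEq ι] in
theorem Ak_Nl (h : IsCI F d) (hk : k < 0 ∨ 2 * ((N : ℤ) - Fintype.card ι) < k) (hu : u ∈ Ak k) :
    u ∈ Nl F :=
  Ak_ind (Nl F) (fun _ => Z0_le_Nl) (fun p q _ _ hu _ hy => Om_ann h hu (by omega) hy) hu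

omit [DecidableEq ι] in
theorem PH_Nl (hu : u ∈ Nl F) : PH r u ∈ Nl F := fun y hy => by
  rw [PH_apply]; exact Submodule.sum_mem _ fun q _ => ann_pl_pt _ y (hu y hy) r q

/-- The filtered pieces of the de Rham complex. -/
noncomputable def Ffd (h : IsCI F d) (s : Bool) (r : ℤ) : FD N where
  d := DD
  G := Fk s r
  C := cone F
  P y := ann (pl (fullL F) y)
  dG _ _ hu := DD_Fk hu
  stab := (dR h).stab
  dd q u hu := (dR h).dd q u hu.1
  cut _ _ hu _ hg hm := MF_Fk hg hm hu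
  bdd := ⟨0, fun _ hq _ hu _ hx => Ak_neg hq hu.1 hx⟩

/-- The global filtered complex. -/
noncomputable abbrev Fc (h : IsCI F d) (s : Bool) (r : ℤ) : Cx := (Ffd h s r).sh.gl

/-- The global de Rham complex. -/
noncomputable abbrev Ac (h : IsCI F d) : Cx := (dR h).sh.gl

variable (h : IsCI F d)

theorem Fc_nul : u ∈ (Fc h s r).nul ↔ u ∈ Nl F := dR_nul h

theorem Wc_nul : u ∈ (Wc h r).nul ↔ u ∈ Nl F := dR_nul h

theorem Ac_nul : u ∈ (Ac h).nul ↔ u ∈ Nl F := dR_nul h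

/-- The inclusion of the next step of the filtration. -/
noncomputable def incF (s : Bool) (r : ℤ) : Cx.Hom (Fc h s (r + 1)) (Fc h s r) :=
  ⟨LinearMap.id, 1, one_ne_zero, fun _ _ hu => Fk_mono (by omega) hu, fun _ hu => hu,
    fun _ _ _ => by rw [one_smul]; exact mem_of_eq (zero_mem _) (sub_self _)⟩

/-- The inclusion in the de Rham complex. -/
noncomputable def toA (s : Bool) (r : ℤ) : Cx.Hom (Fc h s r) (Ac h) :=
  ⟨LinearMap.id, 1, one_ne_zero, fun _ _ hu => hu.1, fun _ hu => hu,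
    fun _ _ _ => by rw [one_smul]; exact mem_of_eq (zero_mem _) (sub_self _)⟩

/-- The projection to the graded piece. -/
noncomputable def grF (r : ℤ) : Cx.Hom (Fc h true r) ((Wc h r).shift (-r)) :=
  ⟨PH r, 1, one_ne_zero, fun _ _ hu => PH_Om hu.1,
    fun u hu => (Wc_nul h (r := r) (u := PH r u)).2 (PH_Nl ((Fc_nul h).1 hu)),
    fun _ u hu => by
      rw [one_smul]
      exact (Wc_nul h (r := r) (u := PH r (DD u) - DB false (PH r u))).2 (Z0_le_Nl (PH_DD hu))⟩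

theorem F_ses (r : ℤ) : Cx.SES (incF h true r) (grF h r) where
  inj _ _ _ hu := hu
  comp _ u hu := (Wc_nul h (r := r) (u := PH r u)).2 (Z0_le_Nl fun _ hx => PH_of_succ hu hx)
  mid _ v hv h0 := by
    refine ⟨_, sub_PH hv, (Fc_nul h).2 (mem_of_eq ((Wc_nul h (r := r) (u := PH r v)).1 h0) ?_)⟩
    exact sub_sub_cancel (v : SM N) _
  surj q w hw := ⟨w, Om_le_Fk hw (by omega) le_rfl,
    (Wc_nul h (r := r) (u := (w : SM N) - PH r w)).2 (Z0_le_Nl fun x hx => by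
      change (w : SM N).1 x - (PH r w).1 x = 0
      rw [PH_of_Om hw hx, if_pos rfl, sub_self])⟩

theorem Fc_exact (hr : (N : ℤ) - Fintype.card ι < r) (k : ℤ) : (Fc h s r).Exact k :=
  Cx.exact_of_le fun _ hu => (Fc_nul h).2 (Fk_Nl h hr hu)

theorem Ac_exact (hk : k < 0 ∨ 2 * ((N : ℤ) - Fintype.card ι) < k) : (Ac h).Exact k :=
  Cx.exact_of_le fun _ hu => (Ac_nul h).2 (Ak_Nl h hk hu)

theorem Fc_good (r : ℤ) : (Fc h true r).Good := by
  induction r using Int.inductionOn' (b := N - Fintype.card ι + 1) with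
  | zero => exact (Cx.good_of_exact (Fc_exact h (by omega))).1
  | succ r _ _ => exact (Cx.good_of_exact (Fc_exact h (by omega))).1
  | pred r _ ih =>
    exact (F_ses h (r - 1)).good_mid (by rwa [sub_add_cancel]) ((Cx.shift_good _).2 (Wc_good h _))

theorem toA_qiso (hr : r ≤ 0) (k : ℤ) : (toA h s r).Inj k ∧ (toA h s r).Surj k :=
  ⟨fun _ _ hu => by
    obtain ⟨v, hv, e⟩ := Cx.mem_B.1 hu
    exact Cx.mem_B.2 ⟨v, Fk_of_Ak hr hv, e⟩,
  fun w hw => ⟨w, ⟨Fk_of_Ak hr hw.1, hw.2⟩, mem_of_eq (zero_mem _) (sub_self _)⟩⟩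

theorem Ac_good : (Ac h).Good := ((toA h true 0).good_iff (toA_qiso h le_rfl)).1 (Fc_good h 0)

theorem Fc_chi (m : ℕ) : (Fc h true 0).chi = (Fc h true m).chi +
    ∑ r ∈ Finset.range m, (-1) ^ r * chiP N (degL d : Multiset ℕ) r := by
  induction m with
  | zero => simp
  | succ m ih =>
    rw [ih, Finset.sum_range_succ, (F_ses h m).chi_add (Fc_good h _)
      ((Cx.shift_good _).2 (Wc_good h _)), Cx.shift_chi, Wc_chi, Int.negOnePow_neg,
      Int.coe_negOnePow_natCast]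
    push_cast; ring

theorem Ac_chi {n : ℕ} (hn : n + Fintype.card ι = N) :
    (Ac h).chi = ∑ r ∈ Finset.range (n + 1), (-1) ^ r * chiP N (degL d : Multiset ℕ) r := by
  rw [← (toA h true 0).chi_eq (toA_qiso h le_rfl), Fc_chi h (n + 1),
    (Cx.good_of_exact (Fc_exact h (by omega))).2, zero_add]

theorem rank_le {U V W' Z : Type} [AddCommGroup U] [Module ℂ U] [AddCommGroup V] [Module ℂ V]
    [AddCommGroup W'] [Module ℂ W'] [AddCommGroup Z] [Module ℂ Z] {φ : U →ₗ[ℂ] V} {ψ : V →ₗ[ℂ] W'}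
    (e : Function.Exact φ ψ) [FiniteDimensional ℂ V] [FiniteDimensional ℂ W'] (ρ : V →ₗ[ℂ] Z) :
    Module.finrank ℂ (LinearMap.range ρ) ≤
      Module.finrank ℂ (LinearMap.range (ρ ∘ₗ φ)) + Module.finrank ℂ W' := by
  have h1 := Cx.rank_add_of_exact e
  have h2 := ρ.finrank_range_add_finrank_ker
  have h3 := (LinearMap.range ψ).finrank_le
  have h4 := (ρ.domRestrict (LinearMap.range φ)).finrank_range_add_finrank_ker
  have h5 : Module.finrank ℂ (LinearMap.ker (ρ.domRestrict (LinearMap.range φ))) ≤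
      Module.finrank ℂ (LinearMap.ker ρ) :=
    LinearMap.finrank_le_finrank_of_injective (f := (LinearMap.range φ).subtype.restrict
      (p := LinearMap.ker (ρ.domRestrict _)) (q := LinearMap.ker ρ) fun _ hx => hx)
      fun x y e => Subtype.ext (Subtype.ext (congrArg (fun z : LinearMap.ker ρ => z.1) e))
  rw [LinearMap.range_domRestrict, ← LinearMap.range_comp] at h4
  omega

/-! ## Complex conjugation on projective space -/

/-- Complex conjugation. -/
noncomputable def cjE (N : ℕ) : E N →L[ℝ] E N :=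
  ContinuousLinearMap.pi fun j => (sgL false).comp (ContinuousLinearMap.proj j)

@[simp] theorem cjE_apply (x : E N) (j : Fin (N + 1)) : cjE N x j = conj (x j) := by simp [cjE]

theorem cjE_cjE (x : E N) : cjE N (cjE N x) = x := by funext j; simp

theorem cjE_smul (t : ℂ) (x : E N) : cjE N (t • x) = conj t • cjE N x := by funext j; simp

theorem cjE_ne {x : E N} (hx : x ≠ 0) : cjE N x ≠ 0 := fun h => hx (by
  rw [← cjE_cjE x, h, map_zero])

theorem vec_comp_cjE (s : Bool) (v : E N) : vec s v ∘ₗ tr (cjE N) = vec (!s) (cjE N v) := by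
  ext w
  cases s <;> simp [vec_apply, cjE_smul]

theorem pr_cjE (s : Bool) (w : W N) : pr s (tr (cjE N) w) = tr (cjE N) (pr (!s) w) := by
  ext v
  rw [pr_apply, tr_apply, pr_apply, ← vec_comp_cjE]; rfl

/-- Pull-back along complex conjugation. -/
noncomputable def CJ : SM N →ₗ[ℂ] SM N where
  toFun u := ⟨fun x => mp (tr (cjE N)) (u.1 (cjE N x)), fun x hx =>
    sm_T (mp (tr (cjE N))).toLinearMap ((u.sm (cjE_ne hx)).comp x (cjE N).contDiff.contDiffAt)⟩
  map_add' u v := Subtype.ext (funext fun x => by simp)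
  map_smul' c u := Subtype.ext (funext fun x => by simp)

theorem CJ_apply (u : SM N) (x : E N) : (CJ u).1 x = mp (tr (cjE N)) (u.1 (cjE N x)) := rfl

theorem CJ_eq (u : SM N) : (CJ u).1 = pb (cjE N) u.1 := by
  funext x; rw [CJ_apply, pb, ContinuousLinearMap.fderiv]

theorem CJ_CJ (u : SM N) : CJ (CJ u) = u := Subtype.ext (funext fun x => by
  rw [CJ_apply, CJ_apply, mp_mp, cjE_cjE, tr_comp,
    show (cjE N).comp (cjE N) = ContinuousLinearMap.id ℝ _ from ContinuousLinearMap.ext cjE_cjE,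
    tr_id, mp_id])

theorem DD_CJ (u : SM N) {x : E N} (hx : x ≠ 0) : (DD (CJ u)).1 x = (CJ (DD u)).1 x := by
  rw [DD_apply _ hx, CJ_eq, dd_pb (cjE N).contDiff.contDiffAt (u.df (cjE_ne hx)), CJ_apply,
    DD_apply _ (cjE_ne hx), pb, ContinuousLinearMap.fderiv]

theorem CJ_Om (hu : u ∈ Om p q) : CJ u ∈ Om q p := by
  refine ⟨⟨fun x hx => ⟨⟨mp_mem (pr_cjE true) (hu.1.1 _ (cjE_ne hx)).1.2,
    mp_mem (pr_cjE false) (hu.1.1 _ (cjE_ne hx)).1.1⟩, ?_⟩, fun t x ht hx => ?_⟩, fun x hx => ?_⟩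
  · rw [CJ_apply, ct_mp, vec_comp_cjE, Bool.not_false, hu.2 _ (cjE_ne hx), map_zero]
  · rw [CJ_apply, CJ_apply, cjE_smul, hu.1.2 _ _ (by simpa) (cjE_ne hx), map_smul]
    simp [mul_comm]
  · rw [CJ_apply, ct_mp, vec_comp_cjE, Bool.not_true, (hu.1.1 _ (cjE_ne hx)).2, map_zero]

theorem CJ_of_zero (h : ∀ x ≠ 0, u.1 x = 0) {x : E N} (hx : x ≠ 0) : (CJ u).1 x = 0 := by
  rw [CJ_apply, h _ (cjE_ne hx), map_zero]

theorem CJ_Fk (hu : u ∈ Fk s r k) : CJ u ∈ Fk (!s) r k :=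
  Fk_map CJ _ (fun _ h => Fk_of_zero fun _ hx => CJ_of_zero h hx)
    (fun p q e h _ hu => Om_le_Fk (CJ_Om hu) (by omega) (by cases s <;> simpa using h)) hu

omit [DecidableEq ι] in
theorem Nl_empty [IsEmpty ι] : u ∈ Nl F ↔ ∀ x ≠ 0, u.1 x = 0 := by
  have : fullL F = [] := by simp [fullL, allL]
  refine ⟨fun h x hx => ?_, Z0_le_Nl⟩
  have := h x ⟨hx, fun j => isEmptyElim j⟩
  rwa [‹fullL F = []›, pl, List.map_nil, ann_nil] at this

/-- Conjugation acts on the de Rham complex of projective space. -/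
noncomputable def cjH [IsEmpty ι] : Cx.Hom (Ac h) (Ac h) :=
  ⟨CJ, 1, one_ne_zero, fun _ _ hu => (CJ_Fk (Fk_of_Ak (s := true) le_rfl hu)).1,
    fun _ hu => (Ac_nul h).2 (Z0_le_Nl fun _ => CJ_of_zero (Nl_empty.1 ((Ac_nul h).1 hu))),
    fun _ u _ => by
      rw [one_smul]
      exact (Ac_nul h).2 (Z0_le_Nl fun x hx => sub_eq_zero.2 (DD_CJ u hx).symm)⟩

/-- Every class of degree two on projective space lies in `F^1` and in its conjugate. -/
theorem toA_surj_two [IsEmpty ι] (s : Bool) : (toA h s 1).Surj 2 := by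
  have h1 : (toA h true 1).Surj 2 := by
    obtain ⟨ξ, hQ⟩ := h.dualFam
    have h2 := (W_tri h hQ 0).left (Ec_good h hQ _ _ _) (Wc_good h _) 2
    have h3 := (Ec_zero h hQ (Finset.nodup_toList Finset.univ) 0).2.2 2
    have h4 := (OX_Ofd h).hi 0 (by simp [degL]) 2 (by norm_num)
    rw [if_neg (by simp [degL]; omega)] at h4
    rw [(Wc_exact h (by norm_num)).h_eq (q := 2 - 1)] at h2
    have h5 : ((Wc h 0).shift (-0)).Exact 2 := (Cx.shift_exact _).2
      (Cx.exact_of_h ((Wc_good h 0).1 _) (by rw [neg_zero, add_zero]; omega))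
    intro w hw
    have hw' : w ∈ (Fc h true 0).Z 2 := ⟨Fk_of_Ak le_rfl hw.1, hw.2⟩
    have := Cx.exact_iff.1 h5
    obtain ⟨y, hy⟩ := ((F_ses h 0).exact_mid 2 (Cx.cl w hw')).1 (Subsingleton.elim _ _)
    obtain ⟨u, hu, rfl⟩ := Cx.exists_cl y
    exact ⟨u, hu, (toA h true 0).map_B ((Cx.cl_eq_cl _ _).1 hy.symm)⟩
  cases s
  · intro w hw
    obtain ⟨u, hu, e⟩ := h1 _ ((cjH h).map_Z hw)
    refine ⟨CJ u, ⟨CJ_Fk hu.1, ((cjH h).map_Z ⟨hu.1.1, hu.2⟩).2⟩, mem_of_eq ((cjH h).map_B e) ?_⟩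
    change w - CJ u = CJ (CJ w - u)
    rw [map_sub, CJ_CJ]
  · exact h1

end Vale.Agent.P269.Hdg
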