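import Vale.Agent.P269.Hdg.ExD
import Vale.Agent.P269.Hdg.ExT
import Vale.Agent.P269.Hdg.Filt
import Vale.Agent.P281Z.Hg.G1

/-!
# Basic forms on the cone as forms on the manifold: definitions
-/

namespace Vale.Agent.P269.Hdg.Ex

open scoped Matrix
open Vale.Agent.P281Z.Hg (Fo lr jc pbk vl Rw)
open Vale.Agent.P272.K (Cm Chart At)

variable {N n : ℕ} {M : Type} [TopologicalSpace M]

/-- The pull-backs of a form on the cone along the sections `σ e`. -/
noncomputable def ps (σ : Chart n M → Cm n → E N) : SM N →ₗ[ℂ] Rw n M (Fo n) where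
  toFun u e z := lr (jc (σ e) z) *ᵥ fk (u.1 (σ e z))
  map_add' u v := by funext e z; simp [Matrix.mulVec_add]
  map_smul' c u := by funext e z; simp [Matrix.mulVec_smul]

theorem ps_apply (σ : Chart n M → Cm n → E N) (u : SM N) (e : Chart n M) (z : Cm n) :
    ps σ u e z = lr (jc (σ e) z) *ᵥ fk (u.1 (σ e z)) := rfl

theorem ps_eq (σ : Chart n M → Cm n → E N) (u : SM N) (e : Chart n M) :
    ps σ u e = pbk (σ e) fun y => fk (u.1 y) := rfl

variable [ChartedSpace (Cm n) M]

/-- Smooth forms on the manifold. -/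
abbrev SG (n : ℕ) (M : Type) [TopologicalSpace M] [ChartedSpace (Cm n) M] : Type :=
  P281Z.Hg.SF n M

/-- The form `β` on the manifold is induced by the form `u` on the cone. -/
def Ps (σ : Chart n M → Cm n → E N) (u : SM N) (β : SG n M) : Prop :=
  ∀ e m, At e m → vl β e (e m) = ps σ u e (e m)

variable {σ : Chart n M → Cm n → E N} {u v : SM N} {β γ : SG n M}

theorem Ps.sub (h : Ps σ u β) (h' : Ps σ v γ) : Ps σ (u - v) (β - γ) := fun e m hm => by
  rw [P281Z.Hg.vl_sub, h e m hm, h' e m hm, map_sub]; rfl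

end Vale.Agent.P269.Hdg.Ex
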