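import Vale.Agent.P281Z.Hg.G5a

/-!
# Weakly harmonic forms are strongly harmonic (row G5 of the Hodge block, instances kept local)
-/

open scoped Manifold ContDiff ComplexOrder Topology Matrix
open Filter MeasureTheory
open Vale.Agent.P272.K Vale.Agent.P272.K.C2 Vale.Agent.P272.K.INT Vale.Agent.P299.IX
  Vale.Agent.P299.IX.Fock Vale.Agent.P299.H863

noncomputable section

namespace Vale.Agent.P269.G5c

open Vale.Agent.P281Z Vale.Agent.P281Z.Hg Vale.Agent.P281Z.Hg.Ws

namespace Ws

theorem ws_abs {E ι V S : Type} [NormedAddCommGroup E] [NormedSpace ℝ E] [FiniteDimensional ℝ E]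
    [MeasurableSpace E] [BorelSpace E] [Fintype ι] {μ : Measure E} [μ.IsAddHaarMeasure]
    {c : Cov E ι} [NormedAddCommGroup V] [InnerProductSpace ℂ V] [FiniteDimensional ℂ V]
    [NormedAddCommGroup S] [InnerProductSpace ℂ S] {L : LocSp μ c V S} {D : S →ₗ[ℂ] S}
    (A : LocOp L L D) (hadj : ∀ u v, inner ℂ (D u) v = inner ℂ u (D v)) {u : ℕ → S}
    (hu : CauchySeq u) (hw : ∀ y, Tendsto (fun s => inner ℂ (D y) (u s)) atTop (𝓝 0)) :
    ∃ v : ℕ → S, Tendsto (fun s => ‖u s - v s‖) atTop (𝓝 0) ∧
      Tendsto (fun s => ‖D (v s)‖) atTop (𝓝 0) := by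
  have h1 : CauchySeq fun s => (u s : UniformSpace.Completion S) :=
    (UniformSpace.Completion.uniformContinuous_coe S).comp_cauchySeq hu
  obtain ⟨x, hx⟩ := cauchySeq_tendsto_of_complete h1
  have h2 : ∀ y : S, inner ℂ ((D y : S) : UniformSpace.Completion S) x =
      inner ℂ (y : UniformSpace.Completion S) (0 : UniformSpace.Completion S) := by
    intro y
    rw [inner_zero_right]
    have h3 : Tendsto (fun s => inner ℂ ((D y : S) : UniformSpace.Completion S)
        (u s : UniformSpace.Completion S)) atTop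
        (𝓝 (inner ℂ ((D y : S) : UniformSpace.Completion S) x)) :=
      tendsto_const_nhds.inner hx
    simp only [UniformSpace.Completion.inner_coe] at h3
    exact tendsto_nhds_unique h3 (hw y)
  have h4 : ∀ s : ℕ, ∃ v : S, ‖(v : UniformSpace.Completion S) - x‖ ≤ 1 / ((s : ℝ) + 1) ∧
      ‖((D v : S) : UniformSpace.Completion S) - 0‖ ≤ 1 / ((s : ℝ) + 1) := fun s =>
    weak_eq_strong hadj L.smoothing L.smoothing (LocOp.smoothingComm A A hadj) x 0 h2
      (by positivity)
  choose v hv1 hv2 using h4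
  have h5 : Tendsto (fun s : ℕ => 1 / ((s : ℝ) + 1)) atTop (𝓝 0) :=
    tendsto_one_div_add_atTop_nhds_zero_nat
  refine ⟨v, ?_, squeeze_zero (fun _ => norm_nonneg _) (fun s => ?_) h5⟩
  · have h6 := (tendsto_iff_norm_sub_tendsto_zero.1 hx).add h5
    rw [add_zero] at h6
    refine squeeze_zero (fun _ => norm_nonneg _) (fun s => ?_) h6
    rw [← UniformSpace.Completion.norm_coe, UniformSpace.Completion.coe_sub]
    refine (norm_sub_le_norm_sub_add_norm_sub _ x _).trans (add_le_add le_rfl ?_)
    rw [norm_sub_rev]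
    exact hv1 s
  · have h6 := hv2 s
    rwa [sub_zero, UniformSpace.Completion.norm_coe] at h6

section syn
variable {S : Type} [AddCommGroup S] [Module ℂ S] {D : ℕ} {X : Cx S D} {K : KP X}

/-- the space of forms with the `L²` norm -/
def Sw (_ : K.Alg ∧ K.KIa) : Type := S

@[reducible] def swA (h : K.Alg ∧ K.KIa) : AddCommGroup (Sw h) := inferInstanceAs (AddCommGroup S)

attribute [local instance] swA

@[reducible] def swM (h : K.Alg ∧ K.KIa) : Module ℂ (Sw h) := inferInstanceAs (Module ℂ S)

attribute [local instance] swM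

/-- the inner product -/
@[reducible] def core (h : K.Alg ∧ K.KIa) : InnerProductSpace.Core ℂ (Sw h) where
  inner a b := K.ip a b
  conj_inner_symm a b := (h.1.herm a b).symm
  re_inner_nonneg a := h.1.pos a
  add_left a b c := h.2.ip_add_l a b c
  smul_left a b r := h.2.ip_smul_l r a b
  definite a := h.1.defn a

@[reducible] def swN (h : K.Alg ∧ K.KIa) : NormedAddCommGroup (Sw h) := (core h).toNormedAddCommGroup

attribute [local instance] swN

@[reducible] def swI (h : K.Alg ∧ K.KIa) : InnerProductSpace ℂ (Sw h) :=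
  InnerProductSpace.ofCore (core h).toCore

attribute [local instance] swI

theorem inner_sw (h : K.Alg ∧ K.KIa) (a b : Sw h) : inner ℂ a b = K.ip a b := rfl

theorem norm_sw (h : K.Alg ∧ K.KIa) (a : Sw h) : ‖a‖ = K.nrm a := rfl

/-- the operator `d + d*` -/
def Dw (h : K.Alg ∧ K.KIa) : Sw h →ₗ[ℂ] Sw h := (X.d + K.ds : Module.End ℂ S)

theorem Dw_adj (h : K.Alg ∧ K.KIa) (a b : Sw h) : inner ℂ (Dw h a) b = inner ℂ a (Dw h b) := by
  have key : ∀ a b : S, K.ip (X.d a + K.ds a) b = K.ip a (X.d b + K.ds b) := by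
    intro a b
    rw [h.2.ip_add_l, h.2.ip_add_r, h.2.adjd a b, h.1.herm (X.d a) b, h.2.adjd b a,
      ← h.1.herm, add_comm]
  exact key a b

end syn

attribute [local instance] swA swM swN swI

variable {d : ℕ} {M : Type} [TopologicalSpace M] [ChartedSpace (Cm d) M] [T2Space M]
  [CompactSpace M] [IsManifold 𝓘(ℂ, Cm d) ω M]

/-- the metric as an operator -/
def GE (w : Matrix (Fin d) (Fin d) ℂ) : Vd d →L[ℂ] Vd d := Matrix.toEuclideanCLM (𝕜 := ℂ) (Gm w)

theorem inner_GE (w : Matrix (Fin d) (Fin d) ℂ) (u v : Vd d) :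
    inner ℂ u (GE w v) = star u.ofLp ⬝ᵥ (Gm w *ᵥ v.ofLp) := by
  rw [EuclideanSpace.inner_eq_star_dotProduct, GE, Matrix.ofLp_toEuclideanCLM, dotProduct_comm]

omit [T2Space M] [CompactSpace M] [IsManifold 𝓘(ℂ, Cm d) ω M] in
theorem GE_smooth {w : Rw d M (Matrix (Fin d) (Fin d) ℂ)} (hw : IsKahler w) {e : Chart d M}
    (he : e ∈ atlas (Cm d) M) : ContDiffOn ℝ ∞ (fun z => GE (w e z)) e.target := by
  intro z hz
  have h1 := mc_Gm (fun i j => hw.smooth e _ (at_symm he hz) i j)
    (hw.posDef e _ (at_symm he hz)).det_pos.ne'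
  rw [e.right_inv hz] at h1
  exact (contDiffAt_clm h1).contDiffWithinAt

omit [ChartedSpace (Cm d) M] [T2Space M] [CompactSpace M] [IsManifold 𝓘(ℂ, Cm d) ω M] in
theorem cpt_supp {e : Chart d M} {v : Cm d → Vd d} (hv : TestV e.target v) :
    IsCompact (e.symm '' tsupport v) ∧ e.symm '' tsupport v ⊆ e.source :=
  ⟨(show IsCompact (tsupport v) from hv.cpt).image_of_continuousOn
    (e.continuousOn_symm.mono hv.supp), by
    rintro _ ⟨z, hz, rfl⟩; exact e.map_target (hv.supp hz)⟩

/-- extension by zero -/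
theorem exists_ext (g1 : G1 d M) {e : Chart d M} (he : e ∈ atlas (Cm d) M) :
    ∃ T : (Cm d → Vd d) → SF d M, ∀ v, TestV e.target v →
      (∀ z ∈ e.target, rE (T v) e z = v z) ∧ ∀ x, x ∉ e.symm '' tsupport v → T v ∈ ZP x := by
  have h : ∀ v : Cm d → Vd d, ∃ u : SF d M, TestV e.target v →
      (∀ z ∈ e.target, rE u e z = v z) ∧ ∀ x, x ∉ e.symm '' tsupport v → u ∈ ZP x := by
    intro v
    by_cases hv : TestV e.target v
    · obtain ⟨u, h1, h2⟩ := g1.loc e (e.symm '' tsupport v) (fun z => (v z).ofLp) he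
        (cpt_supp hv).1 (cpt_supp hv).2
        ((PiLp.contDiff_ofLp (p := 2)).comp hv.smooth).contDiffOn fun z hz h0 => by
          rw [hv.zero_off fun h => h0 ⟨_, ⟨z, h, rfl⟩, e.right_inv hz⟩]; rfl
      exact ⟨u, fun _ => ⟨fun z hz => by rw [rE, h1 z hz], h2⟩⟩
    · exact ⟨0, fun h => absurd h hv⟩
  choose T hT using h
  exact ⟨T, hT⟩

theorem ip_ext (g4 : G4 d M) {X : Cx (SF d M) d} {w : Rw d M (Matrix (Fin d) (Fin d) ℂ)}
    {K : KP X} (hX : RealX X) (hw : IsKahler w) (hK : RealK w K) {e : Chart d M}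
    (he : e ∈ atlas (Cm d) M) {v : Cm d → Vd d} (hv : TestV e.target v) {a : SF d M}
    (h1 : ∀ z ∈ e.target, rE a e z = v z) (h2 : ∀ x, x ∉ e.symm '' tsupport v → a ∈ ZP x)
    (s : SF d M) : K.ip a s = ∫ z, inner ℂ (v z) (GE (w e z) (rE s e z)) := by
  obtain ⟨k1, k2, -⟩ := g4 X w K hX hw hK
  obtain ⟨c1, c2⟩ := cpt_supp hv
  have hs : ContDiffOn ℝ ∞ (rE s e) e.target := fun z hz => (rE_smooth s he hz).contDiffWithinAt
  have hG : ContDiffOn ℝ ∞ (fun z => GE (w e z) (rE s e z)) e.target :=
    ((ContinuousLinearMap.restrictScalarsL ℂ (Vd d) (Vd d) ℝ ℝ).contDiff.comp_contDiffOn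
      (GE_smooth hw he)).clm_apply hs
  have hT : TestV e.target fun z => inner ℂ (v z) (GE (w e z) (rE s e z)) :=
    TestV.mk' e.open_target hv.cpt hv.supp (hv.smooth.contDiffOn.inner ℂ hG) fun z hz => by
      rw [hv.zero_off hz, inner_zero_left]
  have hi : Integrable (fun z => inner ℂ (v z) (GE (w e z) (rE s e z))) volume :=
    hT.smooth.continuous.integrable_of_hasCompactSupport hT.cpt
  have hz : ∀ e' x, At e' x → x ∉ e.symm '' tsupport v →
      star (vl a e' (e' x)) ⬝ᵥ (Gm (w e' (e' x)) *ᵥ vl s e' (e' x)) = 0 := by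
    intro e' x hx h0
    rw [h2 x h0 e' hx, star_zero, zero_dotProduct]
  have heq : ∀ z ∈ e.target, star (vl a e z) ⬝ᵥ (Gm (w e z) *ᵥ vl s e z) =
      inner ℂ (v z) (GE (w e z) (rE s e z)) := by
    intro z hz
    rw [inner_GE, ← h1 z hz]
    rfl
  rw [k1, itg, intX_of_support (k2 a s).1 he c1.isClosed c2 (fun e' x hx h0 => by
      rw [hz e' x hx h0, Complex.zero_re]),
    intX_of_support (k2 a s).2 he c1.isClosed c2 (fun e' x hx h0 => by
      rw [hz e' x hx h0, Complex.zero_im]),
    ← setIntegral_eq_integral_of_forall_compl_eq_zero (s := e.target)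
      (fun z hz => hT.zero_off fun h => hz (hT.supp h)),
    ← setIntegral_re_add_im hi.integrableOn, mul_comm]
  congr 2
  · exact setIntegral_congr_fun e.open_target.measurableSet fun z hz => congrArg _ (heq z hz)
  · exact congrArg _ (setIntegral_congr_fun e.open_target.measurableSet fun z hz =>
      congrArg _ (heq z hz))

variable (d M) in
/-- the covering by the charts of the partition of unity -/
def cov : Cov (Cm d) (Fin (part d M).N) where
  Ω i := ((part d M).e i).target
  isOpen i := ((part d M).e i).open_target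
  χ i := ((part d M).e i).target.indicator fun z => (part d M).ρ i (((part d M).e i).symm z)
  test i := by
    have hs := (part d M).supp i
    have ho := ((part d M).e i).open_target
    refine TestV.mk' ho ((isClosed_tsupport _).isCompact.image_of_continuousOn
      (((part d M).e i).continuousOn.mono hs)) ?_ ?_ ?_
    · rintro _ ⟨x, hx, rfl⟩; exact ((part d M).e i).map_source (hs hx)
    · refine ContDiffOn.congr (fun z hz => ?_) fun z hz => Set.indicator_of_mem hz _
      have h1 := (part d M).smooth i _ _ (at_symm ((part d M).mem i) hz)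
      rw [((part d M).e i).right_inv hz] at h1
      exact h1.contDiffWithinAt
    · intro z hz
      by_cases h : z ∈ ((part d M).e i).target
      · rw [Set.indicator_of_mem h]
        exact image_eq_zero_of_notMem_tsupport fun h' =>
          hz ⟨_, h', ((part d M).e i).right_inv h⟩
      · exact Set.indicator_of_notMem h _

theorem vl_piece (i : Fin (part d M).N) {a s : SF d M}
    (h1 : ∀ z ∈ ((part d M).e i).target, rE a ((part d M).e i) z =
      (cov d M).χ i z • rE s ((part d M).e i) z) {K : Set M} (hK : K ⊆ ((part d M).e i).source)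
    (h2 : ∀ x, x ∉ K → a ∈ ZP x) {e : Chart d M} {x : M} (hx : At e x) :
    vl a e (e x) = ((part d M).ρ i x : ℂ) • vl s e (e x) := by
  by_cases h : x ∈ ((part d M).e i).source
  · have hi : At ((part d M).e i) x := ⟨(part d M).mem i, h⟩
    have h3 := h1 _ (((part d M).e i).map_source h)
    have h4 : (cov d M).χ i ((part d M).e i x) = (part d M).ρ i x := by
      refine (Set.indicator_of_mem (((part d M).e i).map_source h)
        fun z => (part d M).ρ i (((part d M).e i).symm z)).trans ?_
      rw [((part d M).e i).left_inv h]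
    rw [h4] at h3
    have h5 : vl a ((part d M).e i) ((part d M).e i x) =
        ((part d M).ρ i x : ℂ) • vl s ((part d M).e i) ((part d M).e i x) :=
      congrArg WithLp.ofLp h3
    rw [(vl_isF a).ch e _ x hx hi, (vl_isF s).ch e _ x hx hi, h5, Matrix.mulVec_smul]
  · rw [h2 x (fun h' => h (hK h')) e hx,
      image_eq_zero_of_notMem_tsupport fun h' => h ((part d M).supp i h')]
    simp

theorem exists_loc (f2 : F2b) (g1 : G1 d M) (g4 : G4 d M) {X : Cx (SF d M) d}
    {w : Rw d M (Matrix (Fin d) (Fin d) ℂ)} {K : KP X} (hX : RealX X) (hw : IsKahler w)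
    (hK : RealK w K) (h : K.Alg ∧ K.KIa) :
    ∃ L : LocSp (volume : Measure (Cm d)) (cov d M) (Vd d) (Sw h),
      ∀ i s, L.r i s = rE s ((part d M).e i) := by
  choose T hT using fun i => exists_ext g1 ((part d M).mem i)
  have hp : ∀ i, ∀ z ∈ ((part d M).e i).target, (Gm (w ((part d M).e i) z)).PosDef := by
    intro i z hz
    have h1 := hw.posDef _ _ (at_symm ((part d M).mem i) hz)
    rw [((part d M).e i).right_inv hz] at h1
    exact f2.G_pos _ h1
  have hsm : ∀ i (s : SF d M), ContDiffOn ℝ ∞ (rE s ((part d M).e i)) ((part d M).e i).target :=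
    fun i s z hz => (rE_smooth s ((part d M).mem i) hz).contDiffWithinAt
  refine ⟨{ r := fun i s => rE s ((part d M).e i)
            r_add := fun _ _ _ _ _ => rfl
            r_smul := fun _ _ _ _ _ => rfl
            r_smooth := hsm
            ext := T
            r_ext := fun i v hv => (hT i v hv).1
            G := fun i z => GE (w ((part d M).e i) z)
            G_smooth := fun i => GE_smooth hw ((part d M).mem i)
            G_symm := fun i z hz u v => ?_
            G_pos := fun i z hz v hv => ?_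
            inner_ext := fun i v s hv =>
              ip_ext g4 hX hw hK ((part d M).mem i) hv (hT i v hv).1 (hT i v hv).2 s
            sum_ext := fun s => ?_ }, fun _ _ => rfl⟩
  · rw [← inner_conj_symm, inner_GE, inner_GE, starRingEnd_apply, ← Matrix.star_dotProduct_star,
      star_star, Matrix.star_mulVec, (hp i z hz).isHermitian.eq, Matrix.dotProduct_mulVec]
  · rw [inner_GE]
    exact (hp i z hz).re_dotProduct_pos fun h0 => hv (by ext j; exact congrFun h0 j)
  · have key : ∑ i, T i (fun x => (cov d M).χ i x • rE s ((part d M).e i) x) = (s : SF d M) := by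
      refine g1.ext _ _ fun x => ⟨chartAt (Cm d) x, ⟨chart_mem_atlas _ _, mem_chart_source _ _⟩, ?_⟩
      have hx : At (chartAt (Cm d) x) x := ⟨chart_mem_atlas _ _, mem_chart_source _ _⟩
      have hv := fun i => ((cov d M).test i).smul ((cov d M).isOpen i) (hsm i s)
      rw [vl_sum, Finset.sum_congr rfl fun i _ =>
        vl_piece i (hT i _ (hv i)).1 (cpt_supp (hv i)).2 (hT i _ (hv i)).2 hx,
        ← Finset.sum_smul, ← Complex.ofReal_sum, (part d M).sum, Complex.ofReal_one, one_smul]
    exact key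

end Ws

attribute [local instance] Ws.swA Ws.swM Ws.swN Ws.swI

open Ws in
/-- row G5 -/
theorem g5 {d : ℕ} {M : Type} [TopologicalSpace M] [ChartedSpace (Cm d) M] [T2Space M]
    [CompactSpace M] [IsManifold 𝓘(ℂ, Cm d) ω M] (f2 : F2b) (g1 : G1 d M) (g4 : G4 d M) :
    G5 d M := by
  intro X w K hX _ hw hK hal ha _ u hu hw0
  have h : K.Alg ∧ K.KIa := ⟨hal, ha⟩
  obtain ⟨L, hL⟩ := exists_loc f2 g1 g4 hX hw hK h
  choose a b h1 h2 h3 using fun i => fo_D hX hw hK _ ((part d M).mem i)
  let A : LocOp L L (Dw h) := ⟨a, b, h1, h2, fun i s z hz => by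
    rw [hL, hL]; exact h3 i s z hz⟩
  have hc : ∀ u : ℕ → Sw h, K.Cau u → CauchySeq u := by
    intro u hu
    rw [Metric.cauchySeq_iff]
    intro ε hε
    obtain ⟨N, hN⟩ := hu ε hε
    exact ⟨N, fun r hr s hs => by rw [dist_eq_norm]; exact hN r hr s hs⟩
  exact ws_abs A (Dw_adj h) (hc u hu) hw0

end Vale.Agent.P269.G5c
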