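import Vale.Agent.P269.Hdg.Defs
import Vale.Agent.P281.MF.Hol

/-!
# Local geometry of the cone over a smooth complete intersection

Holomorphic charts straightening the equations, a holomorphic retraction onto the cone, division by
one equation modulo the others, and smooth homogeneous vector fields dual to the gradients.
-/

set_option linter.unusedSectionVars false

namespace Vale.Agent.P269.Hdg

open MvPolynomial Topology Filter
open scoped ContDiff

variable {N : ℕ} {ι : Type} [Fintype ι] [DecidableEq ι]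
  {F : ι → MvPolynomial (Fin (N + 1)) ℂ} {d : ι → ℕ}

theorem analyticAt_eval (f : MvPolynomial (Fin (N + 1)) ℂ) (x : E N) :
    AnalyticAt ℂ (fun y : E N => eval y f) x :=
  AnalyticOnNhd.eval_continuousLinearMap (ContinuousLinearMap.id ℂ (E N)) f x (Set.mem_univ _)

/-- The differential of a polynomial function. -/
noncomputable def dEval (f : MvPolynomial (Fin (N + 1)) ℂ) (x : E N) : E N →L[ℂ] ℂ :=
  ∑ i, eval x (pderiv i f) • ContinuousLinearMap.proj i

theorem dEval_apply (f : MvPolynomial (Fin (N + 1)) ℂ) (x v : E N) :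
    dEval f x v = ∑ i, eval x (pderiv i f) * v i := by
  simp [dEval]

theorem hasFDerivAt_eval (f : MvPolynomial (Fin (N + 1)) ℂ) (x : E N) :
    HasFDerivAt (fun y : E N => eval y f) (dEval f x) x := by
  induction f using MvPolynomial.induction_on with
  | C a =>
    have : dEval (C a : MvPolynomial (Fin (N + 1)) ℂ) x = 0 := by
      ext v; simp [dEval_apply]
    rw [this]
    simpa using hasFDerivAt_const a x
  | add p q hp hq =>
    have : dEval (p + q) x = dEval p x + dEval q x := by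
      ext v; simp [dEval_apply, add_mul, Finset.sum_add_distrib]
    rw [this]
    simp only [map_add]
    exact hp.add hq
  | mul_X p i hp =>
    have h1 : HasFDerivAt (fun y : E N => y i) (ContinuousLinearMap.proj i : E N →L[ℂ] ℂ) x :=
      (ContinuousLinearMap.proj i : E N →L[ℂ] ℂ).hasFDerivAt
    have h2 := hp.mul h1
    have : dEval (p * X i) x =
        eval x p • (ContinuousLinearMap.proj i : E N →L[ℂ] ℂ) + x i • dEval p x := by
      refine ContinuousLinearMap.ext fun v => ?_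
      simp only [dEval_apply, Derivation.leibniz, smul_eq_mul, map_add, map_mul, eval_X,
        pderiv_X, add_apply, smul_apply,
        ContinuousLinearMap.proj_apply, add_mul, Finset.sum_add_distrib, Finset.mul_sum]
      congr 1
      · rw [Finset.sum_eq_single i]
        · simp
        · intro b _ hb
          simp [hb.symm]
        · simp
      · exact Finset.sum_congr rfl fun l _ => by ring
    rw [this]
    simp only [map_mul, eval_X]
    exact h2

theorem fderiv_eval (f : MvPolynomial (Fin (N + 1)) ℂ) (x v : E N) :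
    fderiv ℂ (fun y : E N => eval y f) x v = ∑ i, eval x (pderiv i f) * v i := by
  rw [(hasFDerivAt_eval f x).fderiv, dEval_apply]

theorem eval_smul_of_hom {f : MvPolynomial (Fin (N + 1)) ℂ} {e : ℕ} (hf : f.IsHomogeneous e)
    (t : ℂ) (x : E N) : eval (t • x) f = t ^ e * eval x f := by
  rw [eval_eq', eval_eq', Finset.mul_sum]
  refine Finset.sum_congr rfl fun m hm => ?_
  have hdeg : ∑ i, m i = e := by
    have h1 := hf (mem_support_iff.1 hm)
    rw [← Finsupp.degree_eq_sum, Finsupp.degree_eq_weight_one]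
    exact h1
  simp only [Pi.smul_apply, smul_eq_mul, mul_pow, Finset.prod_mul_distrib,
    Finset.prod_pow_eq_pow_sum, hdeg]
  ring

/-- The Jacobian matrix. -/
noncomputable def jacM (F : ι → MvPolynomial (Fin (N + 1)) ℂ) (x : E N) :
    Matrix ι (Fin (N + 1)) ℂ :=
  Matrix.of fun j i => eval x (pderiv i (F j))

open scoped ComplexOrder Matrix in
theorem posDef_gram (h : IsCI F d) {x : E N} (hx : x ∈ cone F) :
    (jacM F x * (jacM F x)ᴴ).PosDef :=
  Matrix.PosDef.mul_conjTranspose_self _ (Matrix.vecMul_injective_iff.2 (h.jac x hx))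

open scoped ComplexOrder Matrix in
theorem exists_dual_at (h : IsCI F d) {x : E N} (hx : x ∈ cone F) :
    ∃ V : ι → E N, ∀ i j, dEval (F i) x (V j) = if i = j then 1 else 0 := by
  have hu := (Matrix.isUnit_iff_isUnit_det _).1 (posDef_gram h hx).isUnit
  refine ⟨fun j l => ((jacM F x)ᴴ * (jacM F x * (jacM F x)ᴴ)⁻¹) l j, fun i j => ?_⟩
  have h1 : jacM F x * ((jacM F x)ᴴ * (jacM F x * (jacM F x)ᴴ)⁻¹) = 1 := by
    rw [← Matrix.mul_assoc, Matrix.mul_nonsing_inv _ hu]
  have h2 := congrFun (congrFun h1 i) j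
  rw [Matrix.mul_apply, Matrix.one_apply] at h2
  rw [dEval_apply, ← h2]
  rfl

theorem exists_chart (h : IsCI F d) {x : E N} (hx : x ∈ cone F) :
    ∃ (ψ φ : E N → E N) (V : ι → E N) (J : ι → E N →L[ℂ] ℂ),
      (∀ i j, J i (V j) = if i = j then 1 else 0) ∧ AnalyticAt ℂ ψ x ∧ AnalyticAt ℂ φ (ψ x) ∧
      (∀ᶠ y in 𝓝 x, φ (ψ y) = y) ∧ (∀ᶠ z in 𝓝 (ψ x), ψ (φ z) = z) ∧
      ∀ y j, J j (ψ y) = eval y (F j) := by
  obtain ⟨V, hV⟩ := exists_dual_at h hx
  set ψ : E N → E N := fun y => y + ∑ j, (eval y (F j) - dEval (F j) x y) • V j with hψ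
  have han : AnalyticAt ℂ ψ x := by
    refine analyticAt_id.add (Finset.analyticAt_fun_sum _ fun j _ => ?_)
    exact ((analyticAt_eval (F j) x).sub ((dEval (F j) x).analyticAt x)).smul analyticAt_const
  have hder : HasFDerivAt ψ (ContinuousLinearEquiv.refl ℂ (E N) : E N →L[ℂ] E N) x := by
    have h1 : ∀ j, HasFDerivAt (fun y : E N => (eval y (F j) - dEval (F j) x y) • V j)
        (0 : E N →L[ℂ] E N) x := by
      intro j
      have h2 := ((hasFDerivAt_eval (F j) x).sub (dEval (F j) x).hasFDerivAt).smul_const (V j)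
      simpa using h2
    have h3 := (hasFDerivAt_id x).add (HasFDerivAt.fun_sum (u := Finset.univ) fun j _ => h1 j)
    rw [Finset.sum_const_zero, add_zero] at h3
    exact h3
  have hs : HasStrictFDerivAt ψ (ContinuousLinearEquiv.refl ℂ (E N) : E N →L[ℂ] E N) x := by
    have := han.hasStrictFDerivAt
    rwa [hder.fderiv] at this
  refine ⟨ψ, hs.localInverse _ _ _, V, fun j => dEval (F j) x, hV, han, ?_,
    hs.eventually_left_inverse, hs.eventually_right_inverse, fun y j => ?_⟩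
  · exact (hs.toOpenPartialHomeomorph ψ).analyticAt_symm' hs.mem_toOpenPartialHomeomorph_source
      han hder.fderiv
  · simp [hψ, map_sum, hV]

/-- The projection along the dual vectors. -/
noncomputable def prj (V : ι → E N) (J : ι → E N →L[ℂ] ℂ) : E N →L[ℂ] E N :=
  ContinuousLinearMap.id ℂ (E N) - ∑ j, (J j).smulRight (V j)

theorem prj_apply (V : ι → E N) (J : ι → E N →L[ℂ] ℂ) (z : E N) :
    prj V J z = z - ∑ j, J j z • V j := by
  simp [prj]

theorem J_prj {V : ι → E N} {J : ι → E N →L[ℂ] ℂ}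
    (hVJ : ∀ i j, J i (V j) = if i = j then 1 else 0) (i : ι) (z : E N) :
    J i (prj V J z) = 0 := by
  simp [prj_apply, map_sum, hVJ]

theorem prj_of_zero {V : ι → E N} {J : ι → E N →L[ℂ] ℂ} {z : E N} (hz : ∀ j, J j z = 0) :
    prj V J z = z := by
  simp [prj_apply, hz]

theorem exists_retr (h : IsCI F d) {x : E N} (hx : x ∈ cone F) :
    ∃ r : E N → E N, AnalyticAt ℂ r x ∧ r x = x ∧ ∀ᶠ y in 𝓝 x, r y ∈ cone F ∧
      (∀ v, fderiv ℂ r y v ∈ tang F (r y)) ∧
      (y ∈ cone F → r y = y ∧ ∀ v ∈ tang F y, fderiv ℂ r y v = v) := by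
  obtain ⟨ψ, φ, V, J, hVJ, hψ, hφ, hl, hr, hJ⟩ := exists_chart h hx
  have hPx : prj V J (ψ x) = ψ x := prj_of_zero fun j => by rw [hJ, hx.2]
  have hPψ : AnalyticAt ℂ (fun y => prj V J (ψ y)) x := ((prj V J).analyticAt _).comp hψ
  have hr_an : AnalyticAt ℂ (fun y => φ (prj V J (ψ y))) x :=
    AnalyticAt.comp (g := φ) (f := fun y => prj V J (ψ y)) (by rw [hPx]; exact hφ) hPψ
  have hrx : φ (prj V J (ψ x)) = x := by rw [hPx]; exact hl.self_of_nhds
  have ht : Tendsto (fun y => prj V J (ψ y)) (𝓝 x) (𝓝 (ψ x)) := by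
    have := hPψ.continuousAt.tendsto
    rwa [hPx] at this
  have hzero : ∀ᶠ y in 𝓝 x, ∀ j, eval (φ (prj V J (ψ y))) (F j) = 0 := by
    filter_upwards [ht.eventually hr] with y hy j
    rw [← hJ, hy, J_prj hVJ]
  have hne : ∀ᶠ y in 𝓝 x, φ (prj V J (ψ y)) ≠ 0 := by
    have := hr_an.continuousAt.tendsto
    rw [hrx] at this
    exact this.eventually (eventually_ne_nhds hx.1)
  refine ⟨fun y => φ (prj V J (ψ y)), hr_an, hrx, ?_⟩
  filter_upwards [hzero.eventually_nhds, hne, hl.eventually_nhds, hr_an.eventually_analyticAt,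
    hψ.eventually_analyticAt, hψ.continuousAt.tendsto.eventually hφ.eventually_analyticAt]
    with y hy0 hy1 hy2 hy3 hy4 hy5
  refine ⟨⟨hy1, hy0.self_of_nhds⟩, fun v j => ?_, fun hy => ?_⟩
  · have h1 := (hasFDerivAt_eval (F j) (φ (prj V J (ψ y)))).comp y hy3.differentiableAt.hasFDerivAt
    have h2 : HasFDerivAt (fun y => eval (φ (prj V J (ψ y))) (F j)) (0 : E N →L[ℂ] ℂ) y :=
      (hasFDerivAt_const (0 : ℂ) y).congr_of_eventuallyEq (hy0.mono fun z hz => hz j)
    have h3 := congrArg (fun L : E N →L[ℂ] ℂ => L v) (h1.unique h2)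
    simpa [dEval_apply] using h3
  · have hPy : prj V J (ψ y) = ψ y := prj_of_zero fun j => by rw [hJ, hy.2]
    refine ⟨by rw [hPy]; exact hy2.self_of_nhds, fun v hv => ?_⟩
    have dψ := hy4.differentiableAt.hasFDerivAt
    have dφ := hy5.differentiableAt.hasFDerivAt
    have h1 : HasFDerivAt (fun y => φ (prj V J (ψ y)))
        ((fderiv ℂ φ (ψ y)).comp ((prj V J).comp (fderiv ℂ ψ y))) y :=
      HasFDerivAt.comp (g := φ) (f := fun y => prj V J (ψ y)) y (by rw [hPy]; exact dφ)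
        ((prj V J).hasFDerivAt.comp y dψ)
    have h2 : (fderiv ℂ φ (ψ y)).comp (fderiv ℂ ψ y) = ContinuousLinearMap.id ℂ (E N) :=
      (dφ.comp y dψ).unique ((hasFDerivAt_id y).congr_of_eventuallyEq hy2)
    have h3 : ∀ j, J j (fderiv ℂ ψ y v) = 0 := by
      intro j
      have h4 : HasFDerivAt (fun y => eval y (F j)) ((J j).comp (fderiv ℂ ψ y)) y := by
        have := (J j).hasFDerivAt.comp y dψ
        rwa [show (J j) ∘ ψ = fun y => eval y (F j) from funext fun z => hJ z j] at this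
      have h5 := congrArg (fun L : E N →L[ℂ] ℂ => L v) (h4.unique (hasFDerivAt_eval (F j) y))
      simp only [ContinuousLinearMap.comp_apply, dEval_apply] at h5
      rw [h5]
      exact hv j
    rw [h1.fderiv]
    simp only [ContinuousLinearMap.comp_apply]
    rw [prj_of_zero h3]
    exact congrArg (fun L : E N →L[ℂ] E N => L v) h2

theorem fderiv_tang {B : Type} [NormedAddCommGroup B] [NormedSpace ℝ B] (h : IsCI F d) {x : E N}
    (hx : x ∈ cone F) {g : E N → B} (hg : DifferentiableAt ℝ g x)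
    (h0 : ∀ᶠ y in 𝓝 x, y ∈ cone F → g y = 0) {v : E N} (hv : v ∈ tang F x) :
    fderiv ℝ g x v = 0 := by
  obtain ⟨r, hr, hrx, hev⟩ := exists_retr h hx
  have ht : Tendsto r (𝓝 x) (𝓝 x) := by
    have := hr.continuousAt.tendsto
    rwa [hrx] at this
  have h1 : ∀ᶠ y in 𝓝 x, g (r y) = 0 := by
    filter_upwards [hev, ht.eventually h0] with y hy hy' using hy' hy.1
  have dr : HasFDerivAt r ((fderiv ℂ r x).restrictScalars ℝ) x :=
    hr.differentiableAt.hasFDerivAt.restrictScalars ℝ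
  have h2 : HasFDerivAt (fun y => g (r y))
      ((fderiv ℝ g x).comp ((fderiv ℂ r x).restrictScalars ℝ)) x :=
    HasFDerivAt.comp (g := g) (f := r) x (by rw [hrx]; exact hg.hasFDerivAt) dr
  have h3 : HasFDerivAt (fun y => g (r y)) (0 : E N →L[ℝ] B) x :=
    (hasFDerivAt_const (0 : B) x).congr_of_eventuallyEq h1
  have h4 := congrArg (fun L : E N →L[ℝ] B => L v) (h2.unique h3)
  have h5 := (hev.self_of_nhds.2.2 hx).2 v hv
  simpa [h5] using h4

open Metric in
/-- Division along a complex line, with holomorphic dependence on the base point. -/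
theorem exists_line_div {G : E N → ℂ} {z₀ : E N} (hG : AnalyticAt ℂ G z₀) (V : E N)
    (L : E N →L[ℂ] ℂ) (hL : L z₀ = 0) :
    ∃ Q : E N → ℂ, AnalyticAt ℂ Q z₀ ∧ ∀ᶠ z in 𝓝 z₀, G z - G (z - L z • V) = L z * Q z := by
  obtain ⟨ρ, hρ, hball⟩ := Metric.eventually_nhds_iff_ball.1 hG.eventually_analyticAt
  have hGd : DifferentiableOn ℂ G (ball z₀ ρ) := fun z hz =>
    (hball z hz).differentiableAt.differentiableWithinAt
  obtain ⟨R, hR, hRV⟩ : ∃ R : ℝ, 0 < R ∧ 2 * R * ‖V‖ ≤ ρ / 2 := by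
    refine ⟨ρ / (4 * (‖V‖ + 1)), by positivity, ?_⟩
    have h1 : 0 < ‖V‖ + 1 := by positivity
    rw [show 2 * (ρ / (4 * (‖V‖ + 1))) * ‖V‖ = ρ / 2 * (‖V‖ / (‖V‖ + 1)) by field_simp; ring]
    exact mul_le_of_le_one_right (by positivity) ((div_le_one h1).2 (by linarith))
  set U : Set (E N) := ball z₀ (ρ / 2) ∩ {z | ‖L z‖ < R / 2} with hU
  set W : Set ℂ := ball 0 (2 * R) ∩ {w | R / 2 < ‖w‖} with hW
  have hUo : IsOpen U := isOpen_ball.inter (isOpen_lt (by fun_prop) continuous_const)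
  have hWo : IsOpen W := isOpen_ball.inter (isOpen_lt continuous_const (by fun_prop))
  have hz₀ : z₀ ∈ U := ⟨mem_ball_self (by positivity), by simp [hL, hR]⟩
  have hmem : ∀ z ∈ ball z₀ (ρ / 2), ∀ w ∈ ball (0 : ℂ) (2 * R), z + w • V ∈ ball z₀ ρ := by
    intro z hz w hw
    rw [mem_ball_zero_iff] at hw
    rw [mem_ball, dist_eq_norm] at hz ⊢
    have h1 : ‖w • V‖ ≤ 2 * R * ‖V‖ := by
      rw [norm_smul]
      exact mul_le_mul_of_nonneg_right hw.le (norm_nonneg _)
    calc ‖z + w • V - z₀‖ = ‖(z - z₀) + w • V‖ := by congr 1; abel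
      _ ≤ ‖z - z₀‖ + ‖w • V‖ := norm_add_le _ _
      _ < ρ := by linarith
  have hsW : sphere (0 : ℂ) R ⊆ W := by
    intro w hw
    rw [mem_sphere_zero_iff_norm] at hw
    refine ⟨by rw [mem_ball_zero_iff, hw]; linarith, ?_⟩
    show R / 2 < ‖w‖
    rw [hw]; linarith
  set K : E N × ℂ → ℂ := fun p => (p.2 + L p.1)⁻¹ * (p.2⁻¹ * (G (p.1 + p.2 • V) - G p.1)) with hK
  have hKd : DifferentiableOn ℂ K (U ×ˢ W) := by
    refine DifferentiableOn.mul (DifferentiableOn.inv (by fun_prop) ?_)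
      (DifferentiableOn.mul (DifferentiableOn.inv (by fun_prop) ?_) (DifferentiableOn.sub ?_ ?_))
    · rintro ⟨z, w⟩ ⟨hz, hw⟩ h0
      have h1 : ‖L z‖ < R / 2 := hz.2
      have h2 : R / 2 < ‖w‖ := hw.2
      have h3 : w = -L z := eq_neg_of_add_eq_zero_left h0
      rw [h3, norm_neg] at h2
      linarith
    · rintro ⟨z, w⟩ ⟨-, hw⟩ h0
      have h2 : R / 2 < ‖w‖ := hw.2
      have h3 : w = 0 := h0
      rw [h3, norm_zero] at h2
      linarith
    · exact hGd.comp (f := fun p : E N × ℂ => p.1 + p.2 • V) (by fun_prop)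
        fun p hp => hmem _ hp.1.1 _ hp.2.1
    · exact hGd.comp (f := fun p : E N × ℂ => p.1) (by fun_prop)
        fun p hp => ball_subset_ball (by linarith) hp.1.1
  have hI := Vale.Agent.P281.MF.differentiableOn_circleIntegral hR.le hUo hWo hsW hKd
  have hIa := Vale.Agent.P281.MF.analyticAt_of_differentiableOn hUo hI hz₀
  refine ⟨fun z => (2 * Real.pi * Complex.I)⁻¹ * ∮ t in C(0, R), K (z, t),
    analyticAt_const.mul hIa, ?_⟩
  filter_upwards [hUo.mem_nhds hz₀] with z hz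
  set f : ℂ → ℂ := fun w => G (z + w • V) with hf
  have hfd : DifferentiableOn ℂ f (ball 0 (2 * R)) :=
    hGd.comp (f := fun w : ℂ => z + w • V) (by fun_prop) fun w hw => hmem _ hz.1 _ hw
  have hds : DifferentiableOn ℂ (dslope f 0) (closedBall 0 R) :=
    ((Complex.differentiableOn_dslope (ball_mem_nhds _ (by positivity))).2 hfd).mono
      (closedBall_subset_ball (by linarith))
  have hw : -L z ∈ ball (0 : ℂ) R := by
    have h1 : ‖L z‖ < R / 2 := hz.2
    rw [mem_ball_zero_iff, norm_neg]; linarith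
  have hC := hds.circleIntegral_sub_inv_smul hw
  have hE : (∮ t in C(0, R), K (z, t)) = ∮ t in C(0, R), (t - -L z)⁻¹ • dslope f 0 t := by
    refine circleIntegral.integral_congr hR.le fun t ht => ?_
    have ht0 : t ≠ 0 := by
      rintro rfl
      rw [mem_sphere_zero_iff_norm, norm_zero] at ht
      exact hR.ne ht
    simp [hK, hf, dslope_of_ne _ ht0, slope_def_field, div_eq_inv_mul]
  have hS := sub_smul_dslope f 0 (-L z)
  have hpi : (2 * Real.pi * Complex.I : ℂ) ≠ 0 := Complex.two_pi_I_ne_zero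
  rw [hE, hC, smul_eq_mul, ← mul_assoc (_ : ℂ)⁻¹, inv_mul_cancel₀ hpi, one_mul]
  simp only [hf, sub_zero, smul_eq_mul, zero_smul, add_zero, neg_smul, ← sub_eq_add_neg] at hS
  linear_combination hS

theorem hadamard_step (h : IsCI F d) {x : E N} (hx : x ∈ cone F) (s : Set ι) {j : ι} (hj : j ∉ s)
    {g : E N → ℂ} (hg : AnalyticAt ℂ g x)
    (h0 : ∀ᶠ y in 𝓝 x, (∀ i ∈ s, eval y (F i) = 0) → eval y (F j) = 0 → g y = 0) :
    ∃ g', AnalyticAt ℂ g' x ∧
      ∀ᶠ y in 𝓝 x, (∀ i ∈ s, eval y (F i) = 0) → g y = eval y (F j) * g' y := by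
  obtain ⟨ψ, φ, V, J, hVJ, hψ, hφ, hl, hr, hJ⟩ := exists_chart h hx
  have hφx : φ (ψ x) = x := hl.self_of_nhds
  have hG : AnalyticAt ℂ (fun z => g (φ z)) (ψ x) :=
    AnalyticAt.comp (g := g) (f := φ) (by rw [hφx]; exact hg) hφ
  have hL : J j (ψ x) = 0 := by rw [hJ, hx.2]
  obtain ⟨Q, hQ, hQe⟩ := exists_line_div hG (V j) (J j) hL
  have htφ : Tendsto φ (𝓝 (ψ x)) (𝓝 x) := by
    have := hφ.continuousAt.tendsto
    rwa [hφx] at this
  have ht : Tendsto (fun y => ψ y - J j (ψ y) • V j) (𝓝 x) (𝓝 (ψ x)) := by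
    have h1 : ContinuousAt (fun y => ψ y - J j (ψ y) • V j) x :=
      hψ.continuousAt.sub (((J j).continuous.continuousAt.comp hψ.continuousAt).smul
        continuousAt_const)
    have := h1.tendsto
    rwa [hL, zero_smul, sub_zero] at this
  refine ⟨fun y => Q (ψ y), hQ.comp hψ, ?_⟩
  filter_upwards [hl, hψ.continuousAt.tendsto.eventually hQe, ht.eventually hr,
    ht.eventually (htφ.eventually h0)] with y hy1 hy2 hy3 hy4 hy
  have h5 : g (φ (ψ y - J j (ψ y) • V j)) = 0 := by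
    refine hy4 (fun i hi => ?_) ?_
    · have hij : i ≠ j := fun e => hj (e ▸ hi)
      rw [← hJ, hy3, map_sub, map_smul, hVJ, if_neg hij, hJ, hy i hi, smul_zero, sub_zero]
    · rw [← hJ, hy3, map_sub, map_smul, hVJ, if_pos rfl, smul_eq_mul, mul_one, sub_self]
  rw [h5, sub_zero, hy1, hJ] at hy2
  exact hy2

theorem dense_step (h : IsCI F d) {x : E N} (hx : x ∈ cone F) (s : Set ι) {j : ι} (hj : j ∉ s)
    {g : E N → ℂ} (hg : AnalyticAt ℂ g x)
    (h0 : ∀ᶠ y in 𝓝 x, (∀ i ∈ s, eval y (F i) = 0) → eval y (F j) * g y = 0) :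
    ∀ᶠ y in 𝓝 x, (∀ i ∈ s, eval y (F i) = 0) → g y = 0 := by
  obtain ⟨ψ, φ, V, J, hVJ, hψ, hφ, hl, hr, hJ⟩ := exists_chart h hx
  have hφx : φ (ψ x) = x := hl.self_of_nhds
  have hG : AnalyticAt ℂ (fun z => g (φ z)) (ψ x) :=
    AnalyticAt.comp (g := g) (f := φ) (by rw [hφx]; exact hg) hφ
  have htφ : Tendsto φ (𝓝 (ψ x)) (𝓝 x) := by
    have := hφ.continuousAt.tendsto
    rwa [hφx] at this
  have hψt := hψ.continuousAt.tendsto
  filter_upwards [hl, hψt.eventually hG.eventually_analyticAt, hψt.eventually hr.eventually_nhds,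
    hψt.eventually (htφ.eventually h0).eventually_nhds] with y hy1 hy2 hy3 hy4 hy
  have ht : Tendsto (fun t : ℂ => ψ y + t • V j) (𝓝 0) (𝓝 (ψ y)) := by
    have h1 : Continuous fun t : ℂ => ψ y + t • V j := by fun_prop
    simpa using h1.tendsto 0
  have h5 : ∀ᶠ t : ℂ in 𝓝 0, (eval y (F j) + t) * g (φ (ψ y + t • V j)) = 0 := by
    filter_upwards [ht.eventually hy3, ht.eventually hy4] with t ht3 ht4
    have h6 := ht4 fun i hi => by
      have hij : i ≠ j := fun e => hj (e ▸ hi)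
      rw [← hJ, ht3, map_add, map_smul, hVJ, if_neg hij, hJ, hy i hi, smul_zero, add_zero]
    rwa [← hJ, ht3, map_add, map_smul, hVJ, if_pos rfl, smul_eq_mul, mul_one, hJ] at h6
  rcases eq_or_ne (eval y (F j)) 0 with hz | hz
  · have h7 : ∀ᶠ t : ℂ in 𝓝[≠] 0, g (φ (ψ y + t • V j)) = 0 := by
      filter_upwards [nhdsWithin_le_nhds h5, self_mem_nhdsWithin] with t ht1 ht2
      rw [hz, zero_add] at ht1
      exact (mul_eq_zero.1 ht1).resolve_left ht2
    have h8 : Tendsto (fun t : ℂ => g (φ (ψ y + t • V j))) (𝓝[≠] 0) (𝓝 (g (φ (ψ y)))) :=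
      (hy2.continuousAt.tendsto.comp ht).mono_left nhdsWithin_le_nhds
    have h9 := tendsto_nhds_unique h8 (tendsto_const_nhds.congr' (h7.mono fun t ht => ht.symm))
    rwa [hy1] at h9
  · have h7 := h5.self_of_nhds
    rw [add_zero, zero_smul, add_zero, hy1] at h7
    exact (mul_eq_zero.1 h7).resolve_left hz

section Dual

open scoped ComplexOrder Matrix ComplexConjugate

theorem contDiffAt_det {M : E N → Matrix ι ι ℂ} {y : E N}
    (hM : ∀ i j, ContDiffAt ℝ ∞ (fun y => M y i j) y) :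
    ContDiffAt ℝ ∞ (fun y => (M y).det) y := by
  simp only [Matrix.det_apply']
  exact ContDiffAt.sum fun σ _ => contDiffAt_const.mul (contDiffAt_prod fun i _ => hM _ _)

theorem contDiffAt_matrix_inv {M : E N → Matrix ι ι ℂ} {y : E N}
    (hM : ∀ i j, ContDiffAt ℝ ∞ (fun y => M y i j) y) (hy : (M y).det ≠ 0) (i j : ι) :
    ContDiffAt ℝ ∞ (fun y => (M y)⁻¹ i j) y := by
  simp only [Matrix.inv_def, Ring.inverse_eq_inv', Matrix.smul_apply, smul_eq_mul,
    Matrix.adjugate_apply]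
  refine ((contDiffAt_det hM).inv hy).mul (contDiffAt_det fun a b => ?_)
  simp only [Matrix.updateRow_apply]
  split_ifs
  · exact contDiffAt_const
  · exact hM _ _

theorem contDiffAt_eval (f : MvPolynomial (Fin (N + 1)) ℂ) (y : E N) :
    ContDiffAt ℝ ∞ (fun y : E N => eval y f) y :=
  ((analyticAt_eval f y).contDiffAt (n := ∞)).restrict_scalars ℝ

theorem contDiffAt_conj {g : E N → ℂ} {y : E N} (hg : ContDiffAt ℝ ∞ g y) :
    ContDiffAt ℝ ∞ (fun y => conj (g y)) y :=
  Complex.conjCLE.contDiff.contDiffAt.comp y hg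

/-- The squared Euclidean norm. -/
noncomputable def nu (y : E N) : ℂ := ∑ l, y l * conj (y l)

theorem nu_pos {y : E N} (hy : y ≠ 0) : 0 < nu y := by
  obtain ⟨l, hl⟩ := Function.ne_iff.1 hy
  refine Finset.sum_pos' (fun i _ => mul_star_self_nonneg _) ⟨l, Finset.mem_univ _, ?_⟩
  rw [Complex.mul_conj]
  exact_mod_cast Complex.normSq_pos.2 hl

theorem nu_smul (t : ℂ) (y : E N) : nu (t • y) = t * conj t * nu y := by
  simp only [nu, Pi.smul_apply, smul_eq_mul, map_mul, Finset.mul_sum]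
  exact Finset.sum_congr rfl fun l _ => by ring

theorem contDiffAt_nu (y : E N) : ContDiffAt ℝ ∞ (nu : E N → ℂ) y :=
  ContDiffAt.sum fun l _ => (contDiffAt_apply ℝ ℂ l y).mul
    (contDiffAt_conj (contDiffAt_apply ℝ ℂ l y))

/-- A scale invariant function vanishing exactly on the cone. -/
noncomputable def ph (F : ι → MvPolynomial (Fin (N + 1)) ℂ) (d : ι → ℕ) (y : E N) : ℂ :=
  ∑ j, eval y (F j) * conj (eval y (F j)) * (nu y ^ d j)⁻¹

theorem ph_of_mem {y : E N} (hy : y ∈ cone F) : ph F d y = 0 := by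
  simp [ph, hy.2]

theorem ph_pos {y : E N} (hy : y ≠ 0) (hy' : y ∉ cone F) : 0 < ph F d y := by
  obtain ⟨j, hj⟩ : ∃ j, eval y (F j) ≠ 0 := by
    by_contra hc
    exact hy' ⟨hy, fun j => by_contra fun hj => hc ⟨j, hj⟩⟩
  have h1 : ∀ j, 0 < (nu y ^ d j)⁻¹ := fun j => inv_pos.2 (pow_pos (nu_pos hy) _)
  refine Finset.sum_pos' (fun i _ => mul_nonneg (mul_star_self_nonneg _) (h1 i).le)
    ⟨j, Finset.mem_univ _, mul_pos ?_ (h1 j)⟩
  rw [Complex.mul_conj]
  exact_mod_cast Complex.normSq_pos.2 hj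

theorem ph_smul (h : IsCI F d) {t : ℂ} (ht : t ≠ 0) {y : E N} (hy : y ≠ 0) :
    ph F d (t • y) = ph F d y := by
  refine Finset.sum_congr rfl fun j _ => ?_
  have h1 : nu y ≠ 0 := (nu_pos hy).ne'
  have h2 : conj t ≠ 0 := by simpa using ht
  rw [eval_smul_of_hom (h.hom j), nu_smul, map_mul, map_pow, mul_pow, mul_pow]
  field_simp

theorem contDiffAt_ph {y : E N} (hy : y ≠ 0) : ContDiffAt ℝ ∞ (ph F d) y :=
  ContDiffAt.sum fun _ _ => ((contDiffAt_eval _ y).mul (contDiffAt_conj (contDiffAt_eval _ y))).mul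
    (((contDiffAt_nu y).pow _).inv (pow_ne_zero _ (nu_pos hy).ne'))

/-- The corrected Gram matrix of the gradients. -/
noncomputable def gramM (F : ι → MvPolynomial (Fin (N + 1)) ℂ) (d : ι → ℕ) (y : E N) :
    Matrix ι ι ℂ :=
  jacM F y * (jacM F y)ᴴ + Matrix.diagonal fun i => ph F d y * nu y ^ (d i - 1)

theorem gramM_of_mem {y : E N} (hy : y ∈ cone F) : gramM F d y = jacM F y * (jacM F y)ᴴ := by
  simp [gramM, ph_of_mem hy]

theorem isUnit_det_gramM (h : IsCI F d) {y : E N} (hy : y ≠ 0) : IsUnit (gramM F d y).det := by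
  rw [← Matrix.isUnit_iff_isUnit_det]
  by_cases hy' : y ∈ cone F
  · rw [gramM_of_mem hy']
    exact (posDef_gram h hy').isUnit
  · exact (Matrix.PosDef.posSemidef_add (Matrix.posSemidef_self_mul_conjTranspose _)
      (Matrix.PosDef.diagonal fun i => mul_pos (ph_pos hy hy') (pow_pos (nu_pos hy) _))).isUnit

theorem jacM_smul (h : IsCI F d) (t : ℂ) (y : E N) :
    jacM F (t • y) = (Matrix.diagonal fun i => t ^ (d i - 1)) * jacM F y := by
  ext i l
  rw [Matrix.diagonal_mul]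
  exact eval_smul_of_hom (h.hom i).pderiv t y

theorem gramM_smul (h : IsCI F d) {t : ℂ} (ht : t ≠ 0) {y : E N} (hy : y ≠ 0) :
    gramM F d (t • y) = (Matrix.diagonal fun i => t ^ (d i - 1)) * gramM F d y *
      (Matrix.diagonal fun i => t ^ (d i - 1))ᴴ := by
  rw [gramM, gramM, jacM_smul h, Matrix.conjTranspose_mul, Matrix.mul_add, Matrix.add_mul,
    ph_smul h ht hy, nu_smul]
  congr 1
  · simp only [Matrix.mul_assoc]
  · rw [Matrix.diagonal_conjTranspose, Matrix.diagonal_mul_diagonal, Matrix.diagonal_mul_diagonal]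
    congr 1
    funext i
    simp only [Pi.star_apply, RCLike.star_def, map_pow, mul_pow]
    ring

theorem contDiffAt_jacM (y : E N) (i : ι) (l : Fin (N + 1)) :
    ContDiffAt ℝ ∞ (fun y => jacM F y i l) y :=
  contDiffAt_eval _ y

theorem contDiffAt_gramM {y : E N} (hy : y ≠ 0) (i j : ι) :
    ContDiffAt ℝ ∞ (fun y => gramM F d y i j) y := by
  simp only [gramM, Matrix.add_apply, Matrix.mul_apply, Matrix.conjTranspose_apply,
    Matrix.diagonal_apply]
  refine ContDiffAt.add (ContDiffAt.sum fun l _ => (contDiffAt_jacM y i l).mul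
    (contDiffAt_conj (contDiffAt_jacM y j l))) ?_
  split_ifs
  · exact (contDiffAt_ph hy).mul ((contDiffAt_nu y).pow _)
  · exact contDiffAt_const

theorem exists_dual (h : IsCI F d) : ∃ v : ι → E N → E N,
    (∀ j, ContDiffOn ℝ ∞ (v j) {0}ᶜ) ∧
    (∀ j (t : ℂ) y, t ≠ 0 → y ≠ 0 → v j (t • y) = t ^ (1 - (d j : ℤ)) • v j y) ∧
    ∀ y ∈ cone F, ∀ i j, ∑ l, eval y (pderiv l (F i)) * v j y l = if i = j then 1 else 0 := by
  refine ⟨fun j y l => ((jacM F y)ᴴ * (gramM F d y)⁻¹) l j, fun j y hy => ?_,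
    fun j t y ht hy => ?_, fun y hy i j => ?_⟩
  · refine ContDiffAt.contDiffWithinAt (contDiffAt_pi.2 fun l => ?_)
    simp only [Matrix.mul_apply, Matrix.conjTranspose_apply]
    exact ContDiffAt.sum fun i _ => (contDiffAt_conj (contDiffAt_jacM y i l)).mul
      (contDiffAt_matrix_inv (contDiffAt_gramM hy) (isUnit_det_gramM h hy).ne_zero i j)
  · set D : Matrix ι ι ℂ := Matrix.diagonal fun i => t ^ (d i - 1) with hD
    set D' : Matrix ι ι ℂ := Matrix.diagonal fun i => (t ^ (d i - 1))⁻¹ with hD'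
    have hDD : D * D' = 1 := by
      rw [hD, hD', Matrix.diagonal_mul_diagonal, ← Matrix.diagonal_one]
      congr 1
      funext i
      exact mul_inv_cancel₀ (pow_ne_zero _ ht)
    have hDD' : D' * D = 1 := mul_eq_one_comm.1 hDD
    have hDH : Dᴴ * D'ᴴ = 1 := by
      rw [← Matrix.conjTranspose_mul, hDD', Matrix.conjTranspose_one]
    have hinv : (gramM F d (t • y))⁻¹ = D'ᴴ * (gramM F d y)⁻¹ * D' := by
      refine Matrix.inv_eq_right_inv ?_
      rw [gramM_smul h ht hy, ← hD]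
      calc D * gramM F d y * Dᴴ * (D'ᴴ * (gramM F d y)⁻¹ * D')
          = D * (gramM F d y * ((Dᴴ * D'ᴴ) * (gramM F d y)⁻¹)) * D' := by
            simp only [Matrix.mul_assoc]
        _ = 1 := by
          rw [hDH, Matrix.one_mul, Matrix.mul_nonsing_inv _ (isUnit_det_gramM h hy),
            Matrix.mul_one, hDD]
    have hv : (jacM F (t • y))ᴴ * (gramM F d (t • y))⁻¹ =
        (jacM F y)ᴴ * (gramM F d y)⁻¹ * D' := by
      rw [hinv, jacM_smul h, ← hD, Matrix.conjTranspose_mul]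
      calc (jacM F y)ᴴ * Dᴴ * (D'ᴴ * (gramM F d y)⁻¹ * D')
          = (jacM F y)ᴴ * ((Dᴴ * D'ᴴ) * (gramM F d y)⁻¹) * D' := by
            simp only [Matrix.mul_assoc]
        _ = _ := by rw [hDH, Matrix.one_mul]
    funext l
    simp only [hv, Pi.smul_apply, smul_eq_mul]
    rw [hD', Matrix.mul_diagonal, mul_comm]
    congr 1
    rw [← zpow_natCast, ← zpow_neg, Nat.cast_sub (h.pos j)]
    congr 1
    push_cast
    ring
  · have hu := isUnit_det_gramM h hy.1
    have h1 : jacM F y * ((jacM F y)ᴴ * (gramM F d y)⁻¹) = 1 := by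
      rw [← Matrix.mul_assoc, ← gramM_of_mem (d := d) hy, Matrix.mul_nonsing_inv _ hu]
    have h2 := congrFun (congrFun h1 i) j
    rw [Matrix.mul_apply, Matrix.one_apply] at h2
    rw [← h2]
    rfl

end Dual

end Vale.Agent.P269.Hdg
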