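import Vale.Agent.P269.Hdg.DeRham
import Vale.Agent.P269.Hdg.Dolb

/-!
# The Koszul resolution of the twisted Dolbeault complex of a complete intersection
-/

namespace Vale.Agent.P269.Hdg

open scoped ComplexConjugate ContDiff
open Complex (I)
open Topology Filter MvPolynomial

variable {N : ℕ}

theorem mem_of_eq {M : Type} [AddCommGroup M] [Module ℂ M] {K : Submodule ℂ M} {a b : M}
    (h : a ∈ K) (e : b = a) : b ∈ K := e ▸ h

/-- Functions that are smooth away from the origin. -/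
def SF (N : ℕ) : Subalgebra ℂ (E N → ℂ) where
  carrier := {g | ∀ x ≠ 0, ContDiffAt ℝ ∞ g x}
  mul_mem' hu hv x hx := (hu x hx).mul (hv x hx)
  add_mem' hu hv x hx := (hu x hx).add (hv x hx)
  algebraMap_mem' _ _ _ := contDiffAt_const

/-- The action of smooth functions on forms. -/
noncomputable def mfS : SF N →ₐ[ℂ] Module.End ℂ (SM N) where
  toFun g := MF g.1 g.2
  map_one' := LinearMap.ext fun u => Subtype.ext (funext fun x => by simp)
  map_mul' g g' := LinearMap.ext fun u => Subtype.ext (funext fun x =>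
    mul_smul (g.1 x) (g'.1 x) (u.1 x))
  map_zero' := LinearMap.ext fun u => Subtype.ext (funext fun x => by simp)
  map_add' g g' := LinearMap.ext fun u => Subtype.ext (funext fun x =>
    add_smul (g.1 x) (g'.1 x) (u.1 x))
  commutes' c := LinearMap.ext fun u => Subtype.ext (funext fun x => by simp)

@[simp] theorem mfS_apply (g : SF N) (u : SM N) (x : E N) : (mfS g u).1 x = g.1 x • u.1 x := rfl

/-- A polynomial function. -/
noncomputable def pS (f : MP N) : SF N := ⟨fun y => eval y f, fun x _ => sm_eval f x⟩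

/-- Forms vanishing over a neighbourhood of `b`. -/
noncomputable abbrev V0 (b : TT N) : Submodule ℂ (SM N) := Vn Set.univ (fun _ => ⊥) b

theorem mem_V0 {b : TT N} {u : SM N} : u ∈ V0 b ↔ NearT b fun y => u.1 y = 0 :=
  ⟨fun h => NearT.mono h fun _ _ h => h trivial, fun h => h.mono fun _ _ h _ => h⟩

/-- The Dolbeault complex of `O(k)` on projective space. -/
noncomputable def Afd (N : ℕ) (k : ℤ) : FD N where
  d := DB false
  G q := Fm 0 q k
  C := Set.univ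
  P _ := ⊥
  dG _ _ hu := DB_Fm hu
  stab u x hx _ hn := by
    rw [DB_apply _ _ hx, db_congr (v := fun _ => 0) (hn.mono fun y hy => hy trivial), db_const]
    exact zero_mem _
  dd _ u _ x hx _ := DB_DB_self false u hx
  cut _ _ hu _ hg hm := by simpa using MF_Fm hg hm hu
  bdd := ⟨0, fun _ hq _ hu _ hx => Fm_neg (Or.inr hq) hu hx⟩

theorem dolbP {x : E N} (hx : x ≠ 0) {q k : ℤ} (hq : 1 ≤ q) {u : SM N} (hu : u ∈ Fm 0 q k)
    (hc : DB false u ∈ V0 (prP x)) : ∃ v ∈ Fm 0 (q - 1) k, u - DB false v ∈ V0 (prP x) := by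
  obtain ⟨w, hw⟩ := dolb (u := u.1) (x := x) hq (by
    filter_upwards [(mem_V0.1 hc).ev hx, ne_zero_ev hx] with y h1 hy
    exact ⟨u.sm hy, (hu.1 y hy).1, by rwa [DB_apply _ _ hy] at h1⟩)
  obtain ⟨v, hv, -, e⟩ := exists_ext hx k (hw.mono fun y hy => ⟨hy.1, hy.2.1⟩)
  have h1 : DB false v ∈ Fm 0 q k := by simpa using DB_Fm hv
  refine ⟨v, hv, Vn_of_ev0 hx (sub_mem hu h1).2 ?_⟩
  filter_upwards [db_congr' (s := false) (L := idE) e, lf_ne_ev hx, ne_zero_ev hx,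
    (cpr_tendsto hx).eventually hw, ext_congr hx k (u := db false idE w) (v := u.1)
      (hw.mono fun y hy => hy.2.2)] with y h2 h3 hy h4 h5
  change u.1 y - (DB false v).1 y = 0
  rw [DB_apply _ _ hy, h2, db_ext k h3 h4.1, h5, ext_eq h3 hy (hu.1 y hy).1 (fun s => ?_) hu.2,
    sub_self]
  cases s
  · exact (hu.1 y hy).2
  · exact ct_of_Eg_zero (hu.1 y hy).1.1 y

theorem an_of_Fm {x : E N} (hx : x ≠ 0) {k : ℤ} {g : SM N} (hg : g ∈ Fm 0 0 k)
    (hc : DB false g ∈ V0 (prP x)) : AnalyticAt ℂ (fun y => sca (g.1 y)) x := by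
  refine analyticAt_of_db ?_
  filter_upwards [(mem_V0.1 hc).ev hx, ne_zero_ev hx] with y h1 hy
  refine ⟨sm_diff (sm_sca (g.sm hy)), ?_⟩
  rw [DB_apply _ _ hy] at h1
  rw [← h1]
  exact db_congr ((ne_zero_ev hy).mono fun z hz => (eq_sca (hg.1 z hz).1).symm)

theorem Fm_of_an {x : E N} (hx : x ≠ 0) (k : ℤ) {γ : E N → ℂ} (hγ : AnalyticAt ℂ γ x) :
    ∃ g ∈ Fm 0 0 k, DB false g ∈ V0 (prP x) ∧
      ∀ᶠ y in 𝓝 x, g.1 y = (lf x y ^ k * γ (cpr x y)) • (1 : Λ N) := by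
  obtain ⟨g, hg, -, e⟩ := exists_ext hx (p := 0) (q := 0) k (v := fun y => γ y • (1 : Λ N))
    ((an_sm_ev hγ).mono fun y hy =>
      ⟨sm_smul hy contDiffAt_const, Submodule.smul_mem _ _ one_mem_Ty⟩)
  refine ⟨g, hg, Vn_of_ev0 hx (DB_Fm hg).2 ?_, e.mono fun y hy => by
    rw [hy]; simp [ext, pb, smul_smul]⟩
  filter_upwards [db_congr' (s := false) (L := idE) e, lf_ne_ev hx, ne_zero_ev hx,
    (cpr_tendsto hx).eventually hγ.eventually_analyticAt] with y h2 h3 hy h4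
  rw [DB_apply _ _ hy, h2, db_ext k h3 (sm_smul (an_sm h4) contDiffAt_const), ext, pb,
    db_an_smul h4 (differentiableAt_const _), db_const]
  simp

theorem Fm_eq_cpr {x y : E N} {k : ℤ} {g : SM N} (hg : g ∈ Fm 0 0 k) (hy : y ≠ 0)
    (h : lf x y ≠ 0) : g.1 y = (lf x y ^ k * sca (g.1 (cpr x y))) • (1 : Λ N) := by
  have := hg.2 _ y (inv_ne_zero h) hy
  rw [cpr, this, map_smul]
  conv_lhs => rw [eq_sca (hg.1 y hy).1]
  congr 1
  simp [← mul_assoc, mul_inv_cancel₀ (zpow_ne_zero k h)]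

/-- A family of complexes twisted by `O(k)`, with an action of smooth functions. -/
structure Tw (N : ℕ) where
  M : Type
  [acg : AddCommGroup M]
  [mod : Module ℂ M]
  d : M →ₗ[ℂ] M
  G : ℤ → ℤ → Submodule ℂ M
  V : TT N → Submodule ℂ M
  mf : SF N →ₐ[ℂ] Module.End ℂ M
  hd : M →ₗ[ℂ] SM N
  inc : SM N →ₗ[ℂ] M
  Zr : Set (E N)
  dG : ∀ k q u, u ∈ G k q → d u ∈ G k (q + 1)
  dV : ∀ b, ∀ u ∈ V b, d u ∈ V b
  dd : ∀ b k q u, u ∈ G k q → d (d u) ∈ V b
  mfG : ∀ (g : SF N) e k q u, Hm e 0 g.1 → u ∈ G k q → mf g u ∈ G (k + e) q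
  mfV : ∀ g b, ∀ u ∈ V b, mf g u ∈ V b
  mf0 : ∀ (g : SF N) b u, (NearT b fun y => g.1 y = 0) → mf g u ∈ V b
  d_mf : ∀ (g : SF N) b u, (NearT b fun y => AnalyticAt ℂ g.1 y) → d (mf g u) - mf g (d u) ∈ V b
  opn : ∀ b, ∀ u ∈ V b, ∀ᶠ b' in 𝓝 b, u ∈ V b'
  bdd : ∃ q₀, ∀ k, ∀ q < q₀, ∀ b, G k q ≤ V b
  cpt : ∀ b ∉ KK N, V b = ⊤
  incG : ∀ k q, ∀ u ∈ Fm 0 q k, inc u ∈ G k q
  incV : ∀ b, ∀ u ∈ V0 b, inc u ∈ V b
  inc_d : ∀ u, d (inc u) = inc (DB false u)
  inc_mf : ∀ g u, mf g (inc u) = inc (mfS g u)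
  hdG : ∀ k q, ∀ u ∈ G k q, hd u ∈ Fm 0 q k
  hdV : ∀ b, ∀ u ∈ V b, hd u ∈ V0 b
  hd_inc : ∀ u, hd (inc u) = u
  hd_mf : ∀ g u, hd (mf g u) = mfS g (hd u)
  hd_d : ∀ u, ∀ y ∈ Zr, (hd (d u)).1 y = (DB false (hd u)).1 y
  Zr_smul : ∀ (t : ℂ) y, y ∈ Zr → t • y ∈ Zr

attribute [instance] Tw.acg Tw.mod

namespace Tw

variable (T : Tw N)

/-- The complex of weight `k`. -/
@[reducible] def sh (k : ℤ) : Sh (TT N) where
  M := T.M
  d := T.d
  G := T.G k
  V := T.V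
  dG := T.dG k
  dV := T.dV
  dd b := T.dd b k

theorem mf_comm (g g' : SF N) (u : T.M) : T.mf g (T.mf g' u) = T.mf g' (T.mf g u) := by
  rw [← Module.End.mul_apply, ← map_mul, mul_comm, map_mul, Module.End.mul_apply]

theorem mf_sub_one (g : SF N) (b : TT N) (u : T.M) (h : NearT b fun y => g.1 y = 1) :
    T.mf g u - u ∈ T.V b := by
  have := T.mf0 (g - 1) b u (h.mono fun y _ hy => by simp [hy])
  simpa using this

theorem fine (k : ℤ) : (T.sh k).Fine where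
  opn := T.opn
  sep K₁ K₂ h₁ h₂ hd q u hu := by
    obtain ⟨φ, hφ, e₁, e₂⟩ := exists_cut h₁.isClosed h₂.isClosed hd
    refine ⟨T.mf ⟨_, sm_cut hφ⟩ u, by simpa using T.mfG ⟨_, sm_cut hφ⟩ 0 k q u (hm_cut φ) hu,
      fun b hb => T.mf_sub_one _ b u ?_, fun b hb => T.mf0 _ b u ?_, fun b hb => T.mfV _ b u hb⟩
    · exact (e₁ b hb).mono fun b' h y _ e => (congrArg φ e).trans h
    · exact (e₂ b hb).mono fun b' h y _ e => (congrArg φ e).trans h
  bdd := T.bdd.imp fun _ h => h k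
  cpt := ⟨KK N, isCompact_KK, T.cpt⟩

theorem d_pS (f : MP N) (b : TT N) (u : T.M) : T.d (T.mf (pS f) u) - T.mf (pS f) (T.d u) ∈ T.V b :=
  T.d_mf _ b u (NearT.of_forall fun y _ => analyticAt_eval f y)

variable {f : MP N} {e : ℕ} (hf : f.IsHomogeneous e)

include hf in
theorem pS_G {k q : ℤ} {u : T.M} (hu : u ∈ T.G (k - e) q) : T.mf (pS f) u ∈ T.G k q := by
  simpa using T.mfG (pS f) e _ q u (hm_eval hf) hu

/-- Multiplication by a homogeneous polynomial. -/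
noncomputable def hom (k : ℤ) : Sh.Hom (T.sh (k - e)) (T.sh k) where
  f := T.mf (pS f)
  fG _ _ hu := T.pS_G hf hu
  fV := T.mfV _
  comm b _ u _ := by simpa using neg_mem (T.d_pS f b u)

/-- The cone of multiplication by a homogeneous polynomial. -/
@[reducible] noncomputable def cone : Tw N where
  M := T.M × T.M
  d := (T.d.coprod (T.mf (pS f))).prod (-T.d ∘ₗ LinearMap.snd ℂ _ _)
  G k q := (T.G k q).prod (T.G (k - e) (q + 1))
  V b := (T.V b).prod (T.V b)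
  mf := (LinearMap.prodMapAlgHom ℂ T.M T.M).comp (T.mf.prod T.mf)
  hd := T.hd ∘ₗ LinearMap.fst ℂ _ _
  inc := LinearMap.inl ℂ _ _ ∘ₗ T.inc
  Zr := T.Zr ∩ {y | eval y f = 0}
  dG k := (T.hom hf k).cone.dG
  dV := (T.hom hf 0).cone.dV
  dd b k := (T.hom hf k).cone.dd b
  mfG g e' k q u hg hu := ⟨T.mfG g e' k q _ hg hu.1, by
    rw [add_sub_right_comm]; exact T.mfG g e' _ _ _ hg hu.2⟩
  mfV g b u hu := ⟨T.mfV g b _ hu.1, T.mfV g b _ hu.2⟩
  mf0 g b u h := ⟨T.mf0 g b _ h, T.mf0 g b _ h⟩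
  d_mf g b u h := by
    refine ⟨?_, ?_⟩
    · have := T.d_mf g b u.1 h
      convert this using 1
      simp [T.mf_comm g]
    · have := neg_mem (T.d_mf g b u.2 h)
      convert this using 1
      simp
      abel_nf
  opn b u hu := (T.opn b _ hu.1).and (T.opn b _ hu.2)
  bdd := by
    obtain ⟨q₀, h⟩ := T.bdd
    exact ⟨q₀ - 1, fun k q hq b u hu => ⟨h k q (by omega) b hu.1, h _ _ (by omega) b hu.2⟩⟩
  cpt b hb := by rw [T.cpt b hb]; simp
  incG k q u hu := ⟨T.incG k q u hu, zero_mem _⟩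
  incV b u hu := ⟨T.incV b u hu, zero_mem _⟩
  inc_d u := by simp [T.inc_d]
  inc_mf g u := by simp [T.inc_mf]
  hdG k q u hu := T.hdG k q _ hu.1
  hdV b u hu := T.hdV b _ hu.1
  hd_inc u := by simp [T.hd_inc]
  hd_mf g u := by simp [T.hd_mf]
  hd_d u y hy := by
    have h2 : eval y f = 0 := hy.2
    simp [T.hd_d _ y hy.1, T.hd_mf, pS, h2]
  Zr_smul t y hy := ⟨T.Zr_smul t y hy.1, by
    have h2 : eval y f = 0 := hy.2
    simp [eval_smul_of_hom hf, h2]⟩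

theorem cone_sh (k : ℤ) : (T.cone hf).sh k = (T.hom hf k).cone := rfl

theorem cone_d (u v : T.M) : (T.cone hf).d (u, v) = (T.d u + T.mf (pS f) v, -T.d v) := rfl

/-- All stalks at `b` are exact. -/
def Acy (b : TT N) : Prop := ∀ k q, ((T.sh k).st b).Exact q

theorem Acy.cone {b : TT N} (h : T.Acy b) : (T.cone hf).Acy b := fun k =>
  (T.hom hf k).cone_exact_st fun q =>
    ⟨fun u hu _ => Cx.exact_iff_B.1 (h _ q) u hu,
      fun w hw => ⟨0, zero_mem _, by simpa using Cx.exact_iff_B.1 (h _ q) w hw⟩⟩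

theorem acy_cone {x : E N} (hx : x ≠ 0) (h : eval x f ≠ 0) : (T.cone hf).Acy (prP x) := by
  have h0 : NearT (prP x) fun y => eval y f ≠ 0 :=
    NearT.of_ev hx (fun t y _ _ h h' => h (by rw [eval_smul_of_hom hf, h', mul_zero]))
      ((sm_eval f x).continuousAt.eventually_ne h)
  obtain ⟨φ, h1, h2, -⟩ := exists_global hx (w := fun y => (eval y f)⁻¹) (Q := fun _ => True)
    (h0.mono fun y _ h => ⟨(sm_eval f y).inv h, trivial⟩)
  let g : SF N := ⟨_, h1⟩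
  have hm : Hm (-(e : ℤ)) 0 g.1 := fun t y ht _ => by
    simp [g, prP_smul ht, eval_smul_of_hom hf]; ring
  have ha : NearT (prP x) fun y => AnalyticAt ℂ g.1 y :=
    (h0.and h2.loc).mono fun y _ h => ((analyticAt_eval f y).inv h.1).congr
      (h.2.mono fun z hz => by simp [g, hz])
  have h3 : ∀ u, T.mf g (T.mf (pS f) u) - u ∈ T.V (prP x) := fun u => by
    rw [← Module.End.mul_apply, ← map_mul]
    exact T.mf_sub_one _ _ u ((h0.and h2).mono fun y _ h => by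
      simp [g, pS, h.2, inv_mul_cancel₀ h.1])
  refine fun k => (T.hom hf k).cone_exact_st fun q => ⟨fun u hu h4 => ?_, fun w hw => ?_⟩
  · obtain ⟨v, hv, h5⟩ := Cx.mem_B.1 h4
    refine Cx.mem_B.2 ⟨T.mf g v, T.mfG g _ k _ v hm hv, ?_⟩
    have := sub_mem (sub_mem (T.mfV g _ _ h5) (h3 u)) (T.d_mf g _ v ha)
    refine mem_of_eq (this) ?_
    change u - T.d (T.mf g v) = T.mf g (T.mf (pS f) u - T.d v) - _ - _
    rw [map_sub]; abel
  · refine ⟨T.mf g w, ⟨T.mfG g _ k _ w hm hw.1, ?_⟩, Cx.nul_le_B ?_⟩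
    · simpa using add_mem (T.d_mf g _ w ha) (T.mfV g _ _ hw.2)
    · have := neg_mem (h3 w)
      rw [T.mf_comm, neg_sub] at this
      exact this

/-- The stalk at `x` resolves the holomorphic functions on the zero set. -/
structure Ok (x : E N) : Prop where
  ex : ∀ k q, q ≠ 0 → ∀ u ∈ T.G k q, T.d u ∈ T.V (prP x) →
    ∃ v ∈ T.G k (q - 1), u - T.d v ∈ T.V (prP x)
  z0 : ∀ k, ∀ u ∈ T.G k 0, T.d u ∈ T.V (prP x) → ∃ g ∈ Fm 0 0 k, DB false g ∈ V0 (prP x) ∧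
    ∃ v ∈ T.G k (-1), u - T.inc g - T.d v ∈ T.V (prP x)
  b0 : ∀ k, ∀ g ∈ Fm 0 0 k, DB false g ∈ V0 (prP x) → (∀ᶠ y in 𝓝 x, y ∈ T.Zr → g.1 y = 0) →
    ∃ v ∈ T.G k (-1), T.inc g - T.d v ∈ T.V (prP x)

theorem hd_d_neg {k : ℤ} {v : T.M} (hv : v ∈ T.G k (-1)) {y : E N} (hy : y ≠ 0) (hz : y ∈ T.Zr) :
    (T.hd (T.d v)).1 y = 0 := by
  rw [T.hd_d v y hz]
  exact DB_of_zero _ (fun z hz => Fm_neg (Or.inr (by norm_num)) (T.hdG _ _ v hv) hz) hy

variable {T}

theorem Ok.cone {x : E N} (hx : x ≠ 0) (h : T.Ok x)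
    (H1 : ∀ g : E N → ℂ, AnalyticAt ℂ g x → (∀ᶠ y in 𝓝 x, y ∈ T.Zr → eval y f = 0 → g y = 0) →
      ∃ g', AnalyticAt ℂ g' x ∧ ∀ᶠ y in 𝓝 x, y ∈ T.Zr → g y = eval y f * g' y)
    (H2 : ∀ g : E N → ℂ, AnalyticAt ℂ g x → (∀ᶠ y in 𝓝 x, y ∈ T.Zr → eval y f * g y = 0) →
      ∀ᶠ y in 𝓝 x, y ∈ T.Zr → g y = 0) : (T.cone hf).Ok x := by
  -- reduction to the first component
  have red : ∀ k q (u v : T.M), u ∈ T.G k q → v ∈ T.G (k - e) (q + 1) →
      T.d u + T.mf (pS f) v ∈ T.V (prP x) → ∀ w ∈ T.G (k - e) q, v - T.d w ∈ T.V (prP x) →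
      u + T.mf (pS f) w ∈ T.G k q ∧ T.d (u + T.mf (pS f) w) ∈ T.V (prP x) := by
    intro k q u v hu _ h1 w hw h2
    refine ⟨add_mem hu (T.pS_G hf hw), ?_⟩
    have := add_mem (sub_mem h1 (T.mfV (pS f) _ _ h2)) (T.d_pS f _ w)
    convert this using 1
    simp only [map_add, map_sub]; abel
  have sec : ∀ k q, q ≠ 0 → ∀ (u v : T.M), u ∈ T.G k q → v ∈ T.G (k - e) (q + 1) →
      T.d u + T.mf (pS f) v ∈ T.V (prP x) → T.d v ∈ T.V (prP x) →
      ∃ w ∈ T.G (k - e) q, v - T.d w ∈ T.V (prP x) := by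
    intro k q hq u v hu hv h1 h2
    by_cases hq1 : q + 1 = 0
    swap
    · simpa using h.ex _ _ hq1 v hv h2
    obtain rfl : q = -1 := by omega
    obtain ⟨g, hg, hg', w, hw, h3⟩ := h.z0 _ v hv h2
    have h4 : T.inc (mfS (pS f) g) + T.d (u + T.mf (pS f) w) ∈ T.V (prP x) := by
      have := add_mem (sub_mem h1 (T.mfV (pS f) _ _ h3)) (T.d_pS f _ w)
      convert this using 1
      simp only [map_add, map_sub, T.inc_mf]; abel
    have h5 := (mem_V0.1 (T.hdV _ _ h4)).ev hx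
    have h6 := H2 _ (an_of_Fm hx hg hg') (by
      filter_upwards [h5, ne_zero_ev hx] with y h5 hy hz
      rw [map_add, T.hd_inc, Submodule.coe_add, Pi.add_apply,
        T.hd_d_neg (add_mem hu (T.pS_G hf hw)) hy hz, add_zero] at h5
      simpa [pS] using congrArg sca h5)
    obtain ⟨w', hw', h7⟩ := h.b0 _ g hg hg' (by
      filter_upwards [h6, ne_zero_ev hx] with y h6 hy hz
      rw [eq_sca (hg.1 y hy).1, h6 hz, zero_smul])
    refine ⟨w + w', add_mem hw hw', ?_⟩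
    convert add_mem h3 h7 using 1
    simp only [map_add]; abel
  refine ⟨fun k q hq ⟨u, v⟩ hu hd => ?_, fun k ⟨u, v⟩ hu hd => ?_, fun k g hg hg' h0 => ?_⟩
  · obtain ⟨w, hw, h1⟩ := sec k q hq u v hu.1 hu.2 hd.1 (by simpa using neg_mem hd.2)
    obtain ⟨h2, h3⟩ := red k q u v hu.1 hu.2 hd.1 w hw h1
    obtain ⟨z, hz, h4⟩ := h.ex k q hq _ h2 h3
    refine ⟨(z, -w), ⟨hz, by simpa using neg_mem hw⟩, ?_, ?_⟩
    · refine mem_of_eq (h4) ?_
      change u - (T.d z + T.mf (pS f) (-w)) = _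
      rw [map_neg]; abel
    · refine mem_of_eq (h1) ?_
      change v - -T.d (-w) = _
      rw [map_neg, neg_neg]
  · obtain ⟨w, hw, h1⟩ := h.ex _ _ (by norm_num) v hu.2 (by simpa using neg_mem hd.2)
    rw [add_sub_cancel_right] at hw
    obtain ⟨h2, h3⟩ := red k 0 u v hu.1 hu.2 hd.1 w hw h1
    obtain ⟨g, hg, hg', z, hz, h4⟩ := h.z0 k _ h2 h3
    refine ⟨g, hg, hg', (z, -w), ⟨hz, by simpa using neg_mem hw⟩, ?_, ?_⟩
    · refine mem_of_eq (h4) ?_
      change u - T.inc g - (T.d z + T.mf (pS f) (-w)) = _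
      rw [map_neg]; abel
    · refine mem_of_eq (h1) ?_
      change v - 0 - -T.d (-w) = _
      rw [map_neg, neg_neg, sub_zero]
  · obtain ⟨γ, hγ, h1⟩ := H1 _ (an_of_Fm hx hg hg') (h0.mono fun y hy hz hf' => by
      rw [hy ⟨hz, hf'⟩, map_zero])
    obtain ⟨g', h2, h3, h4⟩ := Fm_of_an hx (k - e) hγ
    have h5 : mfS (pS f) g' ∈ Fm 0 0 k := by
      have := MF_Fm (pS f).2 (hm_eval hf) h2
      rwa [sub_add_cancel] at this
    have h6 : DB false (mfS (pS f) g') ∈ V0 (prP x) :=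
      mem_V0.2 ((mem_V0.1 h3).mono fun y hy h => by
        rw [DB_apply _ _ hy] at h ⊢
        exact (db_eval_smul f (g'.df hy)).trans (by rw [h, smul_zero]))
    obtain ⟨v, hv, h7⟩ := h.b0 k _ (sub_mem hg h5) (by rw [map_sub]; exact sub_mem hg' h6) (by
      filter_upwards [h4, (cpr_tendsto hx).eventually h1, lf_ne_ev hx, ne_zero_ev hx]
        with y h4 h1 hl hy hz
      change g.1 y - eval y f • g'.1 y = 0
      rw [Fm_eq_cpr hg hy hl, h4, h1 (T.Zr_smul _ y hz), cpr, eval_smul_of_hom hf, smul_smul,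
        zpow_sub₀ hl, sub_eq_zero]
      congr 1
      simp only [zpow_natCast, inv_pow]; field_simp)
    refine ⟨(v, T.inc g'), ⟨hv, by simpa using T.incG _ _ g' h2⟩, ?_, ?_⟩
    · refine mem_of_eq (h7) ?_
      change T.inc g - (T.d v + T.mf (pS f) (T.inc g')) = _
      rw [T.inc_mf, map_sub]; abel
    · refine mem_of_eq (T.incV _ _ h3) ?_
      change 0 - -T.d (T.inc g') = _
      rw [T.inc_d]; simp

end Tw

/-- The Dolbeault complexes of projective space. -/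
@[reducible] noncomputable def tw0 (N : ℕ) : Tw N where
  M := SM N
  d := DB false
  G k q := Fm 0 q k
  V := V0
  mf := mfS
  hd := LinearMap.id
  inc := LinearMap.id
  Zr := Set.univ
  dG k := (Afd N k).dG
  dV := (Afd N 0).sh.dV
  dd b k := (Afd N k).sh.dd b
  mfG g _ _ _ _ hg hu := MF_Fm g.2 hg hu
  mfV g b u hu := mem_V0.2 ((mem_V0.1 hu).mono fun y _ h => by simp [h])
  mf0 g b u h := mem_V0.2 (h.mono fun y _ h => by simp [h])
  d_mf g b u h := mem_V0.2 (h.mono fun y hy h => by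
    change (DB false (mfS g u)).1 y - g.1 y • (DB false u).1 y = 0
    rw [DB_apply _ _ hy, DB_apply _ _ hy, sub_eq_zero]
    exact db_an_smul h (u.df hy))
  opn _ _ hu := NearT.opn hu
  bdd := ⟨0, fun _ _ hq _ _ hu => Vn_of_zero fun _ hx => Fm_neg (Or.inr hq) hu hx⟩
  cpt _ hb := eq_top_iff.2 fun _ _ => NearT.of_notMem hb
  incG _ _ _ hu := hu
  incV _ _ hu := hu
  inc_d _ := rfl
  inc_mf _ _ := rfl
  hdG _ _ _ hu := hu
  hdV _ _ hu := hu
  hd_inc _ := rfl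
  hd_mf _ _ := rfl
  hd_d _ _ _ := rfl
  Zr_smul _ _ _ := trivial

theorem tw0_ok {x : E N} (hx : x ≠ 0) : (tw0 N).Ok x where
  ex k q hq u hu hd := by
    by_cases h : q < 0
    · refine ⟨0, zero_mem _, ?_⟩
      rw [map_zero, sub_zero]
      exact Vn_of_zero fun _ hx => Fm_neg (Or.inr h) hu hx
    · exact dolbP hx (by omega) hu hd
  z0 k u hu hd := ⟨u, hu, hd, 0, zero_mem _, by
    change u - u - (DB false 0 : SM N) ∈ _
    simp⟩
  b0 k g hg _ h0 := ⟨0, zero_mem _, by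
    rw [map_zero, sub_zero]
    exact Vn_of_ev0 hx hg.2 (h0.mono fun y hy => hy trivial)⟩

variable {ι : Type} {F : ι → MP N} {d : ι → ℕ}

/-- The Koszul complex of a list of equations. -/
noncomputable def kos (hom : ∀ j, (F j).IsHomogeneous (d j)) : List ι → Tw N
  | [] => tw0 N
  | j :: l => (kos hom l).cone (hom j)

theorem mem_kos_Zr (hom : ∀ j, (F j).IsHomogeneous (d j)) (l : List ι) (y : E N) :
    y ∈ (kos hom l).Zr ↔ ∀ i ∈ {i | i ∈ l}, eval y (F i) = 0 := by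
  induction l with
  | nil => simp [kos, tw0]
  | cons j l ih =>
    change y ∈ (kos hom l).Zr ∧ eval y (F j) = 0 ↔ _
    rw [ih]; simp [and_comm]

theorem kos_acy (hom : ∀ j, (F j).IsHomogeneous (d j)) {x : E N} (hx : x ≠ 0) {l : List ι} {j : ι}
    (hj : j ∈ l) (h : eval x (F j) ≠ 0) : (kos hom l).Acy (prP x) := by
  induction l with
  | nil => simp at hj
  | cons i l ih =>
    rcases List.mem_cons.1 hj with rfl | hj
    · exact Tw.acy_cone _ (hom _) hx h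
    · exact (ih hj).cone _ (hom _)

variable [Fintype ι] [DecidableEq ι]

theorem kos_ok (h : IsCI F d) {x : E N} (hx : x ∈ cone F) {l : List ι} (hl : l.Nodup) :
    (kos h.hom l).Ok x := by
  induction l with
  | nil => exact tw0_ok hx.1
  | cons j l ih =>
    rw [List.nodup_cons] at hl
    refine (ih hl.2).cone (h.hom j) hx.1 (fun g hg h0 => ?_) fun g hg h0 => ?_
    · simp only [mem_kos_Zr] at h0 ⊢
      exact hadamard_step h hx _ hl.1 hg h0
    · simp only [mem_kos_Zr] at h0 ⊢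
      exact dense_step h hx _ hl.1 hg h0

/-- The Dolbeault complex of `Λ^p (T^* / ⟨dQ⟩) ⊗ O(k)` on the complete intersection. -/
noncomputable def Efd (h : IsCI F d) {L : List (Bool × MP N)} (hL : DualL (cone F) L)
    (hB : ∀ j, (false, F j) ∈ L) (p k : ℤ) : FD N where
  d := DB false
  G q := Fm p q k
  C := cone F
  P y := ann (pl L y)
  dG _ _ hu := DB_Fm hu
  stab u _ _ hx hn := stab_DB h false hL hB u hx hn
  dd _ u _ x hx _ := by rw [DB_DB_self false u hx]; exact zero_mem _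
  cut _ _ hu _ hg hm := by simpa using MF_Fm hg hm hu
  bdd := ⟨0, fun _ hq _ hu _ hx => Fm_neg (Or.inr hq) hu hx⟩

/-- The Dolbeault complex of `O_X(k)`. -/
noncomputable def Ofd (h : IsCI F d) (k : ℤ) : FD N := Efd h h.dualL_bar (mem_allL false) 0 k

theorem lift0 (h : IsCI F d) {x : E N} (hx : x ∈ cone F) {q k : ℤ} {u : SM N} (hu : u ∈ Fm 0 q k)
    (hc : DB false u ∈ (Ofd h k).sh.V (prP x)) :
    ∃ u' ∈ Fm 0 q k, DB false u' ∈ V0 (prP x) ∧ u - u' ∈ (Ofd h k).sh.V (prP x) := by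
  obtain ⟨r, hr, hev⟩ := exists_retr' h hx
  have hF : ∀ a ∈ allL false F, ∃ j, a.2 = F j := fun a ha => by
    obtain ⟨j, rfl⟩ := of_mem_allL ha; exact ⟨j, rfl⟩
  have h1 : ∀ᶠ y in 𝓝 x, ContDiffAt ℝ ∞ (pb r u.1) y ∧ pb r u.1 y ∈ Ty 0 q ∧
      db false idE (pb r u.1) y = 0 := by
    filter_upwards [hev, hr.eventually (NearT.ev hx.1 hc)] with y ⟨ha, hy, h2, _⟩ h3
    refine ⟨sm_pb (an_sm ha) (u.sm hy.1), pb_mem ha (hu.1 _ hy.1).1, ?_⟩
    rw [db_pb _ ha (u.df hy.1)]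
    exact h2 _ _ h.dualL_bar hF (by rw [← DB_apply _ _ hy.1]; exact h3 hy)
  obtain ⟨u', hu', -, e⟩ := exists_ext hx.1 k (h1.mono fun y hy => ⟨hy.1, hy.2.1⟩)
  refine ⟨u', hu', Vn_of_ev0 hx.1 (DB_Fm hu').2 ?_,
    Vn_of_ev h h.dualL_bar hx.1 (sub_mem hu hu').2 ?_⟩
  · filter_upwards [db_congr' (s := false) (L := idE) e, lf_ne_ev hx.1, ne_zero_ev hx.1,
      (cpr_tendsto hx.1).eventually h1] with y h2 h3 hy h4
    rw [DB_apply _ _ hy, h2, db_ext k h3 h4.1, ext, pb, h4.2.2]; simp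
  · filter_upwards [e, lf_ne_ev hx.1, (cpr_tendsto hx.1).eventually hev] with y h2 h3 h4 hy
    have hy' : cpr x y ∈ cone F := (cone_smul h (inv_ne_zero h3)).2 hy
    change u.1 y - u'.1 y ∈ _
    rw [h2, ← ext_eq (k := k) h3 hy.1 (hu.1 y hy.1).1 (fun s => ?_) hu.2, ← ext_sub]
    · exact ext_ann h h.dualL_bar hF hy h3 k ((h4.2.2.2 hy' u.1).2 q (hu.1 _ hy'.1).1)
    · cases s
      · exact (hu.1 y hy.1).2
      · exact ct_of_Eg_zero (hu.1 y hy.1).1.1 y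

/-- The augmentation of the Koszul complex. -/
noncomputable def aug (h : IsCI F d) (l : List ι) (k : ℤ) :
    Sh.Hom ((kos h.hom l).sh k) (Ofd h k).sh where
  f := (kos h.hom l).hd
  fG q u hu := (kos h.hom l).hdG k q u hu
  fV b u hu := Vn0_le ((kos h.hom l).hdV b u hu)
  comm b q u _ := NearT.of_forall fun y _ hy => by
    have := (kos h.hom l).hd_d u y ((mem_kos_Zr _ _ _).2 fun i _ => hy.2 i)
    change ((kos h.hom l).hd ((kos h.hom l).d u)).1 y - (DB false ((kos h.hom l).hd u)).1 y ∈ _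
    rw [this, sub_self]; exact zero_mem _

theorem aug_qiso (h : IsCI F d) {l : List ι} (hl : l.Nodup) (hl' : ∀ j, j ∈ l) (k q : ℤ) :
    (aug h l k).gl.Inj q ∧ (aug h l k).gl.Surj q := by
  refine (aug h l k).qiso_of_stalk (Tw.fine _ k) (FD.fine _) (fun b q => ?_) q
  have triv : ((kos h.hom l).sh k |>.st b).Exact q → (NearT b fun y => y ∉ cone F) →
      ((aug h l k).st b).Inj q ∧ ((aug h l k).st b).Surj q := fun h1 h2 =>
    ⟨fun u hu _ => Cx.exact_iff_B.1 h1 u hu, fun w _ => ⟨0, zero_mem _,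
      Cx.nul_le_B (NearT.mono h2 fun y _ h3 h4 => (h3 h4).elim)⟩⟩
  rcases TT_cases b with hb | ⟨x, hx, rfl⟩
  · refine triv (Cx.exact_of_le ?_) (NearT.of_notMem hb)
    change _ ≤ (kos h.hom l).V b
    rw [(kos h.hom l).cpt b hb]; exact le_top
  by_cases hc : x ∈ cone F
  swap
  · obtain ⟨j, hj⟩ : ∃ j, eval x (F j) ≠ 0 := by simpa [cone, hx] using hc
    exact triv (kos_acy h.hom hx (hl' j) hj k q) (nearT_notMem h hx hc)
  have ok := kos_ok h hc hl
  refine ⟨fun u hu h1 => ?_, fun w hw => ?_⟩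
  · by_cases hq : q = 0
    swap
    · exact Cx.mem_B.2 (ok.ex k q hq u hu.1 hu.2)
    subst hq
    obtain ⟨g, hg, hg', v, hv, h2⟩ := ok.z0 k u hu.1 hu.2
    obtain ⟨w, hw, h3⟩ := Cx.mem_B.1 h1
    obtain ⟨v', hv', h4⟩ := ok.b0 k g hg hg' (by
      filter_upwards [(mem_V0.1 ((kos h.hom l).hdV _ _ h2)).ev hx, NearT.ev hx h3, ne_zero_ev hx]
        with y h5 h6 hy hz
      have hyc : y ∈ cone F := ⟨hy, fun j => (mem_kos_Zr _ _ _).1 hz j (hl' j)⟩
      have h7 : ((kos h.hom l).hd u).1 y - (DB false w).1 y ∈ ann (pl (allL false F) y) := h6 hyc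
      rw [map_sub, map_sub, (kos h.hom l).hd_inc] at h5
      change ((kos h.hom l).hd u).1 y - g.1 y - ((kos h.hom l).hd ((kos h.hom l).d v)).1 y = 0 at h5
      rw [Tw.hd_d_neg _ hv hy hz, sub_zero, sub_eq_zero] at h5
      rw [DB_of_zero _ (fun z hz => Fm_neg (Or.inr (by norm_num)) hw hz) hy, sub_zero, h5,
        eq_sca (hg.1 y hy).1, mem_ann, mul_smul_comm, mul_one, smul_eq_zero] at h7
      rw [eq_sca (hg.1 y hy).1, h7.resolve_right (wl_ne_zero (h.dualL_bar.hasDual hyc)), zero_smul])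
    refine Cx.mem_B.2 ⟨v + v', add_mem hv hv', ?_⟩
    refine mem_of_eq (add_mem h2 h4) ?_
    change u - (kos h.hom l).d (v + v') = _
    rw [map_add]; abel
  · obtain ⟨u', hu', h1, h2⟩ := lift0 h hc hw.1 hw.2
    refine ⟨(kos h.hom l).inc u', ⟨(kos h.hom l).incG _ _ _ hu', ?_⟩, Cx.nul_le_B ?_⟩
    · change (kos h.hom l).d _ ∈ (kos h.hom l).V _
      rw [(kos h.hom l).inc_d]; exact (kos h.hom l).incV _ _ h1
    · change w - (kos h.hom l).hd _ ∈ _
      rw [(kos h.hom l).hd_inc]; exact h2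

end Vale.Agent.P269.Hdg
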