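import Vale.Agent.P269.Hdg.Forms
import Vale.Agent.P269.Hdg.CxThm

/-!
# Projective space as a space of projectors; complexes of forms over it; equivariant extension
-/

namespace Vale.Agent.P269.Hdg

open scoped ComplexConjugate ContDiff Manifold
open Complex (I)
open Topology Filter MvPolynomial

variable {N : ℕ}

/-- The space of matrices. -/
abbrev TT (N : ℕ) : Type := Fin (N + 1) → Fin (N + 1) → ℂ

theorem nu_ne {y : E N} (hy : y ≠ 0) : nu y ≠ 0 := by
  open ComplexOrder in exact (nu_pos hy).ne'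

/-- The orthogonal projector onto the line through `y`. -/
noncomputable def prP (y : E N) : TT N := fun i j => y i * conj (y j) * (nu y)⁻¹

theorem prP_smul {t : ℂ} (ht : t ≠ 0) (y : E N) : prP (t • y) = prP y := by
  funext i j
  have hc : conj t ≠ 0 := by simpa
  simp only [prP, nu_smul, Pi.smul_apply, smul_eq_mul, map_mul, mul_inv]
  field_simp

theorem sm_prP {y : E N} (hy : y ≠ 0) : ContDiffAt ℝ ∞ (prP : E N → TT N) y :=
  contDiffAt_pi.2 fun i => contDiffAt_pi.2 fun j =>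
    ((contDiffAt_apply ℝ ℂ i y).mul (contDiffAt_conj (contDiffAt_apply ℝ ℂ j y))).mul
      ((contDiffAt_nu y).inv (nu_ne hy))

/-- A matrix applied to a vector. -/
noncomputable def app (b : TT N) (x : E N) : E N := fun i => ∑ j, b i j * x j

theorem app_prP (y x : E N) : app (prP y) x = ((∑ j, conj (y j) * x j) * (nu y)⁻¹) • y := by
  funext i
  simp only [app, prP, Pi.smul_apply, smul_eq_mul, Finset.sum_mul]
  exact Finset.sum_congr rfl fun j _ => by ring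

theorem app_prP_self {x : E N} (hx : x ≠ 0) : app (prP x) x = x := by
  rw [app_prP]
  have : ∑ j, conj (x j) * x j = nu x := Finset.sum_congr rfl fun j _ => mul_comm _ _
  rw [this, mul_inv_cancel₀ (nu_ne hx), one_smul]

theorem exists_smul_of_prP {x y : E N} (hx : x ≠ 0) (h : prP y = prP x) :
    ∃ t : ℂ, t ≠ 0 ∧ t • y = x := by
  have := app_prP y x
  rw [h, app_prP_self hx] at this
  refine ⟨_, fun h0 => hx ?_, this.symm⟩
  rw [this, h0, zero_smul]

/-- Projective space. -/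
def KK (N : ℕ) : Set (TT N) := prP '' Metric.sphere (0 : E N) 1

theorem ne_zero_of_sphere {y : E N} (hy : y ∈ Metric.sphere (0 : E N) 1) : y ≠ 0 := by
  rintro rfl; simp at hy

theorem isCompact_image_prP {C : Set (E N)} (hC : IsClosed C) :
    IsCompact (prP '' (Metric.sphere (0 : E N) 1 ∩ C)) :=
  ((isCompact_sphere _ _).inter_right hC).image_of_continuousOn fun _ hy =>
    (sm_prP (ne_zero_of_sphere hy.1)).continuousAt.continuousWithinAt

theorem isCompact_KK : IsCompact (KK N) := by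
  simpa [KK] using isCompact_image_prP (N := N) isClosed_univ

theorem normalize_mem {y : E N} (hy : y ≠ 0) :
    ((‖y‖⁻¹ : ℝ) : ℂ) • y ∈ Metric.sphere (0 : E N) 1 := by
  simp [norm_smul, norm_ne_zero_iff.2 hy]

theorem normalize_ne {y : E N} (hy : y ≠ 0) : ((‖y‖⁻¹ : ℝ) : ℂ) ≠ 0 := by
  simpa using hy

theorem prP_mem_KK {y : E N} (hy : y ≠ 0) : prP y ∈ KK N :=
  ⟨_, normalize_mem hy, prP_smul (normalize_ne hy) y⟩

/-- The property `Q` holds at all points over a neighbourhood of `b`. -/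
def NearT (b : TT N) (Q : E N → Prop) : Prop := ∀ᶠ b' in 𝓝 b, ∀ y ≠ 0, prP y = b' → Q y

variable {b : TT N} {Q Q' : E N → Prop} {x : E N}

theorem NearT.mono (h : NearT b Q) (h' : ∀ y ≠ 0, Q y → Q' y) : NearT b Q' :=
  Eventually.mono h fun _ hb y hy e => h' y hy (hb y hy e)

theorem NearT.and (h : NearT b Q) (h' : NearT b Q') : NearT b fun y => Q y ∧ Q' y :=
  (Eventually.and h h').mono fun _ hb y hy e => ⟨hb.1 y hy e, hb.2 y hy e⟩

theorem NearT.of_forall (h : ∀ y ≠ 0, Q y) : NearT b Q :=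
  Eventually.of_forall fun _ y hy _ => h y hy

theorem NearT.opn (h : NearT b Q) : ∀ᶠ b' in 𝓝 b, NearT b' Q := eventually_eventually_nhds.2 h

theorem NearT.ev (hx : x ≠ 0) (h : NearT (prP x) Q) : ∀ᶠ y in 𝓝 x, Q y := by
  filter_upwards [(sm_prP hx).continuousAt.tendsto.eventually h, ne_zero_ev hx] with y h1 h2
  exact h1 y h2 rfl

theorem NearT.self (hx : x ≠ 0) (h : NearT (prP x) Q) : Q x := (h.ev hx).self_of_nhds

theorem NearT.loc (h : NearT b Q) : NearT b fun y => ∀ᶠ z in 𝓝 y, Q z :=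
  h.opn.mono fun _ hb _ hy e => NearT.ev hy (e ▸ hb)

theorem NearT.of_ev (hx : x ≠ 0) (hQ : ∀ (t : ℂ) y, t ≠ 0 → y ≠ 0 → Q (t • y) → Q y)
    (h : ∀ᶠ y in 𝓝 x, Q y) : NearT (prP x) Q := by
  have hc : Tendsto (fun b => app b x) (𝓝 (prP x)) (𝓝 x) := by
    have : Continuous fun b : TT N => app b x := by unfold app; fun_prop
    simpa [app_prP_self hx] using this.tendsto (prP x)
  filter_upwards [hc.eventually (h.and (ne_zero_ev hx))] with b' hb y hy e
  rw [← e, app_prP] at hb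
  exact hQ _ y (left_ne_zero_of_smul hb.2) hy hb.1

theorem NearT.of_notMem (hb : b ∉ KK N) : NearT b Q := by
  filter_upwards [isCompact_KK.isClosed.isOpen_compl.mem_nhds hb] with b' hb' y hy e
  exact (hb' (e ▸ prP_mem_KK hy)).elim

theorem TT_cases (b : TT N) : b ∉ KK N ∨ ∃ x ≠ 0, b = prP x := by
  by_cases h : b ∈ KK N
  · obtain ⟨x, hx, rfl⟩ := h
    exact Or.inr ⟨x, ne_zero_of_sphere hx, rfl⟩
  · exact Or.inl h

theorem forall_nearT : (∀ b, NearT b Q) ↔ ∀ y ≠ 0, Q y :=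
  ⟨fun h _ hy => (h _).self hy, fun h _ => NearT.of_forall h⟩

/-- Invariant cut-off functions. -/
theorem exists_cut {K₁ K₂ : Set (TT N)} (h₁ : IsClosed K₁) (h₂ : IsClosed K₂)
    (hd : Disjoint K₁ K₂) : ∃ φ : TT N → ℂ, ContDiff ℝ ∞ φ ∧ (∀ b ∈ K₁, ∀ᶠ b' in 𝓝 b, φ b' = 1) ∧
      ∀ b ∈ K₂, ∀ᶠ b' in 𝓝 b, φ b' = 0 := by
  obtain ⟨f, h0, h1, -⟩ := exists_contMDiffMap_zero_one_nhds_of_isClosed (n := ⊤)
    (modelWithCornersSelf ℝ (TT N)) h₂ h₁ hd.symm
  refine ⟨fun b => (f b : ℂ), Complex.ofRealCLM.contDiff.comp f.contMDiff.contDiff, fun b hb => ?_,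
    fun b hb => ?_⟩
  · exact (h1.filter_mono (nhds_le_nhdsSet hb)).mono fun _ h => by simp [h]
  · exact (h0.filter_mono (nhds_le_nhdsSet hb)).mono fun _ h => by simp [h]

theorem sm_cut {φ : TT N → ℂ} (h : ContDiff ℝ ∞ φ) (x : E N) (hx : x ≠ 0) :
    ContDiffAt ℝ ∞ (fun y => φ (prP y)) x := h.contDiffAt.comp x (sm_prP hx)

theorem hm_cut (φ : TT N → ℂ) : Hm 0 0 (fun y => φ (prP y)) := fun t x ht _ => by
  simp [prP_smul ht]

/-- Forms whose values on `C` lie in `P` over a neighbourhood of `b`. -/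
def Vn (C : Set (E N)) (P : E N → Submodule ℂ (Λ N)) (b : TT N) : Submodule ℂ (SM N) where
  carrier := {u | NearT b fun y => y ∈ C → u.1 y ∈ P y}
  zero_mem' := NearT.of_forall fun _ _ _ => zero_mem _
  add_mem' hu hv := (NearT.and hu hv).mono fun _ _ h hy => add_mem (h.1 hy) (h.2 hy)
  smul_mem' c _ hu := NearT.mono hu fun _ _ h hy => Submodule.smul_mem _ c (h hy)

theorem mem_Vn {C : Set (E N)} {P : E N → Submodule ℂ (Λ N)} {u : SM N} :
    u ∈ Vn C P b ↔ NearT b fun y => y ∈ C → u.1 y ∈ P y := Iff.rfl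

theorem Vn_of_zero {C : Set (E N)} {P : E N → Submodule ℂ (Λ N)} {u : SM N}
    (h : ∀ y ≠ 0, u.1 y = 0) : u ∈ Vn C P b :=
  NearT.of_forall fun y hy _ => by rw [h y hy]; exact zero_mem _

/-- The data of a complex of forms. -/
structure FD (N : ℕ) where
  d : SM N →ₗ[ℂ] SM N
  G : ℤ → Submodule ℂ (SM N)
  C : Set (E N)
  P : E N → Submodule ℂ (Λ N)
  dG : ∀ q u, u ∈ G q → d u ∈ G (q + 1)
  stab : ∀ (u : SM N) x, x ≠ 0 → x ∈ C → (∀ᶠ y in 𝓝 x, y ∈ C → u.1 y ∈ P y) → (d u).1 x ∈ P x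
  dd : ∀ q u, u ∈ G q → ∀ x ≠ 0, x ∈ C → (d (d u)).1 x ∈ P x
  cut : ∀ q u, u ∈ G q → ∀ g hg, Hm 0 0 g → MF g hg u ∈ G q
  bdd : ∃ q₀, ∀ q < q₀, ∀ u ∈ G q, ∀ x ≠ 0, u.1 x = 0

/-- The complex over the space of projectors. -/
@[reducible] noncomputable def FD.sh (D : FD N) : Sh (TT N) where
  M := SM N
  d := D.d
  G := D.G
  V := Vn D.C D.P
  dG := D.dG
  dV _ u hu := (NearT.loc hu).mono fun y hy h hC => D.stab u y hy hC h
  dd _ q u hu := NearT.of_forall (D.dd q u hu)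

theorem FD.mem_nul (D : FD N) {u : SM N} :
    u ∈ D.sh.gl.nul ↔ ∀ y ≠ 0, y ∈ D.C → u.1 y ∈ D.P y :=
  D.sh.mem_gl_nul.trans forall_nearT

theorem FD.fine (D : FD N) : D.sh.Fine where
  opn _ _ hu := NearT.opn hu
  sep K₁ K₂ h₁ h₂ hd q u hu := by
    obtain ⟨φ, hφ, e₁, e₂⟩ := exists_cut h₁.isClosed h₂.isClosed hd
    refine ⟨MF _ (sm_cut hφ) u, D.cut q u hu _ _ (hm_cut φ), fun b hb => ?_, fun b hb => ?_,
      fun b hb => NearT.mono hb fun y _ h hC => Submodule.smul_mem _ _ (h hC)⟩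
    · refine (e₁ b hb).mono fun b' h y _ e _ => ?_
      change φ (prP y) • (u : SM N).1 y - (u : SM N).1 y ∈ _
      rw [e, h, one_smul, sub_self]; exact zero_mem _
    · refine (e₂ b hb).mono fun b' h y _ e _ => ?_
      change φ (prP y) • (u : SM N).1 y ∈ _
      rw [e, h, zero_smul]; exact zero_mem _
  bdd := by
    obtain ⟨q₀, h⟩ := D.bdd
    exact ⟨q₀, fun q hq b u hu => Vn_of_zero (h q hq u hu)⟩
  cpt := ⟨KK N, isCompact_KK, fun b hb => eq_top_iff.2 fun _ _ => NearT.of_notMem hb⟩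

/-! ## Globalisation of locally defined objects -/

theorem exists_global {B : Type} [NormedAddCommGroup B] [NormedSpace ℂ B] (hx : x ≠ 0)
    {w : E N → B} (hw : NearT (prP x) fun y => ContDiffAt ℝ ∞ w y ∧ Q y) :
    ∃ φ : TT N → ℂ, (∀ y ≠ 0, ContDiffAt ℝ ∞ (fun y => φ (prP y) • w y) y) ∧
      (NearT (prP x) fun y => φ (prP y) = 1) ∧ ∀ y ≠ 0, φ (prP y) ≠ 0 → Q y := by
  obtain ⟨O, hO, hOo, hxO⟩ := eventually_nhds_iff.1 hw
  obtain ⟨φ, hφ, e₁, e₂⟩ := exists_cut (K₁ := {prP x}) isClosed_singleton hOo.isClosed_compl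
    (by simpa using hxO)
  refine ⟨φ, fun y hy => ?_, (e₁ _ rfl).mono fun b' h y _ e => (congrArg φ e).trans h,
    fun y hy h => ?_⟩
  · by_cases h : prP y ∈ O
    · exact sm_smul (sm_cut hφ y hy) (hO _ h y hy rfl).1
    · have := (sm_prP hy).continuousAt.tendsto.eventually (e₂ _ h)
      exact contDiffAt_const.congr_of_eventuallyEq (f := fun _ => 0)
        (this.mono fun z hz => by simp [hz])
  · by_cases h' : prP y ∈ O
    · exact (hO _ h' y hy rfl).2
    · exact (h (e₂ _ h').self_of_nhds).elim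

/-- A linear form taking the value one at `x`. -/
noncomputable def lf (x : E N) : E N →L[ℂ] ℂ :=
  ∑ j, (conj (x j) * (nu x)⁻¹) • ContinuousLinearMap.proj j

theorem lf_self (hx : x ≠ 0) : lf x x = 1 := by
  have : ∑ j, conj (x j) * (nu x)⁻¹ * x j = nu x * (nu x)⁻¹ := by
    rw [nu, Finset.sum_mul]; exact Finset.sum_congr rfl fun j _ => by ring
  simp [lf, this, mul_inv_cancel₀ (nu_ne hx)]

/-- Central projection to the affine hyperplane `lf x = 1`. -/
noncomputable def cpr (x y : E N) : E N := (lf x y)⁻¹ • y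

theorem cpr_self (hx : x ≠ 0) : cpr x x = x := by simp [cpr, lf_self hx]

theorem cpr_smul {t : ℂ} (ht : t ≠ 0) (y : E N) : cpr x (t • y) = cpr x y := by
  by_cases h : lf x y = 0
  · simp [cpr, h]
  · simp only [cpr, map_smul, smul_eq_mul, smul_smul]; congr 1; field_simp

theorem an_cpr {y : E N} (h : lf x y ≠ 0) : AnalyticAt ℂ (cpr x) y :=
  (((lf x).analyticAt y).inv h).smul analyticAt_id

theorem fderiv_cpr {y : E N} (h : lf x y ≠ 0) : fderiv ℝ (cpr x) y =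
    (scal (lf x y)⁻¹).comp ((ContinuousLinearMap.id ℂ (E N) +
      (-(lf x y)⁻¹ • lf x).smulRight y).restrictScalars ℝ) := by
  have h1 := ((hasFDerivAt_inv' (𝕜 := ℂ) h).comp y (lf x).hasFDerivAt).smul (hasFDerivAt_id y)
  have h2 : HasFDerivAt (cpr x) _ y := h1.restrictScalars ℝ
  rw [h2.fderiv]
  ext v i
  simp
  ring

theorem lf_ne_ev (hx : x ≠ 0) : ∀ᶠ y in 𝓝 x, lf x y ≠ 0 :=
  (lf x).continuous.continuousAt.eventually_ne (by rw [lf_self hx]; exact one_ne_zero)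

theorem cpr_tendsto (hx : x ≠ 0) : Tendsto (cpr x) (𝓝 x) (𝓝 x) := by
  have := (an_cpr (x := x) (y := x) (by rw [lf_self hx]; exact one_ne_zero)).continuousAt.tendsto
  rwa [cpr_self hx] at this

/-- The homogeneous extension of weight `k` of a form defined near `x`. -/
noncomputable def ext (x : E N) (k : ℤ) (v : E N → Λ N) (y : E N) : Λ N :=
  lf x y ^ k • pb (cpr x) v y

theorem ct_pb_cpr (s : Bool) (v : E N → Λ N) {y : E N} (h : lf x y ≠ 0) :
    ct (vec s y) (pb (cpr x) v y) = 0 := by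
  rw [pb, an_fderiv (an_cpr h), ct_mp, vec_comp_tr]
  have : fderiv ℂ (cpr x) y y = 0 := by
    have h1 := DFunLike.congr_fun (an_fderiv (an_cpr h)) y
    rw [fderiv_cpr h] at h1
    refine h1.symm.trans ?_
    simp [inv_mul_cancel₀ h]
  rw [this, vec_zero]; simp

theorem pb_cpr_smul {p q : ℤ} (v : E N → Λ N) {y : E N} (h : lf x y ≠ 0) {t : ℂ} (ht : t ≠ 0)
    (hv : v (cpr x y) ∈ Ty p q) :
    pb (cpr x) v (t • y) = (t ^ (-p) * conj t ^ (-q)) • pb (cpr x) v y := by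
  have h' : lf x (t • y) ≠ 0 := by simp [h, ht]
  have e : fderiv ℝ (cpr x) (t • y) = (scal t⁻¹).comp (fderiv ℝ (cpr x) y) := by
    rw [fderiv_cpr h, fderiv_cpr h']
    ext v i
    simp
    field_simp
  rw [pb, pb, e, ← tr_comp, ← mp_mp, cpr_smul ht, mp_scal hv, map_smul]
  simp

theorem ext_eq {p q k : ℤ} {v : E N → Λ N} {y : E N} (h : lf x y ≠ 0) (hy : y ≠ 0)
    (hv : v y ∈ Ty p q) (h0 : ∀ s, ct (vec s y) (v y) = 0) (hm : Hm (k - p) (-q) v) :
    ext x k v y = v y := by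
  have hc : conj (lf x y) ≠ 0 := by simpa
  rw [ext, pb, fderiv_cpr h, ← tr_comp, ← mp_mp, cpr, hm _ _ (inv_ne_zero h) hy, map_smul,
    mp_scal hv, map_smul, map_smul, mp_radial _ _ h0, smul_smul, smul_smul]
  simp only [inv_zpow', map_inv₀, neg_sub, zpow_sub₀ h, inv_inv, zpow_neg]
  rw [show lf x y ^ k * (lf x y ^ p / lf x y ^ k * conj (lf x y) ^ q) *
    ((lf x y ^ p)⁻¹ * (conj (lf x y) ^ q)⁻¹) = 1 by field_simp, one_smul]

theorem sm_ext (k : ℤ) {v : E N → Λ N} {y : E N} (h : lf x y ≠ 0)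
    (hv : ContDiffAt ℝ ∞ v (cpr x y)) : ContDiffAt ℝ ∞ (ext x k v) y :=
  sm_smul (an_sm (((lf x).analyticAt y).zpow h)) (sm_pb (an_sm (an_cpr h)) hv)

theorem db_ext (k : ℤ) {v : E N → Λ N} {y : E N} (h : lf x y ≠ 0)
    (hv : ContDiffAt ℝ ∞ v (cpr x y)) :
    db false idE (ext x k v) y = ext x k (db false idE v) y := by
  unfold ext
  rw [db_an_smul (g := fun y => lf x y ^ k) (((lf x).analyticAt y).zpow h)
    (sm_diff (sm_pb (an_sm (an_cpr h)) hv)), db_pb _ (an_cpr h) (sm_diff hv)]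

theorem ext_zero (v : E N → Λ N) : ext x 0 v = pb (cpr x) v := by
  funext y; simp [ext]

/-- Every form defined near `x` has a global homogeneous basic extension. -/
theorem exists_ext (hx : x ≠ 0) {p q : ℤ} (k : ℤ) {v : E N → Λ N}
    (hv : ∀ᶠ y in 𝓝 x, ContDiffAt ℝ ∞ v y ∧ v y ∈ Ty p q) :
    ∃ u ∈ Fm p q k, (∀ y ≠ 0, ct (vec true y) (u.1 y) = 0) ∧ u.1 =ᶠ[𝓝 x] ext x k v := by
  have h1 : NearT (prP x) fun y => lf x y ≠ 0 ∧ ContDiffAt ℝ ∞ v (cpr x y) ∧
      v (cpr x y) ∈ Ty p q := by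
    refine NearT.of_ev hx (fun t y ht _ h => ?_) ((lf_ne_ev hx).and ((cpr_tendsto hx).eventually hv))
    rw [cpr_smul ht] at h
    exact ⟨by simpa [ht] using h.1, h.2⟩
  obtain ⟨φ, h2, h3, h4⟩ := exists_global hx (w := ext x k v)
    (Q := fun y => lf x y ≠ 0 ∧ v (cpr x y) ∈ Ty p q)
    (h1.mono fun y _ h => ⟨sm_ext k h.1 h.2.1, h.1, h.2.2⟩)
  have h5 : ∀ s, ∀ y ≠ 0, ct (vec s y) (φ (prP y) • ext x k v y) = 0 := fun s y hy => by
    by_cases h : φ (prP y) = 0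
    · simp [h]
    · rw [ext, map_smul, map_smul, ct_pb_cpr s v (h4 y hy h).1]; simp
  refine ⟨⟨_, h2⟩, ⟨fun y hy => ⟨?_, h5 _ y hy⟩, fun t y ht hy => ?_⟩, h5 _,
    (h3.ev hx).mono fun y h => by simp [h]⟩
  · by_cases h : φ (prP y) = 0
    · simp [h]
    · exact Submodule.smul_mem _ _ (Submodule.smul_mem _ _
        (pb_mem (an_cpr (h4 y hy h).1) (h4 y hy h).2))
  · by_cases h : φ (prP y) = 0
    · simp [h, prP_smul ht]
    · simp only [prP_smul ht, ext, pb_cpr_smul v (h4 y hy h).1 ht (h4 y hy h).2, map_smul,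
        smul_smul, smul_eq_mul, mul_zpow, zpow_sub₀ ht, zpow_neg]
      congr 1; field_simp

end Vale.Agent.P269.Hdg
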