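import Vale.Agent.P269.Hdg.Calc
import Vale.Agent.P269.Hdg.Geo

/-!
# Pull-back of forms, homogeneity, the Euler vector field
-/

namespace Vale.Agent.P269.Hdg

open scoped ComplexConjugate ContDiff
open Complex (I)
open Topology Filter MvPolynomial

variable {N : ℕ}

/-- The identity of `ℂ^{N+1}`. -/
noncomputable abbrev idE : E N →L[ℝ] E N := ContinuousLinearMap.id ℝ (E N)

theorem sm_smul {Y B : Type} [NormedAddCommGroup Y] [NormedSpace ℝ Y] [NormedAddCommGroup B]
    [NormedSpace ℂ B] {g : Y → ℂ} {u : Y → B} {x : Y} (hg : ContDiffAt ℝ ∞ g x)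
    (hu : ContDiffAt ℝ ∞ u x) : ContDiffAt ℝ ∞ (fun y => g y • u y) x := hg.smul hu

theorem db_id (s : Bool) (u : E N → Λ N) (x : E N) : db s idE u x = al s (fderiv ℝ u x) := by
  simp [db]

theorem db_scalar (s : Bool) {g : E N → ℂ} {x : E N} (hg : DifferentiableAt ℝ g x) :
    db s idE (fun y => g y • (1 : Λ N)) x = io (pr s (fderiv ℝ g x)) := by
  rw [db_smul hg (differentiableAt_const _), db_const]; simp

theorem dd_scalar {g : E N → ℂ} {x : E N} (hg : DifferentiableAt ℝ g x) :
    dd idE (fun y => g y • (1 : Λ N)) x = io (fderiv ℝ g x) := by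
  rw [dd_smul hg (differentiableAt_const _), dd_const]; simp

theorem dd_io_fderiv {g : E N → ℂ} {x : E N} (hg : ContDiffAt ℝ ∞ g x) :
    dd idE (fun y => io (fderiv ℝ g y)) x = 0 := by
  have : (fun y => io (fderiv ℝ g y)) =ᶠ[𝓝 x] dd idE (fun y => g y • (1 : Λ N)) :=
    (sm_ev hg).mono fun y hy => (dd_scalar hy).symm
  rw [dd_congr this, dd_dd_self (sm_smul hg contDiffAt_const)]

theorem db_io_fderiv (s s' : Bool) {g : E N → ℂ} {x : E N} (hg : ContDiffAt ℝ ∞ g x)
    (h : ∀ᶠ y in 𝓝 x, pr (!s) (fderiv ℝ g y) = 0) :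
    db s' idE (fun y => io (fderiv ℝ g y)) x = 0 := by
  have hg1 : ContDiffAt ℝ ∞ (fun y => g y • (1 : Λ N)) x := sm_smul hg contDiffAt_const
  have h1 : (fun y => io (fderiv ℝ g y)) =ᶠ[𝓝 x] db s idE (fun y => g y • (1 : Λ N)) := by
    filter_upwards [sm_ev hg, h] with y hy hy'
    rw [db_scalar s hy]
    conv_lhs => rw [← pr_add_pr (fderiv ℝ g y)]
    cases s <;> simp_all
  rw [db_congr h1]
  by_cases e : s' = s
  · subst e; exact db_db_self hg1
  · have h2 : db s' idE (fun y => g y • (1 : Λ N)) =ᶠ[𝓝 x] fun _ => 0 := by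
      filter_upwards [sm_ev hg, h] with y hy hy'
      have : s' = !s := by cases s <;> cases s' <;> simp_all
      rw [db_scalar s' hy, this, hy', map_zero]
    rw [db_db s s' idE idE hg1, db_congr h2, db_const, neg_zero]

/-- Pull-back of forms. -/
noncomputable def pb (f : E N → E N) (u : E N → Λ N) (x : E N) : Λ N :=
  mp (tr (fderiv ℝ f x)) (u (f x))

variable {f : E N → E N} {u v : E N → Λ N} {x : E N}

theorem sm_pb (hf : ContDiffAt ℝ ∞ f x) (hu : ContDiffAt ℝ ∞ u (f x)) :
    ContDiffAt ℝ ∞ (pb f u) x :=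
  sm_app (Φ := fun y => (mp (tr (fderiv ℝ f y))).toLinearMap) (fun a => sm_mp (sm_fderiv hf) a)
    (hu.comp x hf)

theorem tr_fderiv (w : W N) (hf : DifferentiableAt ℝ f x) :
    tr (fderiv ℝ f x) w = fderiv ℝ (fun y => w (f y)) x :=
  ((w.hasFDerivAt.comp x hf.hasFDerivAt).fderiv).symm

theorem dd_mp_const (hf : ContDiffAt ℝ ∞ f x) (a : Λ N) :
    dd idE (fun y => mp (tr (fderiv ℝ f y)) a) x = 0 := by
  have hs := fun a => sm_diff (sm_mp (sm_fderiv hf) a)
  induction a using ind with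
  | one => simp [dd_const]
  | smul c a h => simp only [map_smul]; rw [dd_csmul c (hs a), h, smul_zero]
  | add a b ha hb => simp only [map_add]; rw [dd_add (hs a) (hs b), ha, hb, add_zero]
  | mul w a h =>
    simp only [map_mul]
    rw [dd_mul (hs _) (hs _), h, mul_zero, add_zero]
    have : (fun y => mp (tr (fderiv ℝ f y)) (io w)) =ᶠ[𝓝 x]
        fun y => io (fderiv ℝ (fun y => w (f y)) y) :=
      (sm_ev hf).mono fun y hy => by simp only [mp_io, tr_fderiv w hy]
    rw [dd_congr this, dd_io_fderiv (g := fun y => w (f y)) (w.contDiff.contDiffAt.comp x hf),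
      zero_mul]

theorem dd_pb (hf : ContDiffAt ℝ ∞ f x) (hu : DifferentiableAt ℝ u (f x)) :
    dd idE (pb f u) x = pb f (dd idE u) x := by
  have h1 := fderiv_app (Φ := fun y => (mp (tr (fderiv ℝ f y))).toLinearMap)
    (fun a => sm_mp (sm_fderiv hf) a) (u := fun y => u (f y)) (hu.comp x (sm_diff hf))
  have h2 := dd_mp_const hf (u (f x))
  have h3 := al_tr_real (fderiv ℝ u (f x)) (fderiv ℝ f x)
  rw [fderiv_fun_comp x hu (sm_diff hf)] at h1
  simp only [dd, db_id, pb] at h2 ⊢
  erw [h1]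
  rw [map_add, map_add, add_add_add_comm]
  erw [h2]
  rw [zero_add, h3]

theorem an_sm {B : Type} [NormedAddCommGroup B] [NormedSpace ℂ B] [CompleteSpace B]
    {f : E N → B} (hf : AnalyticAt ℂ f x) : ContDiffAt ℝ ∞ f x :=
  (hf.contDiffAt (n := ∞)).restrict_scalars ℝ

theorem an_sm_ev {B : Type} [NormedAddCommGroup B] [NormedSpace ℂ B] [CompleteSpace B]
    {f : E N → B} (hf : AnalyticAt ℂ f x) : ∀ᶠ y in 𝓝 x, ContDiffAt ℝ ∞ f y :=
  hf.eventually_analyticAt.mono fun _ h => an_sm h

theorem an_fderiv {B : Type} [NormedAddCommGroup B] [NormedSpace ℂ B] {f : E N → B}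
    (hf : AnalyticAt ℂ f x) : fderiv ℝ f x = (fderiv ℂ f x).restrictScalars ℝ :=
  hf.differentiableAt.fderiv_restrictScalars ℝ

theorem db_mp_const (s : Bool) (hf : AnalyticAt ℂ f x) (a : Λ N) :
    db s idE (fun y => mp (tr (fderiv ℝ f y)) a) x = 0 := by
  have hs := fun a => sm_diff (sm_mp (sm_fderiv (an_sm hf)) a)
  have key : ∀ (s' : Bool) (w : W N),
      db s idE (fun y => mp (tr (fderiv ℝ f y)) (io (pr s' w))) x = 0 := by
    intro s' w
    have : (fun y => mp (tr (fderiv ℝ f y)) (io (pr s' w))) =ᶠ[𝓝 x]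
        fun y => io (fderiv ℝ (fun y => pr s' w (f y)) y) :=
      (sm_ev (an_sm hf)).mono fun y hy => by simp only [mp_io, tr_fderiv _ hy]
    rw [db_congr this]
    refine db_io_fderiv s' s ((pr s' w).contDiff.contDiffAt.comp x (an_sm hf)) ?_
    filter_upwards [hf.eventually_analyticAt] with y hy
    rw [← tr_fderiv _ (sm_diff (an_sm hy)), an_fderiv hy, pr_tr, pr_pr]
    cases s' <;> simp
  induction a using ind with
  | one => simp [db_const]
  | smul c a h => simp only [map_smul]; rw [db_csmul c (hs a), h, smul_zero]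
  | add a b ha hb => simp only [map_add]; rw [db_add (hs a) (hs b), ha, hb, add_zero]
  | mul w a h =>
    simp only [map_mul]
    rw [db_mul (hs _) (hs _), h, mul_zero, add_zero, ← pr_add_pr w]
    simp only [map_add]
    rw [db_add (hs _) (hs _), key, key, add_zero, zero_mul]

theorem db_pb (s : Bool) (hf : AnalyticAt ℂ f x) (hu : DifferentiableAt ℝ u (f x)) :
    db s idE (pb f u) x = pb f (db s idE u) x := by
  have h1 := fderiv_app (Φ := fun y => (mp (tr (fderiv ℝ f y))).toLinearMap)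
    (fun a => sm_mp (sm_fderiv (an_sm hf)) a) (u := fun y => u (f y))
    (hu.comp x (sm_diff (an_sm hf)))
  have h2 := db_mp_const s hf (u (f x))
  have h3 := al_tr s (fderiv ℝ u (f x)) (fderiv ℂ f x)
  rw [fderiv_fun_comp x hu (sm_diff (an_sm hf))] at h1
  rw [← an_fderiv hf] at h3
  simp only [db_id, pb] at h2 ⊢
  erw [h1]
  rw [map_add]
  erw [h2]
  rw [zero_add, h3]

theorem pb_mem {p q : ℤ} (hf : AnalyticAt ℂ f x) (hu : u (f x) ∈ Ty p q) : pb f u x ∈ Ty p q := by
  rw [pb, an_fderiv hf]; exact mp_tr_mem _ hu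

theorem pt_mp_tr (p q : ℤ) (L : E N →L[ℂ] E N) (a : Λ N) :
    pt p q (mp (tr (L.restrictScalars ℝ)) a) = mp (tr (L.restrictScalars ℝ)) (pt p q a) := by
  refine ty_ext (pt p q ∘ₗ (mp _).toLinearMap) ((mp _).toLinearMap ∘ₗ pt p q)
    (fun p' q' a ha => ?_) a
  simp only [LinearMap.comp_apply, AlgHom.toLinearMap_apply, pt_of_mem ha,
    pt_of_mem (mp_tr_mem L ha)]
  split_ifs <;> simp

theorem mp_radial (l : E N →L[ℂ] ℂ) (y : E N) {a : Λ N} (h : ∀ s, ct (vec s y) a = 0) :
    mp (tr ((ContinuousLinearMap.id ℂ (E N) + l.smulRight y).restrictScalars ℝ)) a = a := by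
  have : tr ((ContinuousLinearMap.id ℂ (E N) + l.smulRight y).restrictScalars ℝ) =
      (LinearMap.id + (vec true y).smulRight (cv true l)) ∘ₗ
        (LinearMap.id + (vec false y).smulRight (cv false l)) := by
    ext w v
    have := vec_add_vec (l v • y) w
    rw [vec_smul, vec_smul] at this
    simp [vec_cv, ← this]
    ring
  rw [this, ← mp_mp, mp_rank_one (vec false y), h, mul_zero, add_zero, mp_rank_one, h, mul_zero,
    add_zero]

/-! ## Homogeneous maps -/

section Hm

variable {B : Type} [NormedAddCommGroup B] [NormedSpace ℂ B]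

/-- Bihomogeneity. -/
def Hm (a b : ℤ) (u : E N → B) : Prop :=
  ∀ (t : ℂ) (x : E N), t ≠ 0 → x ≠ 0 → u (t • x) = (t ^ a * conj t ^ b) • u x

variable {a b a' b' : ℤ} {u v : E N → B}

theorem Hm.congr (h : Hm a b u) (e : ∀ x ≠ 0, v x = u x) : Hm a b v := fun t x ht hx => by
  rw [e _ (smul_ne_zero ht hx), e _ hx, h t x ht hx]

theorem Hm.zero : Hm a b (fun _ : E N => (0 : B)) := fun _ _ _ _ => by simp

theorem Hm.const (c : B) : Hm 0 0 (fun _ : E N => c) := fun _ _ _ _ => by simp

theorem Hm.add (h : Hm a b u) (h' : Hm a b v) : Hm a b (fun x => u x + v x) := fun t x ht hx => by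
  simp only [h t x ht hx, h' t x ht hx, smul_add]

theorem Hm.csmul (c : ℂ) (h : Hm a b u) : Hm a b (fun x => c • u x) := fun t x ht hx => by
  simp only [h t x ht hx, smul_comm c]

theorem Hm.sum {α : Type} (s : Finset α) {w : α → E N → B} (h : ∀ i ∈ s, Hm a b (w i)) :
    Hm a b (fun x => ∑ i ∈ s, w i x) := fun t x ht hx => by
  rw [Finset.smul_sum]; exact Finset.sum_congr rfl fun i hi => h i hi t x ht hx

theorem Hm.smul {g : E N → ℂ} (hg : Hm a b g) (h : Hm a' b' u) :
    Hm (a + a') (b + b') (fun x => g x • u x) := fun t x ht hx => by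
  have hc : conj t ≠ 0 := by simpa
  simp only [h t x ht hx, hg t x ht hx, smul_eq_mul, smul_smul, zpow_add₀ ht, zpow_add₀ hc]
  congr 1; ring

theorem Hm.lin {B' : Type} [NormedAddCommGroup B'] [NormedSpace ℂ B'] (T : B →ₗ[ℂ] B')
    (h : Hm a b u) : Hm a b (fun x => T (u x)) := fun t x ht hx => by
  simp only [h t x ht hx, map_smul]

theorem ne_zero_ev (hx : x ≠ 0) : ∀ᶠ y in 𝓝 x, y ≠ (0 : E N) := isOpen_ne.mem_nhds hx

theorem Hm.fderiv_comp (h : Hm a b u) {t : ℂ} (ht : t ≠ 0) (hx : x ≠ 0)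
    (h1 : DifferentiableAt ℝ u x) (h2 : DifferentiableAt ℝ u (t • x)) :
    (fderiv ℝ u (t • x)).comp (scal t) = (t ^ a * conj t ^ b) • fderiv ℝ u x := by
  have e : (fun y => u (scal t y)) =ᶠ[𝓝 x] fun y => (t ^ a * conj t ^ b) • u y :=
    (ne_zero_ev hx).mono fun y hy => h t y ht hy
  have := e.fderiv_eq (𝕜 := ℝ)
  rwa [fderiv_fun_comp (g := u) (f := scal t) x h2 (scal t).differentiableAt,
    fderiv_fun_const_smul h1,
    ContinuousLinearMap.fderiv] at this

theorem Hm.vv (h : Hm a b u) (hu : ∀ x ≠ 0, DifferentiableAt ℝ u x) (s : Bool) (w : E N) :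
    Hm (a - dl true s) (b - dl false s) (fun x => vv s w (fderiv ℝ u x)) := fun t x ht hx => by
  have h1 := congrArg (Hdg.vv s w) (h.fderiv_comp ht hx (hu x hx) (hu _ (smul_ne_zero ht hx)))
  rw [scal, vv_comp_cl, vv_smul] at h1
  simp only [_root_.smul_apply, ContinuousLinearMap.id_apply, vv_smul_left] at h1
  have hc : conj t ≠ 0 := by simpa
  have h2 := congrArg (fun z => (sg s t)⁻¹ • z) h1
  simp only [smul_smul, inv_mul_cancel₀ (sg_ne_zero s ht), one_smul] at h2
  simp only [h2, zpow_sub₀ ht, zpow_sub₀ hc]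
  congr 1
  cases s <;> simp <;> field_simp

theorem Hm.euler (h : Hm a b u) (hx : x ≠ 0) (hu : DifferentiableAt ℝ u x) (s : Bool) :
    Hdg.vv s x (fderiv ℝ u x) = ((if s then a else b : ℤ) : ℂ) • u x := by
  have key : ∀ τ : ℂ, fderiv ℝ u x (τ • x) = (a * τ + b * conj τ) • u x := by
    intro τ
    have e : (fun r : ℝ => u (x + r • (τ • x))) =ᶠ[𝓝 0]
        fun r : ℝ => ((1 + r * τ) ^ a * (1 + r * conj τ) ^ b) • u x := by
      have : ∀ᶠ r : ℝ in 𝓝 0, 1 + r * τ ≠ 0 := by
        refine ContinuousAt.eventually_ne (by fun_prop) (by simp)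
      filter_upwards [this] with r hr
      have := h _ x hr hx
      rw [add_smul, one_smul, mul_smul] at this
      simpa using this
    have d1 : HasDerivAt (fun r : ℝ => u (x + r • (τ • x))) (fderiv ℝ u x (τ • x)) 0 := by
      have h1 : HasDerivAt (fun r : ℝ => x + r • (τ • x)) (τ • x) 0 := by
        simpa using ((hasDerivAt_id (0 : ℝ)).smul_const (τ • x)).const_add x
      have h2 : HasFDerivAt u (fderiv ℝ u x) (x + (0 : ℝ) • (τ • x)) := by simpa using hu.hasFDerivAt
      exact h2.comp_hasDerivAt (0 : ℝ) h1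
    have d2 : ∀ (n : ℤ) (c : ℂ), HasDerivAt (fun r : ℝ => (1 + r * c) ^ n) (n * c) 0 := by
      intro n c
      have h1 : HasDerivAt (fun z : ℂ => (1 + z * c) ^ n) (n * c) 0 := by
        have h2 : HasDerivAt (fun z : ℂ => 1 + z * c) c 0 := by
          simpa using ((hasDerivAt_id (0 : ℂ)).mul_const c).const_add 1
        have h3 := hasDerivAt_zpow n (1 + 0 * c) (by simp)
        have h4 := h3.comp (0 : ℂ) h2
        simp only [zero_mul, add_zero, one_zpow, mul_one] at h4
        exact h4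
      simpa using h1.comp_ofReal (z := 0)
    have d3 := ((d2 a τ).mul (d2 b (conj τ))).smul_const (u x)
    have := d1.unique (d3.congr_of_eventuallyEq e)
    simpa using this
  have k1 := key 1
  rw [one_smul] at k1
  rw [Hdg.vv, k1, key I]
  cases s
  · simp only [sg_false, Complex.conj_I, map_one, Bool.false_eq_true, if_false]
    match_scalars
    linear_combination (-(b : ℂ) / 2 + a / 2) * Complex.I_mul_I
  · simp only [sg_true, Complex.conj_I, map_one, if_true]
    match_scalars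
    linear_combination ((b : ℂ) / 2 - a / 2) * Complex.I_mul_I

end Hm

theorem Hm.mul {a b a' b' : ℤ} (hu : Hm a b u) (hv : Hm a' b' v) :
    Hm (a + a') (b + b') (fun x => u x * v x) := fun t x ht hx => by
  have hc : conj t ≠ 0 := by simpa
  simp only [hu t x ht hx, hv t x ht hx, smul_mul_assoc, mul_smul_comm, smul_smul, zpow_add₀ ht,
    zpow_add₀ hc]
  congr 1; ring

theorem Hm.db {a b : ℤ} (h : Hm a b u) (hu : ∀ x ≠ 0, DifferentiableAt ℝ u x) (s : Bool) :
    Hm (a - dl true s) (b - dl false s) (db s idE u) := by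
  have := Hm.sum Finset.univ fun j _ => (h.vv hu s (ee j)).lin (LinearMap.mulLeft ℂ (io (dz s j)))
  exact this.congr fun x _ => by rw [db_id, al_apply]; rfl

theorem Hm.ct {a b a' : ℤ} (h : Hm a b u) (s : Bool) {ξ : E N → E N} (hξ : Hm a' 0 ξ) :
    Hm (a + a' * dl true s) (b + a' * dl false s) (fun x => ct (vec s (ξ x)) (u x)) :=
  fun t x ht hx => by
  have hc : conj t ≠ 0 := by simpa
  simp only [h t x ht hx, hξ t x ht hx, vec_smul, map_smul, LinearMap.smul_apply, smul_smul,
    zpow_add₀ ht, zpow_add₀ hc]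
  congr 1
  cases s <;> simp <;> ring

theorem hm_id : Hm 1 0 (fun x : E N => x) := fun _ _ _ _ => by simp

/-- The Cartan formula for the Euler vector field. -/
theorem db_ct_euler (s s' : Bool) (hu : DifferentiableAt ℝ u x) :
    db s idE (fun y => ct (vec s' y) (u y)) x =
      (dl s s' : ℂ) • (num s (u x) + vv s x (fderiv ℝ u x)) - ct (vec s' x) (db s idE u x) := by
  have h1 := fderiv_app (Φ := fun y : E N => ct (vec s' y))
    (fun a => sm_ct s' contDiffAt_id contDiffAt_const) hu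
  have h2 := db_ct_vec (s := s) (L := idE) s' x hu
  rw [db_id, fderiv_T _ hu] at h2
  rw [db_id, h1, map_add, h2, smul_add, add_sub_assoc]
  simp only [ContinuousLinearMap.comp_id]
  congr 1
  have h3 : (fun y : E N => ct (vec s' y) (u x)) =
      ⇑(∑ j, (dz s' j).smulRight (ct (vec s' (ee j)) (u x)) : E N →L[ℝ] Λ N) := by
    funext y; rw [vec_eq_sum]; simp
  rw [h3, ContinuousLinearMap.fderiv, al_of_eq s Finset.univ (dz s')
    (fun j => ct (vec s' (ee j)) (u x)) (by simp), num_apply]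
  simp only [dz, pr_cv, dl]
  split_ifs with h
  · subst h; simp
  · simp

/-! ## Differentials of polynomials -/

/-- The covector `dF` or its conjugate. -/
noncomputable def df (s : Bool) (F : MvPolynomial (Fin (N + 1)) ℂ) (y : E N) : W N :=
  cv s (dEval F y)

theorem sm_eval (F : MvPolynomial (Fin (N + 1)) ℂ) (y : E N) :
    ContDiffAt ℝ ∞ (fun y : E N => eval y F) y := an_sm (analyticAt_eval F y)

theorem fderiv_sg_eval (s : Bool) (F : MvPolynomial (Fin (N + 1)) ℂ) (y : E N) :
    fderiv ℝ (fun y : E N => sgL s (eval y F)) y = df s F y :=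
  ((sgL s).hasFDerivAt.comp y ((hasFDerivAt_eval F y).restrictScalars ℝ)).fderiv

theorem sm_sg_eval (s : Bool) (F : MvPolynomial (Fin (N + 1)) ℂ) (y : E N) :
    ContDiffAt ℝ ∞ (fun y : E N => sgL s (eval y F)) y :=
  (sgL s).contDiff.contDiffAt.comp y (sm_eval F y)

theorem df_eq (s : Bool) (F : MvPolynomial (Fin (N + 1)) ℂ) :
    df s F = fderiv ℝ (fun y : E N => sgL s (eval y F)) := funext fun y => (fderiv_sg_eval s F y).symm

theorem sm_df (s : Bool) (F : MvPolynomial (Fin (N + 1)) ℂ) (y : E N) :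
    ContDiffAt ℝ ∞ (fun y => io (df s F y)) y := by
  rw [df_eq]; exact ioL.contDiff.contDiffAt.comp y (sm_fderiv (sm_sg_eval s F y))

theorem db_df (s s' : Bool) (F : MvPolynomial (Fin (N + 1)) ℂ) (y : E N) :
    db s' idE (fun y => io (df s F y)) y = 0 := by
  rw [df_eq]
  refine db_io_fderiv s s' (sm_sg_eval s F y) (Eventually.of_forall fun z => ?_)
  rw [fderiv_sg_eval, df, pr_cv]; cases s <;> simp

theorem db_df_mul (s s' : Bool) (F : MvPolynomial (Fin (N + 1)) ℂ) (hu : DifferentiableAt ℝ u x) :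
    db s' idE (fun y => io (df s F y) * u y) x = -(io (df s F x) * db s' idE u x) := by
  rw [db_mul (sm_diff (sm_df s F x)) hu, db_df, par_io]; simp

theorem db_eval_smul (F : MvPolynomial (Fin (N + 1)) ℂ) (hu : DifferentiableAt ℝ u x) :
    db false idE (fun y => eval y F • u y) x = eval x F • db false idE u x := by
  rw [db_smul (sm_diff (sm_eval F x)) hu]
  have := fderiv_sg_eval true F x
  simp only [sgL_apply, sg_true] at this
  rw [this, ContinuousLinearMap.comp_id, df, pr_cv]; simp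

theorem db_an_smul {g : E N → ℂ} (hg : AnalyticAt ℂ g x) (hu : DifferentiableAt ℝ u x) :
    db false idE (fun y => g y • u y) x = g x • db false idE u x := by
  rw [db_smul (sm_diff (an_sm hg)) hu, an_fderiv hg, ContinuousLinearMap.comp_id]
  have : (fderiv ℂ g x).restrictScalars ℝ = cv true (fderiv ℂ g x) := by ext; simp
  rw [this, pr_cv]; simp

theorem hm_eval {F : MvPolynomial (Fin (N + 1)) ℂ} {e : ℕ} (hF : F.IsHomogeneous e) :
    Hm e 0 (fun y : E N => eval y F) := fun t x _ _ => by simp [eval_smul_of_hom hF]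

theorem dEval_smul {F : MvPolynomial (Fin (N + 1)) ℂ} {e : ℕ} (hF : F.IsHomogeneous e) {t : ℂ}
    (ht : t ≠ 0) (y : E N) : dEval F (t • y) = t ^ ((e : ℤ) - 1) • dEval F y := by
  have h1 : HasFDerivAt (fun y : E N => eval (t • y) F)
      ((dEval F (t • y)).comp (t • ContinuousLinearMap.id ℂ (E N))) y :=
    (hasFDerivAt_eval F (t • y)).comp y ((hasFDerivAt_id y).const_smul t)
  have h2 : HasFDerivAt (fun y : E N => eval (t • y) F) (t ^ e • dEval F y) y := by
    simp only [eval_smul_of_hom hF]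
    exact (hasFDerivAt_eval F y).const_mul _
  have := h1.unique h2
  ext1 v
  have h3 := DFunLike.congr_fun this v
  simp only [ContinuousLinearMap.comp_apply, _root_.smul_apply, ContinuousLinearMap.id_apply,
    map_smul, smul_eq_mul] at h3 ⊢
  rw [zpow_sub₀ ht, zpow_natCast, zpow_one]
  field_simp
  linear_combination h3

theorem df_smul (s : Bool) {F : MvPolynomial (Fin (N + 1)) ℂ} {e : ℕ} (hF : F.IsHomogeneous e)
    {t : ℂ} (ht : t ≠ 0) (y : E N) : df s F (t • y) = sg s (t ^ ((e : ℤ) - 1)) • df s F y := by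
  ext v; simp [df, dEval_smul hF ht]

theorem hm_df {F : MvPolynomial (Fin (N + 1)) ℂ} {e : ℕ} (hF : F.IsHomogeneous e) :
    Hm (e - 1) 0 (fun y : E N => io (df true F y)) := fun t x ht _ => by
  simp [df_smul true hF ht]

theorem dEval_self {F : MvPolynomial (Fin (N + 1)) ℂ} {e : ℕ} (hF : F.IsHomogeneous e) (y : E N) :
    dEval F y y = e * eval y F := by
  have := congrArg (eval y) hF.sum_X_mul_pderiv
  rw [dEval_apply]
  simpa [mul_comm] using this

theorem vec_df (s s' : Bool) (v : E N) (F : MvPolynomial (Fin (N + 1)) ℂ) (y : E N) :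
    vec s v (df s' F y) = if s = s' then sg s (dEval F y v) else 0 := vec_cv _ _ _ _

theorem df_X (s : Bool) (j : Fin (N + 1)) (y : E N) : df s (X j) y = dz s j := by
  classical
  ext v; simp [df, dEval_apply, pderiv_X, Pi.single_apply]

end Vale.Agent.P269.Hdg
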