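import Vale.Agent.P269.Hdg.SmDef

/-!
# Smooth Alexander-Spanier cochains on projective space and their differential forms
-/

namespace Vale.Agent.P269.Hdg

open scoped ComplexConjugate ContDiff
open Topology Filter P291Z

variable {N : ℕ}

/-! ## Smooth cochains -/

/-- Reindexing of tuples of points. -/
noncomputable def rx {n m : ℕ} (φ : Fin n → Fin m) : (Fin m → E N) →L[ℝ] (Fin n → E N) :=
  ContinuousLinearMap.pi fun j => ContinuousLinearMap.proj (φ j)

@[simp] theorem rx_apply {n m : ℕ} (φ : Fin n → Fin m) (y : Fin m → E N) (j : Fin n) :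
    rx φ y j = y (φ j) := rfl

theorem sl_apply {m : ℕ} (i : Fin m) (v : E N) : (sl i : E N →L[ℝ] _) v = Pi.single i v := rfl

theorem rx_sl {n m : ℕ} {φ : Fin n → Fin m} (hφ : Function.Injective φ) (j : Fin n) :
    (rx φ).comp (sl (φ j)) = (sl j : E N →L[ℝ] _) := by
  ext1 v; funext i
  simp [sl_apply, Pi.single_apply, hφ.eq_iff]

theorem rx_sl_zero {n m : ℕ} {φ : Fin n → Fin m} {i : Fin m} (h : ∀ j, φ j ≠ i) :
    (rx φ).comp (sl i : E N →L[ℝ] _) = 0 := by
  ext1 v; funext j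
  simp [sl_apply, h j]

theorem forall₂_eraseIdx {α β : Type} {R : α → β → Prop} {l : List α} {l' : List β}
    (h : List.Forall₂ R l l') (i : ℕ) : List.Forall₂ R (l.eraseIdx i) (l'.eraseIdx i) := by
  rw [List.eraseIdx_eq_take_drop_succ, List.eraseIdx_eq_take_drop_succ]
  exact List.rel_append (List.forall₂_take _ h) (List.forall₂_drop _ h)

variable {a b : Coch (E N)} {x : E N} {k l : ℕ}

theorem IsSm.zero : IsSm (0 : Coch (E N)) :=
  ⟨fun _ _ _ _ => contDiffAt_const (c := 0), fun _ _ _ => rfl⟩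

theorem IsSm.add (ha : IsSm a) (hb : IsSm b) : IsSm (a + b) :=
  ⟨fun m l y hy => (ha.sm m l y hy).add (hb.sm m l y hy), fun l l' h => by
    rw [Coch.add_val, Pi.add_apply, Pi.add_apply, ha.inv l l' h, hb.inv l l' h]⟩

theorem IsSm.smul (c : ℂ) (ha : IsSm a) : IsSm (c • a) :=
  ⟨fun m l y hy => (ha.sm m l y hy).const_smul c, fun l l' h => by
    rw [Coch.smul_val, Pi.smul_apply, Pi.smul_apply, ha.inv l l' h]⟩

theorem IsSm.neg (ha : IsSm a) : IsSm (-a) := by
  simpa using ha.smul (-1)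

theorem IsSm.sub (ha : IsSm a) (hb : IsSm b) : IsSm (a - b) := by
  simpa [sub_eq_add_neg] using ha.add hb.neg

theorem IsSm.mul (ha : IsSm a) (hb : IsSm b) : IsSm (a * b) := by
  refine ⟨fun m l y hy => ?_, fun l l' h => ?_⟩
  · simp only [Coch.mul_val, cup, List.length_map, ← List.map_take, ← List.map_drop]
    exact ContDiffAt.sum fun p _ => (ha.sm m _ y hy).mul (hb.sm m _ y hy)
  · simp only [Coch.mul_val, cup, h.length_eq]
    exact Finset.sum_congr rfl fun p _ => by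
      rw [ha.inv _ _ (List.forall₂_take _ h), hb.inv _ _ (List.forall₂_drop _ h)]

theorem IsSm.delta (ha : IsSm a) : IsSm (δ a) := by
  refine ⟨fun m l y hy => ?_, fun l l' h => ?_⟩
  · simp only [δ_val, cob, List.length_map, List.eraseIdx_map]
    exact ContDiffAt.sum fun p _ => contDiffAt_const.mul (ha.sm m _ y hy)
  · simp only [δ_val, cob, h.length_eq]
    exact Finset.sum_congr rfl fun p _ => by rw [ha.inv _ _ (forall₂_eraseIdx h _)]

theorem IsSm.one : IsSm (1 : Coch (E N)) :=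
  ⟨fun _ _ _ _ => by
    simp only [Coch.one_val, unit, List.length_map]
    exact contDiffAt_const, fun _ _ h => by simp only [Coch.one_val, unit, h.length_eq]⟩

theorem IsSm.sum {α : Type} (t : Finset α) {c : α → Coch (E N)} (h : ∀ i ∈ t, IsSm (c i)) :
    IsSm (∑ i ∈ t, c i) :=
  Finset.sum_induction _ IsSm (fun _ _ => IsSm.add) IsSm.zero h

theorem IsSm.ofFn (ha : IsSm a) {m : ℕ} {y : Fin m → E N} (hy : ∀ i, y i ≠ 0) :
    ContDiffAt ℝ ∞ (fun y : Fin m → E N => a.1 (List.ofFn y)) y := by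
  simp only [List.ofFn_eq_map]
  exact ha.sm m _ y hy

theorem isSm_of_ofFn (h : ∀ (m : ℕ) (y : Fin m → E N), (∀ i, y i ≠ 0) →
      ContDiffAt ℝ ∞ (fun y : Fin m → E N => a.1 (List.ofFn y)) y)
    (inv : ∀ l l' : List (E N),
      List.Forall₂ (fun x y => x ≠ 0 ∧ ∃ t : ℂ, t ≠ 0 ∧ y = t • x) l l' → a.1 l = a.1 l') :
    IsSm a := by
  refine ⟨fun m l y hy => ?_, inv⟩
  have e : (fun y : Fin m → E N => a.1 (l.map y)) =
      (fun z : Fin l.length → E N => a.1 (List.ofFn z)) ∘ rx l.get := by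
    funext y
    simp only [Function.comp_apply]
    conv_lhs => rw [← List.ofFn_get l, List.map_ofFn]
    rfl
  rw [e]
  exact (h _ _ fun i => hy _).comp y (rx l.get).contDiff.contDiffAt

theorem ne_zero_ev_pi {m : ℕ} {y : Fin m → E N} (hy : ∀ i, y i ≠ 0) :
    ∀ᶠ z in 𝓝 y, ∀ i, z i ≠ 0 :=
  eventually_all.2 fun i => (continuous_apply i).continuousAt.eventually_ne (hy i)

theorem IsSm.ofFn_ev (ha : IsSm a) {m : ℕ} {y : Fin m → E N} (hy : ∀ i, y i ≠ 0) :
    ∀ᶠ z in 𝓝 y, ContDiffAt ℝ ∞ (fun y : Fin m → E N => a.1 (List.ofFn y)) z :=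
  (ne_zero_ev_pi hy).mono fun _ hz => ha.ofFn hz

theorem IsSm.ofFn_smul (ha : IsSm a) {m : ℕ} {y : Fin m → E N} (hy : ∀ i, y i ≠ 0)
    {t : Fin m → ℂ} (ht : ∀ i, t i ≠ 0) :
    a.1 (List.ofFn fun i => t i • y i) = a.1 (List.ofFn y) := by
  refine (ha.inv _ _ ?_).symm
  rw [List.ofFn_eq_map, List.ofFn_eq_map, List.forall₂_map_left_iff, List.forall₂_map_right_iff,
    List.forall₂_same]
  exact fun i _ => ⟨hy i, t i, ht i, rfl⟩

/-! ## Iterated exterior derivatives -/

section DL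

variable {Y : Type} [NormedAddCommGroup Y] [NormedSpace ℝ Y] {u v : Y → Λ N} {y : Y}
  {L : E N →L[ℝ] Y} {Ls : List (E N →L[ℝ] Y)}

@[simp] theorem DL_nil : DL ([] : List (E N →L[ℝ] Y)) u = u := rfl

theorem DL_cons : DL (L :: Ls) u = dd L (DL Ls u) := rfl

theorem DL_append (Ls' : List (E N →L[ℝ] Y)) : DL (Ls ++ Ls') u = DL Ls (DL Ls' u) :=
  List.foldr_append

theorem sm_DL (h : ContDiffAt ℝ ∞ u y) : ContDiffAt ℝ ∞ (DL Ls u) y := by
  induction Ls with
  | nil => exact h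
  | cons L Ls ih => exact sm_dd ih

theorem DL_congr' (h : u =ᶠ[𝓝 y] v) : DL Ls u =ᶠ[𝓝 y] DL Ls v := by
  induction Ls with
  | nil => exact h
  | cons L Ls ih => exact dd_congr' ih

theorem DL_congr (h : u =ᶠ[𝓝 y] v) : DL Ls u y = DL Ls v y := (DL_congr' h).self_of_nhds

theorem DL_zero : DL Ls (fun _ : Y => (0 : Λ N)) = fun _ => 0 := by
  induction Ls with
  | nil => rfl
  | cons L Ls ih => rw [DL_cons, ih]; funext y; exact dd_const 0

theorem DL_add' (hu : ContDiffAt ℝ ∞ u y) (hv : ContDiffAt ℝ ∞ v y) :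
    DL Ls (fun z => u z + v z) =ᶠ[𝓝 y] fun z => DL Ls u z + DL Ls v z := by
  induction Ls with
  | nil => exact EventuallyEq.rfl
  | cons L Ls ih =>
    filter_upwards [dd_congr' (L := L) ih, sm_ev (sm_DL (Ls := Ls) hu),
      sm_ev (sm_DL (Ls := Ls) hv)] with z h1 h2 h3
    rw [DL_cons, h1, dd_add h2 h3]; rfl

theorem DL_add (hu : ContDiffAt ℝ ∞ u y) (hv : ContDiffAt ℝ ∞ v y) :
    DL Ls (fun z => u z + v z) y = DL Ls u y + DL Ls v y := (DL_add' hu hv).self_of_nhds

theorem DL_csmul' (c : ℂ) (hu : ContDiffAt ℝ ∞ u y) :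
    DL Ls (fun z => c • u z) =ᶠ[𝓝 y] fun z => c • DL Ls u z := by
  induction Ls with
  | nil => exact EventuallyEq.rfl
  | cons L Ls ih =>
    filter_upwards [dd_congr' (L := L) ih, sm_ev (sm_DL (Ls := Ls) hu)] with z h1 h2
    rw [DL_cons, h1, dd_csmul c h2]; rfl

theorem DL_csmul (c : ℂ) (hu : ContDiffAt ℝ ∞ u y) :
    DL Ls (fun z => c • u z) y = c • DL Ls u y := (DL_csmul' c hu).self_of_nhds

theorem DL_sum {α : Type} (t : Finset α) {w : α → Y → Λ N} (h : ∀ i ∈ t, ContDiffAt ℝ ∞ (w i) y) :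
    DL Ls (fun z => ∑ i ∈ t, w i z) y = ∑ i ∈ t, DL Ls (w i) y := by
  classical
  induction t using Finset.induction_on with
  | empty => simp [DL_zero]
  | insert i t hi ih =>
    simp only [Finset.sum_insert hi]
    rw [DL_add (h i (by simp)) (ContDiffAt.sum fun j hj => h j (by simp [hj])),
      ih fun j hj => h j (by simp [hj])]

theorem DL_comp' {Z : Type} [NormedAddCommGroup Z] [NormedSpace ℝ Z] (M : Y →L[ℝ] Z) {u : Z → Λ N}
    (hu : ContDiffAt ℝ ∞ u (M y)) :
    DL Ls (fun z => u (M z)) =ᶠ[𝓝 y] fun z => DL (Ls.map fun L => M.comp L) u (M z) := by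
  induction Ls with
  | nil => exact EventuallyEq.rfl
  | cons L Ls ih =>
    filter_upwards [dd_congr' (L := L) ih, M.continuous.continuousAt.eventually
      (sm_ev (sm_DL (Ls := Ls.map fun L => M.comp L) hu))] with z h1 h2
    rw [DL_cons, h1, dd_comp h2 M.differentiableAt, M.fderiv]; rfl

theorem DL_comp {Z : Type} [NormedAddCommGroup Z] [NormedSpace ℝ Z] (M : Y →L[ℝ] Z) {u : Z → Λ N}
    (hu : ContDiffAt ℝ ∞ u (M y)) :
    DL Ls (fun z => u (M z)) y = DL (Ls.map fun L => M.comp L) u (M y) :=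
  (DL_comp' M hu).self_of_nhds

theorem DL_of_zero_mem (h : (0 : E N →L[ℝ] Y) ∈ Ls) : DL Ls u = fun _ => 0 := by
  induction Ls with
  | nil => simp at h
  | cons L Ls ih =>
    funext y
    rcases List.mem_cons.1 h with h | h
    · rw [DL_cons, ← h, dd_zero_dir]
    · rw [DL_cons, ih h, dd_const]

theorem dd_DL_of_mem (h : L ∈ Ls) (hu : ∀ᶠ z in 𝓝 y, ContDiffAt ℝ ∞ u z) :
    dd L (DL Ls u) y = 0 := by
  induction Ls generalizing y with
  | nil => simp at h
  | cons L' Ls ih =>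
    rcases List.mem_cons.1 h with rfl | h
    · exact dd_dd_self (sm_DL hu.self_of_nhds)
    · rw [DL_cons, dd_dd _ _ (sm_DL hu.self_of_nhds), dd_congr (v := fun _ => 0)
        (hu.eventually_nhds.mono fun z hz => ih h hz), dd_const, neg_zero]

theorem dd_mem_Dg {j : ℤ} (hu : DifferentiableAt ℝ u y) (h : ∀ᶠ z in 𝓝 y, u z ∈ Dg j) :
    dd L u y ∈ Dg (1 + j) := by
  have : ∀ s, db s L u y ∈ Dg (1 + j) := fun s => by
    rw [db, al_apply]
    exact Submodule.sum_mem _ fun i _ => Dg_mul (io_mem_Dg _) (Submodule.smul_mem _ _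
      (Submodule.sub_mem _ (fderiv_mem _ hu h _) (Submodule.smul_mem _ _ (fderiv_mem _ hu h _))))
  exact add_mem (this _) (this _)

theorem DL_mem_Dg {j : ℤ} (hu : ContDiffAt ℝ ∞ u y) (h : ∀ᶠ z in 𝓝 y, u z ∈ Dg j) :
    ∀ᶠ z in 𝓝 y, DL Ls u z ∈ Dg (Ls.length + j) := by
  induction Ls with
  | nil => simpa using h
  | cons L Ls ih =>
    filter_upwards [ih.eventually_nhds, sm_ev (sm_DL (Ls := Ls) hu)] with z h1 h2
    have := dd_mem_Dg (L := L) h2 h1
    rwa [← add_assoc, add_comm 1, ← Nat.cast_succ] at this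

/-- Pull-back along a constant linear map. -/
theorem DL_mp' (A : E N →L[ℝ] E N) (hu : ContDiffAt ℝ ∞ u y) :
    DL (Ls.map fun L => L.comp A) (fun z => mp (tr A) (u z)) =ᶠ[𝓝 y]
      fun z => mp (tr A) (DL Ls u z) := by
  induction Ls with
  | nil => exact EventuallyEq.rfl
  | cons L Ls ih =>
    filter_upwards [dd_congr' (L := L.comp A) ih, sm_ev (sm_DL (Ls := Ls) hu)] with z h1 h2
    rw [List.map_cons, DL_cons, h1, DL_cons]
    have := fderiv_T (mp (tr A)).toLinearMap h2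
    simp only [AlgHom.toLinearMap_apply] at this
    simp only [dd, db]
    rw [this, ← al_tr_real]
    rfl

theorem DL_mp (A : E N →L[ℝ] E N) {f : Y → ℂ} (hf : ContDiffAt ℝ ∞ f y) :
    DL (Ls.map fun L => L.comp A) (fun z => f z • (1 : Λ N)) y =
      mp (tr A) (DL Ls (fun z => f z • (1 : Λ N)) y) := by
  have := (DL_mp' (Ls := Ls) A (sm_smul hf (contDiffAt_const (c := (1 : Λ N))))).self_of_nhds
  simpa using this

/-- A scalar factor which does not see the directions. -/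
theorem DL_smul_left {f : Y → ℂ} (hf : ∀ᶠ z in 𝓝 y, ContDiffAt ℝ ∞ f z ∧
      ∀ L ∈ Ls, (fderiv ℝ f z).comp L = 0) (hu : ContDiffAt ℝ ∞ u y) :
    DL Ls (fun z => f z • u z) =ᶠ[𝓝 y] fun z => f z • DL Ls u z := by
  induction Ls with
  | nil => exact EventuallyEq.rfl
  | cons L Ls ih =>
    filter_upwards [dd_congr' (L := L) (ih (hf.mono fun z hz =>
      ⟨hz.1, fun L' hL => hz.2 L' (by simp [hL])⟩)), sm_ev (sm_DL (Ls := Ls) hu), hf]
      with z h1 h2 h3
    rw [DL_cons, h1, dd_smul (sm_diff h3.1) h2, h3.2 L (by simp), map_zero, zero_mul, zero_add]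
    rfl

/-- The Leibniz rule modulo the right multiples of `w`. -/
theorem DL_mul_right {w : Y → Λ N} (h : ∀ᶠ z in 𝓝 y, ContDiffAt ℝ ∞ u z ∧ ContDiffAt ℝ ∞ v z ∧
      ContDiffAt ℝ ∞ w z ∧ ∀ L ∈ Ls, dd L w z = 0)
    (he : ∀ L ∈ Ls, ∃ e : ℂ, ∀ᶠ z in 𝓝 y, dd L v z = e • w z) :
    ∃ c : Y → Λ N, ∀ᶠ z in 𝓝 y, ContDiffAt ℝ ∞ c z ∧
      DL Ls (fun z => u z * v z) z = DL Ls u z * v z + c z * w z := by
  induction Ls with
  | nil => exact ⟨fun _ => 0, Eventually.of_forall fun z => ⟨contDiffAt_const, by simp⟩⟩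
  | cons L Ls ih =>
    obtain ⟨c, hc⟩ := ih (h.mono fun z hz =>
      ⟨hz.1, hz.2.1, hz.2.2.1, fun L' hL => hz.2.2.2 L' (by simp [hL])⟩)
      fun L' hL => he L' (by simp [hL])
    obtain ⟨e, he⟩ := he L (by simp)
    refine ⟨fun z => e • par (DL Ls u z) + dd L c z, ?_⟩
    filter_upwards [hc.eventually_nhds, h, he] with z h1 h2 h3
    have h4 := h1.self_of_nhds.1
    have h5 := sm_DL (Ls := Ls) h2.1
    refine ⟨((sm_T par.toLinearMap h5).const_smul e).add (sm_dd h4), ?_⟩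
    rw [DL_cons, dd_congr (h1.mono fun z hz => hz.2), dd_add (sm_diff (h5.mul h2.2.1))
      (sm_diff (h4.mul h2.2.2.1)), dd_mul (sm_diff h5) (sm_diff h2.2.1),
      dd_mul (sm_diff h4) (sm_diff h2.2.2.1), h3, h2.2.2.2 L (by simp), DL_cons]
    simp only [mul_zero, add_zero, add_mul, mul_smul_comm, smul_mul_assoc, add_assoc]

end DL

/-! ## The form of a function of several points -/

/-- The diagonal map. -/
noncomputable def dg (m : ℕ) : E N →L[ℝ] (Fin m → E N) :=
  ContinuousLinearMap.pi fun _ => ContinuousLinearMap.id ℝ (E N)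

theorem dg_apply (m : ℕ) (x : E N) : dg m x = fun _ => x := rfl

theorem dg_eq_sum (m : ℕ) : (dg m : E N →L[ℝ] _) = ∑ i, sl i := by
  ext1 v; funext j
  simp [dg_apply, sl_apply, Finset.sum_apply, Pi.single_apply]

theorem dd_sum_dir {Y : Type} [NormedAddCommGroup Y] [NormedSpace ℝ Y] {α : Type} (t : Finset α)
    (L : α → E N →L[ℝ] Y) (u : Y → Λ N) (y : Y) :
    dd (∑ i ∈ t, L i) u y = ∑ i ∈ t, dd (L i) u y := by
  simp only [dd, db, ContinuousLinearMap.comp_finsetSum, map_sum, Finset.sum_add_distrib]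

/-- The directions used in `Df`. -/
noncomputable def sls (N k : ℕ) : List (E N →L[ℝ] (Fin (k + 1) → E N)) :=
  List.ofFn fun i : Fin k => sl i.succ

/-- The form of a function off the diagonal. -/
noncomputable def Do (f : (Fin (k + 1) → E N) → ℂ) : (Fin (k + 1) → E N) → Λ N :=
  DL (sls N k) fun y => f y • (1 : Λ N)

variable {f g : (Fin (k + 1) → E N) → ℂ}

theorem Df_eq_Do (x : E N) : Df f x = Do f fun _ => x := rfl

theorem sm_one {Y : Type} [NormedAddCommGroup Y] [NormedSpace ℝ Y] {f : Y → ℂ} {y : Y}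
    (h : ContDiffAt ℝ ∞ f y) : ContDiffAt ℝ ∞ (fun y => f y • (1 : Λ N)) y :=
  sm_smul h contDiffAt_const

theorem sm_Do {y : Fin (k + 1) → E N} (h : ContDiffAt ℝ ∞ f y) : ContDiffAt ℝ ∞ (Do f) y :=
  sm_DL (sm_one h)

theorem Df_congr (h : f =ᶠ[𝓝 fun _ => x] g) : Df f x = Df g x :=
  DL_congr (h.mono fun y hy => by simp only [hy])

theorem Df_zero : Df (fun _ : Fin (k + 1) → E N => 0) x = 0 := by
  simp [Df, DL_zero]

theorem Df_add (hf : ContDiffAt ℝ ∞ f fun _ => x) (hg : ContDiffAt ℝ ∞ g fun _ => x) :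
    Df (fun y => f y + g y) x = Df f x + Df g x := by
  simp only [Df, add_smul]
  exact DL_add (sm_one hf) (sm_one hg)

theorem Df_smul (c : ℂ) (hf : ContDiffAt ℝ ∞ f fun _ => x) :
    Df (fun y => c * f y) x = c • Df f x := by
  simp only [Df, mul_smul]
  exact DL_csmul c (sm_one hf)

theorem Df_sub (hf : ContDiffAt ℝ ∞ f fun _ => x) (hg : ContDiffAt ℝ ∞ g fun _ => x) :
    Df (fun y => f y - g y) x = Df f x - Df g x := by
  have := Df_add hf (contDiffAt_const (c := (-1 : ℂ)).mul hg)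
  rw [Df_smul _ hg] at this
  simpa [sub_eq_add_neg] using this

theorem sm_Df (hf : ContDiffAt ℝ ∞ f fun _ => x) : ContDiffAt ℝ ∞ (Df f) x :=
  ContDiffAt.comp (g := Do f) (f := dg (k + 1)) x (sm_Do hf) (dg (k + 1)).contDiff.contDiffAt

theorem Df_mem_Dg (hf : ContDiffAt ℝ ∞ f fun _ => x) : Df f x ∈ Dg k := by
  have := (DL_mem_Dg (Ls := sls N k) (j := 0) (sm_one hf) (Eventually.of_forall fun z =>
    Submodule.smul_mem _ _ (by simpa using Ty_le_Dg (one_mem_Ty (N := N))))).self_of_nhds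
  simpa [sls, Df] using this

theorem hasFDerivAt_update_sl {m : ℕ} (y : Fin m → E N) (i : Fin m) (z : E N) :
    HasFDerivAt (Function.update y i) (sl i : E N →L[ℝ] _) z := by
  have h : (sl i : E N →L[ℝ] _) = ContinuousLinearMap.pi
      (Pi.single i (ContinuousLinearMap.id ℝ (E N)) : ∀ _ : Fin m, E N →L[ℝ] E N) := by
    ext1 v; funext j
    by_cases h : j = i
    · subst h; simp [sl_apply]
    · simp [sl_apply, h]
  rw [h]
  exact hasFDerivAt_update y z

theorem dd_Df (hf : ∀ᶠ y in 𝓝 fun _ => x, ContDiffAt ℝ ∞ f y) :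
    dd idE (Df f) x = dd (sl 0) (Do f) fun _ => x := by
  have h1 := dd_comp (L := idE) (f := dg (k + 1)) (x := x) (u := Do f)
    (sm_diff (sm_Do hf.self_of_nhds)) (dg (k + 1)).differentiableAt
  rw [ContinuousLinearMap.fderiv, ContinuousLinearMap.comp_id] at h1
  refine h1.trans ?_
  nth_rw 1 [dg_eq_sum]
  rw [dd_sum_dir, Fin.sum_univ_succ, Finset.sum_eq_zero fun i _ => ?_, add_zero, dg_apply]
  exact dd_DL_of_mem (List.mem_ofFn.2 ⟨i, rfl⟩) (hf.mono fun y hy => sm_one hy)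

/-- A map applied in every slot. -/
theorem DL_slots {m : ℕ} {r : E N → E N} {u : (Fin m → E N) → Λ N} {I : List (Fin m)}
    (hI : I.Nodup) {y : Fin m → E N} (hr : ∀ i, ∀ᶠ z in 𝓝 (y i), ContDiffAt ℝ ∞ r z)
    (hu : ∀ᶠ z in 𝓝 fun i => r (y i), ContDiffAt ℝ ∞ u z) :
    DL (I.map sl) (fun z => u fun i => r (z i)) y =
      DL (I.map fun i => (sl i).comp (fderiv ℝ r (y i))) u fun i => r (y i) := by
  induction I generalizing y with
  | nil => rfl
  | cons i I ih =>
    rw [List.nodup_cons] at hI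
    have hΦ : ContDiffAt ℝ ∞ (fun z : Fin m → E N => fun i => r (z i)) y :=
      contDiffAt_pi.2 fun j => (hr j).self_of_nhds.comp y (contDiffAt_apply ℝ (E N) j y)
    have hu' := hu.self_of_nhds
    -- the slice through `y` in the direction `i`
    let S : E N → Fin m → E N := fun z => Function.update y i z
    have hS : ∀ z, HasFDerivAt S (sl i) z := hasFDerivAt_update_sl y i
    have hSy : S (y i) = y := Function.update_eq_self i y
    have hSt : Tendsto S (𝓝 (y i)) (𝓝 y) := by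
      simpa [hSy] using (hS (y i)).continuousAt.tendsto
    set G := DL (I.map fun j => (sl j).comp (fderiv ℝ r (y j))) u with hG
    have h1 : (fun z => DL (I.map sl) (fun z => u fun i => r (z i)) (S z)) =ᶠ[𝓝 (y i)]
        fun z => G (Function.update (fun j => r (y j)) i (r z)) := by
      filter_upwards [hSt.eventually (eventually_all.2 fun j =>
        (continuous_apply j).continuousAt.eventually (hr j).eventually_nhds),
        hSt.eventually (hΦ.continuousAt.eventually hu.eventually_nhds)] with z h1 h2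
      rw [ih hI.2 h1 h2, hG]
      congr 1
      · refine List.map_congr_left fun j hj => ?_
        rw [show S z j = y j from Function.update_of_ne (by rintro rfl; exact hI.1 hj) _ _]
      · funext j
        exact Function.apply_update (fun _ => r) y i z j
    have h2 := dd_comp (L := idE) (f := S) (x := y i)
      (u := DL (I.map sl) fun z => u fun i => r (z i))
      (by rw [hSy]; exact sm_diff (sm_DL (hu'.comp y hΦ))) (hS _).differentiableAt
    rw [(hS _).fderiv, hSy, ContinuousLinearMap.comp_id] at h2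
    have h3 : HasFDerivAt (fun z => Function.update (fun j => r (y j)) i (r z))
        ((sl i).comp (fderiv ℝ r (y i))) (y i) :=
      (hasFDerivAt_update_sl _ _ _).comp (y i) (sm_diff (hr i).self_of_nhds).hasFDerivAt
    have h4 := dd_comp (L := idE) (x := y i) (u := G)
      (f := fun z => Function.update (fun j => r (y j)) i (r z))
      (by rw [Function.update_eq_self i fun j => r (y j)]; exact sm_diff (sm_DL hu'))
      h3.differentiableAt
    rw [h3.fderiv, ContinuousLinearMap.comp_id, Function.update_eq_self i fun j => r (y j)] at h4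
    rw [List.map_cons, List.map_cons, DL_cons, DL_cons, ← h2, dd_congr h1, h4]

/-- Naturality of the form of a function. -/
theorem Df_pb {r : E N → E N} (hr : ∀ᶠ z in 𝓝 x, ContDiffAt ℝ ∞ r z)
    (hf : ∀ᶠ z in 𝓝 fun _ => r x, ContDiffAt ℝ ∞ f z) :
    Df (fun z => f fun i => r (z i)) x = pb r (Df f) x := by
  have h1 := DL_slots (u := fun y => f y • (1 : Λ N)) (I := List.ofFn fun i : Fin k => i.succ)
    (List.nodup_ofFn.2 (Fin.succ_injective k)) (y := fun _ => x) (fun _ => hr)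
    (hf.mono fun z hz => sm_one hz)
  have h2 := DL_mp (Ls := sls N k) (fderiv ℝ r x) hf.self_of_nhds
  rw [sls, List.map_ofFn] at h2
  rw [List.map_ofFn, List.map_ofFn] at h1
  exact h1.trans h2

section ann

variable {ι : Type} [Fintype ι] [DecidableEq ι] {F : ι → MP N} {d : ι → ℕ}

theorem Df_ann (h : IsCI F d) (hx : x ∈ cone F)
    (hf : ∀ᶠ y in 𝓝 fun _ => x, ContDiffAt ℝ ∞ f y)
    (h0 : ∀ᶠ y in 𝓝 fun _ : Fin (k + 1) => x, (∀ i, y i ∈ cone F) → f y = 0) :
    Df f x ∈ ann (pl (fullL F) x) := by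
  obtain ⟨r, hr, hev⟩ := exists_retr' h hx
  have hrx : r x = x :=
    tendsto_nhds_unique hev.self_of_nhds.1.continuousAt.tendsto hr
  have ht : Tendsto (fun z : Fin (k + 1) → E N => fun i => r (z i)) (𝓝 fun _ => x)
      (𝓝 fun _ => x) := tendsto_pi_nhds.2 fun i => hr.comp ((continuous_apply i).tendsto _)
  have h1 := Df_pb (f := f) (hev.mono fun z hz => an_sm hz.1) (by rwa [hrx])
  rw [Df_congr (g := fun _ => 0) ?_, Df_zero] at h1
  · have := (hev.self_of_nhds.2.2.2 hx (Df f)).1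
    rwa [← h1, sub_zero] at this
  · filter_upwards [ht.eventually h0, eventually_all.2 fun i : Fin (k + 1) =>
      ((continuous_apply i).tendsto fun _ => x).eventually hev] with z h1 h2
    exact h1 fun i => (h2 i).2.1

end ann

/-! ## The form of a smooth cochain -/

theorem Dm_add (ha : IsSm a) (hb : IsSm b) (hx : x ≠ 0) :
    Dm k (a + b) x = Dm k a x + Dm k b x :=
  Df_add (ha.ofFn fun _ => hx) (hb.ofFn fun _ => hx)

theorem Dm_smul (c : ℂ) (ha : IsSm a) (hx : x ≠ 0) : Dm k (c • a) x = c • Dm k a x :=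
  Df_smul c (ha.ofFn fun _ => hx)

theorem Dm_sub (ha : IsSm a) (hb : IsSm b) (hx : x ≠ 0) :
    Dm k (a - b) x = Dm k a x - Dm k b x :=
  Df_sub (ha.ofFn fun _ => hx) (hb.ofFn fun _ => hx)

theorem Dm_of_isDeg {j : ℤ} (ha : IsDeg j a) (hj : j ≠ k) : Dm k a x = 0 := by
  have : (fun y : Fin (k + 1) → E N => a.1 (List.ofFn y)) = fun _ => 0 :=
    funext fun y => ha _ (by simp; omega)
  rw [Dm, this, Df_zero]

theorem Dm_zero : Dm 0 a x = a.1 [x] • (1 : Λ N) := by
  simp [Dm, Df]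

theorem sm_Dm (ha : IsSm a) (hx : x ≠ 0) : ContDiffAt ℝ ∞ (Dm k a) x :=
  sm_Df (ha.ofFn fun _ => hx)

theorem Dm_mem_Dg (ha : IsSm a) (hx : x ≠ 0) : Dm k a x ∈ Dg k :=
  Df_mem_Dg (ha.ofFn fun _ => hx)

theorem Dm_pb (ha : IsSm a) (hx : x ≠ 0) {r : E N → E N}
    (hr : ∀ᶠ z in 𝓝 x, ContDiffAt ℝ ∞ r z ∧ ∃ t : ℂ, t ≠ 0 ∧ r z = t • z) :
    Dm k a x = pb r (Dm k a) x := by
  obtain ⟨-, t, ht, h⟩ := hr.self_of_nhds
  rw [Dm, ← Df_pb (hr.mono fun _ h => h.1) (ha.ofFn_ev fun _ => h ▸ smul_ne_zero ht hx)]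
  refine Df_congr ?_
  filter_upwards [ne_zero_ev_pi (y := fun _ : Fin (k + 1) => x) fun _ => hx,
    eventually_all.2 fun i : Fin (k + 1) =>
      ((continuous_apply i).tendsto fun _ => x).eventually hr] with z h1 h2
  choose t ht e using fun i => (h2 i).2
  simp only [e]
  exact (ha.ofFn_smul h1 ht).symm

theorem ct_Dm (ha : IsSm a) (hx : x ≠ 0) (s : Bool) : ct (vec s x) (Dm k a x) = 0 := by
  rw [Dm_pb ha hx (r := cpr x) ((lf_ne_ev hx).mono fun z hz =>
    ⟨an_sm (an_cpr hz), _, inv_ne_zero hz, rfl⟩)]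
  exact ct_pb_cpr s _ (by rw [lf_self hx]; exact one_ne_zero)

theorem Dm_scal (ha : IsSm a) (hx : x ≠ 0) {t : ℂ} (ht : t ≠ 0) :
    Dm k a x = mp (tr (scal t)) (Dm k a (t • x)) := by
  rw [Dm_pb ha hx (r := scal t) (Eventually.of_forall fun z =>
    ⟨(scal t).contDiff.contDiffAt, t, ht, rfl⟩), pb, ContinuousLinearMap.fderiv, scal_apply]

theorem Dm_mem (ha : IsSm a) : (⟨Dm k a, fun _ hx => sm_Dm ha hx⟩ : SM N) ∈ Ak k := by
  refine ⟨fun p q => ?_, fun x hx => Dm_mem_Dg ha hx⟩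
  have h1 : ∀ s, ∀ x ≠ 0, ct (vec s x) (pt p q (Dm k a x)) = 0 := fun s x hx => by
    rw [← pt_ct, ct_Dm ha hx, map_zero]
  refine ⟨⟨fun x hx => ⟨pt_mem _ _ _, h1 _ x hx⟩, fun t x ht hx => ?_⟩, h1 _⟩
  have hc : conj t ≠ 0 := by simpa
  simp only [PT_apply]
  rw [Dm_scal ha hx ht, scal, pt_mp_tr, ← scal, mp_scal (pt_mem p q _), smul_smul, zero_sub,
    zpow_neg, zpow_neg, show (t ^ p)⁻¹ * (conj t ^ q)⁻¹ * (t ^ p * conj t ^ q) = 1 by
      field_simp, one_smul]

theorem eraseIdx_ofFn {α : Type} {m : ℕ} (y : Fin (m + 1) → α) (j : Fin (m + 1)) :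
    (List.ofFn y).eraseIdx j = List.ofFn fun i => y (j.succAbove i) := by
  refine List.ext_getElem (by simp [List.length_eraseIdx, j.2, -List.ofFn_succ]) fun i h1 h2 => ?_
  rw [List.getElem_eraseIdx]
  simp only [List.getElem_ofFn, Fin.succAbove, Fin.lt_def, Fin.val_castSucc]
  split_ifs <;> rfl

theorem Dm_delta (ha : IsSm a) (hx : x ≠ 0) : Dm (k + 1) (δ a) x = dd idE (Dm k a) x := by
  set g : (Fin (k + 1) → E N) → ℂ := fun y => a.1 (List.ofFn y)
  have hs : ContDiffAt ℝ ∞ (fun y => g y • (1 : Λ N)) fun _ => x := sm_one (ha.ofFn fun _ => hx)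
  have e : (fun y : Fin (k + 2) → E N => (δ a).1 (List.ofFn y) • (1 : Λ N)) = fun y =>
      ∑ j : Fin (k + 2), (-1 : ℂ) ^ (j : ℕ) • (g (rx j.succAbove y) • (1 : Λ N)) := by
    funext y
    rw [δ_val, cob, List.length_ofFn, Finset.sum_range, Finset.sum_smul]
    refine Finset.sum_congr rfl fun j _ => ?_
    rw [eraseIdx_ofFn, mul_smul]; rfl
  have hj : ∀ j : Fin (k + 2), ContDiffAt ℝ ∞ (fun y => g (rx j.succAbove y) • (1 : Λ N))
      fun _ => x := fun j => ContDiffAt.comp (g := fun y => g y • (1 : Λ N))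
        (f := rx j.succAbove) _ hs (rx _).contDiff.contDiffAt
  rw [Dm, Dm, dd_Df (ha.ofFn_ev fun _ => hx), Df, e, DL_sum _ fun j _ => (hj j).const_smul _,
    Fin.sum_univ_succ, Finset.sum_eq_zero fun j _ => ?_, add_zero, DL_csmul _ (hj 0),
    DL_comp (rx (Fin.succAbove 0)) (u := fun y => g y • (1 : Λ N)) (y := fun _ => x) hs,
    List.map_ofFn]
  · have : ((fun L => (rx (Fin.succAbove 0)).comp L) ∘ fun i : Fin (k + 1) => sl i.succ) =
        fun i => (sl i : E N →L[ℝ] _) := funext fun i => by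
      simpa using rx_sl (N := N) (Fin.succ_injective (k + 1)) i
    rw [this, List.ofFn_succ]
    simp only [Fin.val_zero, pow_zero, one_smul]
    rfl
  · rw [DL_csmul _ (hj _), DL_comp (rx j.succ.succAbove) (u := fun y => g y • (1 : Λ N))
      (y := fun _ => x) hs, DL_of_zero_mem, smul_zero]
    exact List.mem_map.2 ⟨_, List.mem_ofFn.2 ⟨j, rfl⟩, rx_sl_zero fun i => Fin.succAbove_ne _ i⟩

theorem Dm_mul (ha : IsSm a) (hb : IsSm b) (hk : IsDeg k a) (_hl : IsDeg l b) (hx : x ≠ 0) :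
    ∃ c : Λ N, Dm (k + l) (a * b) x = Dm k a x * Dm l b x + c * dd idE (Dm l b) x := by
  set A : (Fin (k + 1) → E N) → ℂ := fun y => a.1 (List.ofFn y)
  set B : (Fin (l + 1) → E N) → ℂ := fun y => b.1 (List.ofFn y)
  let i₁ : Fin (k + 1) → Fin (k + l + 1) := Fin.castLE (by omega)
  let i₂ : Fin (l + 1) → Fin (k + l + 1) := Fin.natAdd k
  have h₁ : Function.Injective i₁ := Fin.castLE_injective _
  have h₂ : Function.Injective i₂ := Fin.natAdd_injective _ _
  have e : (fun y : Fin (k + l + 1) → E N => (a * b).1 (List.ofFn y) • (1 : Λ N)) = fun y =>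
      A (rx i₁ y) • (B (rx i₂ y) • (1 : Λ N)) := by
    funext y
    rw [Coch.mul_val, cup, List.length_ofFn, Finset.sum_eq_single_of_mem k (by simp),
      mul_smul]
    · have e₁ : (List.ofFn y).take (k + 1) = List.ofFn (rx i₁ y) :=
        List.ext_getElem (by simp [-List.ofFn_succ]) fun i _ _ => by
          simp [i₁, -List.ofFn_succ]
      have e₂ : (List.ofFn y).drop k = List.ofFn (rx i₂ y) :=
        List.ext_getElem (by simp [-List.ofFn_succ]; omega) fun i _ _ => by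
          simp [i₂, Fin.natAdd, -List.ofFn_succ]
      rw [e₁, e₂]
    · intro p hp hpk
      rw [hk, zero_mul]
      have := Finset.mem_range.1 hp
      rw [List.length_take, List.length_ofFn]; omega
  have hne := ne_zero_ev_pi (y := fun _ : Fin (k + l + 1) => x) fun _ => hx
  have sA : ∀ z : Fin (k + l + 1) → E N, (∀ i, z i ≠ 0) → ContDiffAt ℝ ∞ A (rx i₁ z) :=
    fun z hz => ha.ofFn fun _ => hz _
  have sB : ∀ z : Fin (k + l + 1) → E N, (∀ i, z i ≠ 0) →
      ∀ᶠ w in 𝓝 (rx i₂ z), ContDiffAt ℝ ∞ B w := fun z hz => hb.ofFn_ev fun _ => hz _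
  let L₁ : List (E N →L[ℝ] (Fin (k + l + 1) → E N)) := List.ofFn fun i : Fin k => sl (i₁ i.succ)
  let L₂ : List (E N →L[ℝ] (Fin (k + l + 1) → E N)) := List.ofFn fun i : Fin l => sl (i₂ i.succ)
  have eL : (List.ofFn fun i : Fin (k + l) => sl i.succ) = L₁ ++ L₂ := List.ofFn_add
  have m₁ : (L₁.map fun L => (rx i₁).comp L) = sls N k := by
    rw [List.map_ofFn]; exact congrArg _ (funext fun i => rx_sl h₁ _)
  have m₂ : (L₂.map fun L => (rx i₂).comp L) = sls N l := by
    rw [List.map_ofFn]; exact congrArg _ (funext fun i => rx_sl h₂ _)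
  have e₂ : DL L₂ (fun y => A (rx i₁ y) • (B (rx i₂ y) • (1 : Λ N))) =ᶠ[𝓝 fun _ => x]
      fun y => (A (rx i₁ y) • (1 : Λ N)) * Do B (rx i₂ y) := by
    have hB := sm_one (N := N) (sB _ fun _ => hx).self_of_nhds
    have h0 : ∀ z : Fin (k + l + 1) → E N, (∀ i, z i ≠ 0) → ∀ L ∈ L₂,
        (fderiv ℝ (fun y => A (rx i₁ y)) z).comp L = 0 := fun z hz L hL => by
      obtain ⟨i, rfl⟩ := List.mem_ofFn.1 hL
      rw [fderiv_fun_comp z (sm_diff (sA z hz)) (rx i₁).differentiableAt, (rx i₁).fderiv,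
        ContinuousLinearMap.comp_assoc, rx_sl_zero, ContinuousLinearMap.comp_zero]
      intro j hj
      have := congrArg Fin.val hj
      simp [i₁, i₂] at this
      omega
    filter_upwards [DL_smul_left (Ls := L₂) (f := fun y => A (rx i₁ y)) (hne.mono fun z hz =>
      ⟨(sA z hz).comp z (rx i₁).contDiff.contDiffAt, h0 z hz⟩)
      (hB.comp _ (rx i₂).contDiff.contDiffAt), DL_comp' (Ls := L₂) (rx i₂) hB] with z h1 h2
    refine h1.trans ?_
    rw [m₂] at h2
    rw [smul_one_mul]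
    exact congrArg _ h2
  have dd₂ : ∀ (G : (Fin (l + 1) → E N) → Λ N) (z : Fin (k + l + 1) → E N) (i : Fin k),
      ContDiffAt ℝ ∞ G (rx i₂ z) → dd (sl (i₁ i.succ)) (fun y => G (rx i₂ y)) z =
        (if (i : ℕ) + 1 = k then (1 : ℂ) else 0) • dd (sl 0) G (rx i₂ z) := by
    intro G z i hG
    rw [dd_comp (sm_diff hG) (rx i₂).differentiableAt, (rx i₂).fderiv]
    split_ifs with h
    · rw [show i₁ i.succ = i₂ 0 from Fin.ext (by simp [i₁, i₂, h]), rx_sl h₂, one_smul]
    · rw [rx_sl_zero, dd_zero_dir, zero_smul]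
      intro j hj
      have := congrArg Fin.val hj
      simp [i₁, i₂] at this
      omega
  obtain ⟨c, hc⟩ := DL_mul_right (Ls := L₁) (y := fun _ => x)
    (u := fun y => A (rx i₁ y) • (1 : Λ N)) (v := fun y => Do B (rx i₂ y))
    (w := fun y => dd (sl 0) (Do B) (rx i₂ y)) (hne.mono fun z hz => by
      have hB := sm_Do (sB z hz).self_of_nhds
      refine ⟨sm_one ((sA z hz).comp z (rx i₁).contDiff.contDiffAt),
        hB.comp z (rx i₂).contDiff.contDiffAt, (sm_dd hB).comp z (rx i₂).contDiff.contDiffAt,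
        fun L hL => ?_⟩
      obtain ⟨i, rfl⟩ := List.mem_ofFn.1 hL
      rw [dd₂ _ z i (sm_dd hB), dd_dd_self hB, smul_zero]) fun L hL => by
      obtain ⟨i, rfl⟩ := List.mem_ofFn.1 hL
      exact ⟨_, hne.mono fun z hz => dd₂ _ z i (sm_Do (sB z hz).self_of_nhds)⟩
  refine ⟨c fun _ => x, ?_⟩
  rw [Dm, Df, e, eL, DL_append, DL_congr e₂, hc.self_of_nhds.2,
    DL_comp (rx i₁) (u := fun y => A y • (1 : Λ N)) (sm_one (sA _ fun _ => hx)), m₁, Dm, Dm,
    dd_Df (hb.ofFn_ev fun _ => hx)]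
  rfl

/-! ## The explicit formula and the type of a form -/

/-- The index set of a real basis of `ℂ^{N+1}`. -/
abbrev JR (N : ℕ) : Type := Fin (Module.finrank ℝ (E N))

/-- A real basis of `ℂ^{N+1}`. -/
noncomputable def eR (j : JR N) : E N := Module.finBasis ℝ (E N) j

/-- The dual basis. -/
noncomputable def eD (j : JR N) : W N :=
  Complex.ofRealCLM.comp (LinearMap.toContinuousLinearMap ((Module.finBasis ℝ (E N)).coord j))

theorem dd_eq_sum {Y : Type} [NormedAddCommGroup Y] [NormedSpace ℝ Y] (L : E N →L[ℝ] Y)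
    (u : Y → Λ N) (y : Y) : dd L u y = ∑ j, io (eD j) * fderiv ℝ u y (L (eR j)) := by
  have h : ∀ v, ((fderiv ℝ u y).comp L) v = ∑ j, eD j v • fderiv ℝ u y (L (eR j)) := fun v => by
    conv_lhs => rw [← (Module.finBasis ℝ (E N)).sum_repr v, map_sum]
    simp [eD, eR]
  rw [dd, db, db, al_of_eq true _ _ _ h, al_of_eq false _ _ _ h, ← Finset.sum_add_distrib]
  exact Finset.sum_congr rfl fun j _ => by rw [← add_mul, ← map_add, pr_add_pr]

theorem DL_eq' {Y : Type} [NormedAddCommGroup Y] [NormedSpace ℝ Y] {f : Y → ℂ} {y : Y}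
    (hf : ContDiffAt ℝ ∞ f y) {k : ℕ} (L : Fin k → E N →L[ℝ] Y) :
    DL (List.ofFn L) (fun z => f z • (1 : Λ N)) =ᶠ[𝓝 y] fun z => ∑ σ : Fin k → JR N,
      iteratedFDeriv ℝ k f z (fun i => L i (eR (σ i))) • wl (List.ofFn fun i => eD (σ i)) := by
  induction k with
  | zero => exact Eventually.of_forall fun z => by simp
  | succ k ih =>
    have hs : ContDiffAt ℝ ∞ (iteratedFDeriv ℝ k f) y :=
      hf.iteratedFDeriv_right (by exact_mod_cast le_top)
    filter_upwards [dd_congr' (L := L 0) (ih fun i => L i.succ), sm_ev hs] with z h1 h2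
    have h3 : ∀ m : Fin k → Y, DifferentiableAt ℝ (fun z => iteratedFDeriv ℝ k f z m) z :=
      fun m => h2.continuousMultilinear_apply_const m
    rw [List.ofFn_succ, DL_cons, h1, dd_eq_sum, fderiv_fun_sum fun σ _ => (h3 _).smul_const _,
      ← (Fin.consEquiv fun _ : Fin (k + 1) => JR N).sum_comp, Fintype.sum_prod_type]
    refine Finset.sum_congr rfl fun j _ => ?_
    rw [_root_.sum_apply, Finset.mul_sum]
    refine Finset.sum_congr rfl fun σ _ => ?_
    rw [fderiv_smul_const (h3 _), ContinuousLinearMap.smulRight_apply,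
      fderiv_continuousMultilinear_apply_const_apply h2, mul_smul_comm, List.ofFn_succ, wl_cons,
      iteratedFDeriv_succ_apply_left]
    rfl

theorem Df_eq (hf : ContDiffAt ℝ ∞ f fun _ => x) : Df f x = ∑ σ : Fin k → JR N,
    iteratedFDeriv ℝ k f (fun _ => x) (fun i => Pi.single i.succ (eR (σ i))) •
      wl (List.ofFn fun i => eD (σ i)) := (DL_eq' hf _).self_of_nhds

theorem mp_Df (hf : ContDiffAt ℝ ∞ f fun _ => x) (A : E N →L[ℝ] E N) :
    mp (tr A) (Df f x) = ∑ σ : Fin k → JR N,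
      iteratedFDeriv ℝ k f (fun _ => x) (fun i => Pi.single i.succ (A (eR (σ i)))) •
        wl (List.ofFn fun i => eD (σ i)) := by
  rw [Df, ← DL_mp A hf, List.map_ofFn]
  exact (DL_eq' hf _).self_of_nhds

theorem wl_perm (w : Fin k → W N) (π : Equiv.Perm (Fin k)) :
    wl (List.ofFn fun i => w (π i)) = ((Equiv.Perm.sign π : ℤ) : ℂ) • wl (List.ofFn w) := by
  have := (ExteriorAlgebra.ιMulti ℂ k).map_perm w π
  rw [ExteriorAlgebra.ιMulti_apply, ExteriorAlgebra.ιMulti_apply, Units.smul_def,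
    ← Int.cast_smul_eq_zsmul ℂ] at this
  rw [wl, wl, List.map_ofFn, List.map_ofFn]
  exact this

/-- The form is determined by the antisymmetrised derivative. -/
theorem mp_Df_form (hf : ContDiffAt ℝ ∞ f fun _ => x) (A : E N →L[ℝ] E N) :
    (k.factorial : ℂ) • mp (tr A) (Df f x) = ∑ σ : Fin k → JR N,
      form f x (fun i => A (eR (σ i))) • wl (List.ofFn fun i => eD (σ i)) := by
  simp only [form, Finset.sum_smul]
  rw [Finset.sum_comm, Finset.sum_congr rfl (g := fun _ => mp (tr A) (Df f x)) fun π _ => ?_]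
  · simp [Fintype.card_perm, Nat.cast_smul_eq_nsmul]
  · rw [mp_Df hf, ← (Equiv.arrowCongr π.symm (Equiv.refl (JR N))).sum_comp fun σ =>
      iteratedFDeriv ℝ k f (fun _ => x) (fun i => Pi.single i.succ (A (eR (σ i)))) •
        wl (List.ofFn fun i => eD (σ i))]
    refine Finset.sum_congr rfl fun σ _ => ?_
    simp only [Equiv.arrowCongr_apply, Equiv.symm_symm, Equiv.coe_refl, Function.comp_apply, id]
    rw [wl_perm (fun i => eD (σ i)) π, smul_smul, mul_comm]

theorem type_unique {p q p' q' : ℤ}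
    (h : ∀ t : ℂ, t ≠ 0 → t ^ p * conj t ^ q = t ^ p' * conj t ^ q') : p = p' ∧ q = q' := by
  have h1 : p + q = p' + q' := by
    have := h 2 two_ne_zero
    rw [map_ofNat, ← zpow_add₀ two_ne_zero, ← zpow_add₀ two_ne_zero] at this
    have h2 : (2 : ℝ) ^ (p + q) = 2 ^ (p' + q') := by simpa using congrArg norm this
    exact zpow_right_injective₀ (by norm_num) (by norm_num) h2
  have h2 : p - q = p' - q' := by
    by_contra hne
    have hD : ((p - q - (p' - q') : ℤ) : ℂ) ≠ 0 := by exact_mod_cast sub_ne_zero.2 hne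
    obtain ⟨θ, hθ⟩ : ∃ θ : ℝ, ((p - q - (p' - q') : ℤ) : ℂ) * θ = Real.pi :=
      ⟨Real.pi / (p - q - (p' - q') : ℤ), by push_cast at hD ⊢; field_simp⟩
    have := h (Complex.exp (θ * Complex.I)) (Complex.exp_ne_zero _)
    simp only [← Complex.exp_conj, ← Complex.exp_int_mul, ← Complex.exp_add, map_mul,
      Complex.conj_ofReal, Complex.conj_I] at this
    rw [Complex.exp_eq_exp_iff_exp_sub_eq_one, show (p : ℂ) * (θ * Complex.I) +
      q * (θ * -Complex.I) - (p' * (θ * Complex.I) + q' * (θ * -Complex.I)) =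
        Real.pi * Complex.I by rw [← hθ]; push_cast; ring, Complex.exp_pi_mul_I] at this
    norm_num at this
  omega

theorem mem_Ty_of_scal {p q : ℤ} {o : Λ N}
    (h : ∀ t : ℂ, t ≠ 0 → mp (tr (scal t)) o = (t ^ p * conj t ^ q) • o) : o ∈ Ty p q := by
  rw [← sum_pt o]
  refine Submodule.sum_mem _ fun p' _ => Submodule.sum_mem _ fun q' _ => ?_
  by_cases h0 : pt p' q' o = 0
  · rw [h0]; exact zero_mem _
  obtain ⟨rfl, rfl⟩ := type_unique (p := p') (q := q') (p' := p) (q' := q) fun t ht => by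
    have := congrArg (pt p' q') (h t ht)
    rw [scal, pt_mp_tr, ← scal, mp_scal (pt_mem _ _ _), map_smul] at this
    exact smul_left_injective ℂ h0 this
  exact pt_mem _ _ _

section type

variable {ι : Type} [Fintype ι] [DecidableEq ι] {F : ι → MP N} {d : ι → ℕ}

/-- A complex linear projector onto the tangent space of the cone. -/
theorem exists_prj (h : IsCI F d) (hx : x ∈ cone F) : ∃ P : E N →L[ℂ] E N,
    (∀ v, P v ∈ tang F x) ∧ (∀ v ∈ tang F x, P v = v) ∧
      ∀ o, mp (tr (P.restrictScalars ℝ)) o - o ∈ ann (pl (fullL F) x) := by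
  obtain ⟨ξ, hξ⟩ := h.dualFam
  have h1 : ∀ v ∈ tang F x, prj (fun j => ξ j x) (fun j => dEval (F j) x) v = v :=
    fun v hv => prj_of_zero (mem_tang.1 hv)
  refine ⟨_, fun v => mem_tang.2 fun j => J_prj (hξ.dual x hx) j v, h1,
    mp_sub_mem_ann fun w => ?_⟩
  have h2 : ∀ v ∈ tang F x, (tr ((prj (fun j => ξ j x) fun j => dEval (F j) x).restrictScalars ℝ)
    w - w) v = 0 := fun v hv => by simp [h1 v hv]
  rw [← pr_add_pr (_ - _), map_add]
  exact add_mem (io_pr_mem_ann h hx (mem_fullL _) h2) (io_pr_mem_ann h hx (mem_fullL _) h2)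

theorem Df_type' (h : IsCI F d) {p q : ℕ} {f : (Fin (p + q + 1) → E N) → ℂ} (hx : x ∈ cone F)
    (hf : ContDiffAt ℝ ∞ f fun _ => x)
    (ht : ∀ (t : ℂ) (v : Fin (p + q) → E N), (∀ i, v i ∈ tang F x) →
      form f x (t • v) = t ^ p * conj t ^ q * form f x v) :
    Df f x - pt p q (Df f x) ∈ ann (pl (fullL F) x) := by
  obtain ⟨P, h1, -, h2⟩ := exists_prj h hx
  have h3 : mp (tr (P.restrictScalars ℝ)) (Df f x) ∈ Ty p q := mem_Ty_of_scal fun t _ => by
    refine smul_right_injective _ (r := ((p + q).factorial : ℂ))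
      (by exact_mod_cast (p + q).factorial_ne_zero) ?_
    simp only
    rw [smul_comm, mp_mp, tr_comp, mp_Df_form hf, mp_Df_form hf, Finset.smul_sum]
    refine Finset.sum_congr rfl fun σ _ => ?_
    rw [smul_smul, zpow_natCast, zpow_natCast, ← ht t
      (fun i => P.restrictScalars ℝ (eR (σ i))) fun i => h1 _]
    congr 2
    funext i
    simp
  have := sub_mem (ann_pl_pt _ _ (h2 (Df f x)) p q) (h2 (Df f x))
  rwa [map_sub, pt_self h3, sub_sub_sub_cancel_left] at this

theorem Df_type (h : IsCI F d) {p q : ℕ} {f : (Fin (p + q + 1) → E N) → ℂ} (hx : x ∈ cone F)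
    (hf : ContDiff ℝ ∞ f)
    (ht : ∀ (t : ℂ) (v : Fin (p + q) → E N), (∀ i, v i ∈ tang F x) →
      form f x (t • v) = t ^ p * conj t ^ q * form f x v) :
    Df f x - pt p q (Df f x) ∈ ann (pl (fullL F) x) := Df_type' h hx hf.contDiffAt ht

end type

end Vale.Agent.P269.Hdg
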