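import Vale.Agent.P269.Hdg.DeRham

/-!
# Smooth Alexander-Spanier cochains on projective space and their differential forms: definitions
-/

namespace Vale.Agent.P269.Hdg

open scoped ComplexConjugate ContDiff
open Topology Filter P291Z

variable {N : ℕ}

/-- A cochain on `ℂ^{N+1}` is smooth in nonzero arguments and invariant under rescaling each
argument: a smooth cochain on projective space. -/
structure IsSm (a : Coch (E N)) : Prop where
  sm : ∀ (m : ℕ) (l : List (Fin m)) (y : Fin m → E N), (∀ i, y i ≠ 0) →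
    ContDiffAt ℝ ∞ (fun y : Fin m → E N => a.1 (l.map y)) y
  inv : ∀ l l' : List (E N), List.Forall₂ (fun x y => x ≠ 0 ∧ ∃ t : ℂ, t ≠ 0 ∧ y = t • x) l l' →
    a.1 l = a.1 l'

/-- Iterated exterior derivatives in a list of directions. -/
noncomputable def DL {Y : Type} [NormedAddCommGroup Y] [NormedSpace ℝ Y]
    (Ls : List (E N →L[ℝ] Y)) (u : Y → Λ N) : Y → Λ N := Ls.foldr (fun L w => dd L w) u

/-- The inclusion of the `i`-th factor. -/
noncomputable def sl {m : ℕ} (i : Fin m) : E N →L[ℝ] (Fin m → E N) :=
  ContinuousLinearMap.single ℝ (fun _ : Fin m => E N) i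

/-- The `k`-form of a function of `k + 1` points. -/
noncomputable def Df {k : ℕ} (f : (Fin (k + 1) → E N) → ℂ) (x : E N) : Λ N :=
  DL (List.ofFn fun i : Fin k => sl i.succ) (fun y => f y • (1 : Λ N)) fun _ => x

/-- The `k`-form of a cochain. -/
noncomputable def Dm (k : ℕ) (a : Coch (E N)) : E N → Λ N :=
  Df fun y : Fin (k + 1) → E N => a.1 (List.ofFn y)

end Vale.Agent.P269.Hdg
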