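import Vale.Agent.P269.Hdg.Alg

/-!
# Types `(p, q)` in the exterior algebra, and annihilators of decomposable forms
-/

namespace Vale.Agent.P269.Hdg

open scoped ComplexConjugate
open Complex (I)

variable {N : ℕ}

/-- The number operators. -/
noncomputable def num (s : Bool) : Λ N →ₗ[ℂ] Λ N :=
  ∑ j, LinearMap.mulLeft ℂ (io (dz s j)) ∘ₗ ct (vec s (ee j))

theorem num_apply (s : Bool) (a : Λ N) : num s a = ∑ j, io (dz s j) * ct (vec s (ee j)) a := by
  simp [num]

theorem num_one (s : Bool) : num s (1 : Λ N) = 0 := by simp [num_apply, ct_one]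

theorem num_io_mul (s : Bool) (w : W N) (a : Λ N) :
    num s (io w * a) = io (pr s w) * a + io w * num s a := by
  rw [num_apply, num_apply, pr_eq, map_sum, Finset.sum_mul, Finset.mul_sum, ← Finset.sum_add_distrib]
  refine Finset.sum_congr rfl fun j _ => ?_
  rw [ct_io_mul, mul_sub, io_io_swap, map_smul, mul_smul_comm, smul_mul_assoc, sub_neg_eq_add]

theorem num_io (s : Bool) (w : W N) : num s (io w) = io (pr s w) := by
  have := num_io_mul s w 1
  simpa [num_one] using this

theorem num_mul (s : Bool) (a b : Λ N) : num s (a * b) = num s a * b + a * num s b := by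
  induction a using ind with
  | one => simp [num_one]
  | smul c a h => simp [h]
  | add a a' ha hb => simp only [add_mul, map_add, ha, hb]; abel
  | mul v a h =>
    rw [mul_assoc, num_io_mul, h, num_io_mul]
    simp only [mul_add, add_mul, mul_assoc]; abel

theorem num_ct (s : Bool) (f : Module.Dual ℂ (W N)) (a : Λ N) :
    num s (ct f a) = ct f (num s a) - ct (f ∘ₗ pr s) a := by
  induction a using ind with
  | one => simp [num_one, ct_one]
  | smul c a h => simp [h, smul_sub]
  | add a a' ha hb => simp only [map_add, ha, hb]; abel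
  | mul v a h =>
    simp only [ct_io_mul, map_sub, map_smul, num_io_mul, h, map_add, LinearMap.comp_apply, mul_sub]
    abel

theorem num_mp {s s' : Bool} {A : W N →ₗ[ℂ] W N} (h : ∀ w, pr s (A w) = A (pr s' w)) (a : Λ N) :
    num s (mp A a) = mp A (num s' a) := by
  induction a using ind with
  | one => simp [num_one]
  | smul c a h => simp [h]
  | add a a' ha hb => simp only [map_add, ha, hb]
  | mul v a ih => simp only [map_mul, mp_io, num_io_mul, ih, h, map_add]

/-- Eigenspaces of the number operators. -/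
def Eg (s : Bool) (r : ℤ) : Submodule ℂ (Λ N) where
  carrier := {a | num s a = (r : ℂ) • a}
  zero_mem' := by simp
  add_mem' := by
    intro a b ha hb
    simp only [Set.mem_ofPred_eq] at ha hb ⊢
    rw [map_add, ha, hb, smul_add]
  smul_mem' := by
    intro c a ha
    simp only [Set.mem_ofPred_eq] at ha ⊢
    rw [map_smul, ha, smul_comm]

theorem mem_Eg {s : Bool} {r : ℤ} {a : Λ N} : a ∈ Eg s r ↔ num s a = (r : ℂ) • a := Iff.rfl

/-- Forms of type `(p, q)`. -/
noncomputable def Ty (p q : ℤ) : Submodule ℂ (Λ N) := Eg true p ⊓ Eg false q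

theorem mem_Ty {p q : ℤ} {a : Λ N} : a ∈ Ty p q ↔ a ∈ Eg true p ∧ a ∈ Eg false q := Iff.rfl

theorem Eg_mul {s : Bool} {r r' : ℤ} {a b : Λ N} (ha : a ∈ Eg s r) (hb : b ∈ Eg s r') :
    a * b ∈ Eg s (r + r') := by
  rw [mem_Eg] at *
  rw [num_mul, ha, hb]; simp [add_smul]

theorem Ty_mul {p q p' q' : ℤ} {a b : Λ N} (ha : a ∈ Ty p q) (hb : b ∈ Ty p' q') :
    a * b ∈ Ty (p + p') (q + q') := ⟨Eg_mul ha.1 hb.1, Eg_mul ha.2 hb.2⟩

theorem one_mem_Eg (s : Bool) : (1 : Λ N) ∈ Eg s 0 := by simp [mem_Eg, num_one]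

theorem one_mem_Ty : (1 : Λ N) ∈ Ty 0 0 := ⟨one_mem_Eg _, one_mem_Eg _⟩

/-- The indicator of `s = s'`. -/
def dl (s s' : Bool) : ℤ := if s = s' then 1 else 0

@[simp] theorem dl_self (s : Bool) : dl s s = 1 := by simp [dl]
@[simp] theorem dl_tf : dl true false = 0 := rfl
@[simp] theorem dl_ft : dl false true = 0 := rfl

theorem io_pr_mem (s s' : Bool) (w : W N) : io (pr s' w) ∈ Eg s (dl s s') := by
  rw [mem_Eg, num_io, pr_pr]; unfold dl; split_ifs with h
  · subst h; simp
  · simp

theorem io_cv_mem (s s' : Bool) (l : E N →L[ℂ] ℂ) : io (cv s' l) ∈ Eg s (dl s s') := by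
  have := io_pr_mem s s' (cv s' l)
  rwa [pr_cv, if_pos rfl] at this

theorem io_pr_mem_Ty (s : Bool) (w : W N) : io (pr s w) ∈ Ty (dl true s) (dl false s) :=
  ⟨io_pr_mem _ _ _, io_pr_mem _ _ _⟩

theorem io_cv_mem_Ty (s : Bool) (l : E N →L[ℂ] ℂ) : io (cv s l) ∈ Ty (dl true s) (dl false s) :=
  ⟨io_cv_mem _ _ _, io_cv_mem _ _ _⟩

theorem ct_mem {s : Bool} {r : ℤ} {a : Λ N} (ha : a ∈ Eg s r) (s' : Bool) (v : E N) :
    ct (vec s' v) a ∈ Eg s (r - dl s s') := by
  rw [mem_Eg] at *
  rw [num_ct, ha, vec_comp_pr]; unfold dl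
  by_cases h : s = s'
  · subst h; simp [sub_smul]
  · simp [h, Ne.symm h]

theorem ct_mem_Ty {p q : ℤ} {a : Λ N} (ha : a ∈ Ty p q) (s : Bool) (v : E N) :
    ct (vec s v) a ∈ Ty (p - dl true s) (q - dl false s) := ⟨ct_mem ha.1 _ _, ct_mem ha.2 _ _⟩

theorem mp_mem {s s' : Bool} {A : W N →ₗ[ℂ] W N} (h : ∀ w, pr s (A w) = A (pr s' w)) {r : ℤ}
    {a : Λ N} (ha : a ∈ Eg s' r) : mp A a ∈ Eg s r := by
  rw [mem_Eg] at *
  rw [num_mp h, ha, map_smul]

theorem mp_tr_mem {p q : ℤ} (L : E N →L[ℂ] E N) {a : Λ N} (ha : a ∈ Ty p q) :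
    mp (tr (L.restrictScalars ℝ)) a ∈ Ty p q :=
  ⟨mp_mem (pr_tr _ L) ha.1, mp_mem (pr_tr _ L) ha.2⟩

theorem Eg_neg {s : Bool} {r : ℤ} (hr : r < 0) {a : Λ N} (ha : a ∈ Eg s r) : a = 0 := by
  have key : ∀ (n : ℕ) (U : Finset (Fin (N + 1))), U.card = n → ∀ (r : ℤ) (a : Λ N), r < 0 →
      a ∈ Eg s r → (∀ j, j ∉ U → ct (vec s (ee j)) a = 0) → a = 0 := by
    intro n
    induction n using Nat.strong_induction_on with
    | _ n ih =>
      intro U hU r a hr ha h0
      have hall : ∀ j, ct (vec s (ee j)) a = 0 := by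
        intro j
        by_cases hj : j ∈ U
        · refine ih _ (by rw [← hU]; exact Finset.card_erase_lt_of_mem hj) (U.erase j) rfl
            (r - dl s s) _ (by simp; omega) (ct_mem ha s _) fun i hi => ?_
          by_cases hij : i = j
          · subst hij; exact ct_ct _ _
          · rw [ct_comm, h0 i (by simpa [hij] using hi)]; simp
        · exact h0 j hj
      rw [mem_Eg, num_apply] at ha
      simp only [hall, mul_zero, Finset.sum_const_zero] at ha
      exact (smul_eq_zero.1 ha.symm).resolve_left (by exact_mod_cast hr.ne)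
  exact key _ Finset.univ rfl r a hr ha (by simp)

theorem Eg_big {s : Bool} {r : ℤ} (hr : (N : ℤ) + 1 < r) {a : Λ N} (ha : a ∈ Eg s r) : a = 0 := by
  have key : ∀ (n : ℕ) (U : Finset (Fin (N + 1))), U.card = n → ∀ (r : ℤ) (a : Λ N),
      (N : ℤ) + 1 < r → a ∈ Eg s r → (∀ j, j ∉ U → io (dz s j) * a = 0) → a = 0 := by
    intro n
    induction n using Nat.strong_induction_on with
    | _ n ih =>
      intro U hU r a hr ha h0
      have hall : ∀ j, io (dz s j) * a = 0 := by
        intro j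
        by_cases hj : j ∈ U
        · refine ih _ (by rw [← hU]; exact Finset.card_erase_lt_of_mem hj) (U.erase j) rfl
            (dl s s + r) _ (by simp; omega) (Eg_mul (io_cv_mem s s _) ha) fun i hi => ?_
          by_cases hij : i = j
          · subst hij; exact io_io _ _
          · rw [io_io_swap, h0 i (by simpa [hij] using hi)]; simp
        · exact h0 j hj
      have h2 : ∀ j, io (dz s j) * ct (vec s (ee j)) a = a := by
        intro j
        have := ct_io_mul (vec s (ee j)) (dz s j) a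
        rw [hall, map_zero, vec_ee_dz] at this
        simp only [and_self, if_true, one_smul] at this
        exact (sub_eq_zero.1 this.symm).symm
      rw [mem_Eg, num_apply] at ha
      simp only [h2, Finset.sum_const, Finset.card_univ, Fintype.card_fin] at ha
      rw [← Nat.cast_smul_eq_nsmul ℂ, ← sub_eq_zero, ← sub_smul] at ha
      refine (smul_eq_zero.1 ha).resolve_left ?_
      rw [sub_eq_zero]
      intro h
      have : ((N + 1 : ℕ) : ℤ) = r := by exact_mod_cast h
      omega
  exact key _ Finset.univ rfl r a hr ha (by simp)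

theorem ct_of_Eg_zero {s : Bool} {a : Λ N} (ha : a ∈ Eg s 0) (v : E N) : ct (vec s v) a = 0 :=
  Eg_neg (by simp) (ct_mem ha s v)

/-- Elements of type `(0, 0)` are scalars. -/
theorem ct_of_Ty_zero {a : Λ N} (ha : a ∈ Ty 0 0) (f : Module.Dual ℂ (W N)) : ct f a = 0 := by
  have : f = ∑ j, f (dz true j) • vec true (ee j) + ∑ j, f (dz false j) • vec false (ee j) := by
    ext w
    conv_lhs => rw [← pr_add_pr w, pr_eq, pr_eq]
    simp [mul_comm]
  rw [this]
  simp [ct_of_Eg_zero ha.1, ct_of_Eg_zero ha.2]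

/-- Separate scaling of the linear and antilinear parts. -/
noncomputable def sc (u v : ℂ) : W N →ₗ[ℂ] W N := u • pr true + v • pr false

theorem sc_pr (u v : ℂ) (s : Bool) (w : W N) : sc u v (pr s w) = (if s then u else v) • pr s w := by
  cases s <;> simp [sc, pr_pr]

theorem both_ind (K : Submodule ℂ (Λ N)) (h : ∀ (p q : ℕ) (a : Λ N), a ∈ Ty p q →
    (∀ u v : ℂ, mp (sc u v) a = (u ^ p * v ^ q) • a) → a ∈ K) (a : Λ N) : a ∈ K := by
  let S : Set (Λ N) := {a | ∃ p q : ℕ, a ∈ Ty p q ∧ ∀ u v : ℂ, mp (sc u v) a = (u ^ p * v ^ q) • a}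
  have h1 : Submodule.span ℂ S ≤ K :=
    Submodule.span_le.2 (by rintro a ⟨p, q, h1, h2⟩; exact h p q a h1 h2)
  refine h1 ?_
  induction a using ind with
  | one => exact Submodule.subset_span ⟨0, 0, one_mem_Ty, by simp⟩
  | smul c a h => exact Submodule.smul_mem _ _ h
  | add a a' ha hb => exact Submodule.add_mem _ ha hb
  | mul w a ih =>
    induction ih using Submodule.span_induction with
    | zero => simp
    | add a b _ _ ha hb => rw [mul_add]; exact Submodule.add_mem _ ha hb
    | smul c a _ ha => rw [mul_smul_comm]; exact Submodule.smul_mem _ _ ha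
    | mem a ha =>
      obtain ⟨p, q, h1, h2⟩ := ha
      rw [← pr_add_pr w, map_add, add_mul]
      refine Submodule.add_mem _ (Submodule.subset_span ⟨p + 1, q, ?_, fun u v => ?_⟩)
        (Submodule.subset_span ⟨p, q + 1, ?_, fun u v => ?_⟩)
      · simpa [add_comm] using Ty_mul (io_pr_mem_Ty true w) h1
      · rw [map_mul, mp_io, sc_pr, h2]; simp [smul_smul]; ring_nf
      · simpa [add_comm] using Ty_mul (io_pr_mem_Ty false w) h1
      · rw [map_mul, mp_io, sc_pr, h2]; simp [smul_smul]; ring_nf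

theorem ty_ext {M : Type} [AddCommGroup M] [Module ℂ M] (f g : Λ N →ₗ[ℂ] M)
    (h : ∀ (p q : ℤ) (a : Λ N), a ∈ Ty p q → f a = g a) (a : Λ N) : f a = g a :=
  both_ind (LinearMap.eqLocus f g) (fun p q a ha _ => h p q a ha) a

/-- Projection to an eigenspace of a number operator. -/
noncomputable def pj (s : Bool) (r : ℤ) : Λ N →ₗ[ℂ] Λ N :=
  if r ∈ Finset.Icc (0 : ℤ) (N + 1) then
    Polynomial.aeval (num s : Module.End ℂ (Λ N))
      (Lagrange.basis (Finset.Icc (0 : ℤ) (N + 1)) (fun i => (i : ℂ)) r)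
  else 0

theorem aeval_of_mem {s : Bool} {r : ℤ} {a : Λ N} (ha : a ∈ Eg s r) (f : Polynomial ℂ) :
    Polynomial.aeval (num s : Module.End ℂ (Λ N)) f a = f.eval (r : ℂ) • a := by
  by_cases h0 : a = 0
  · simp [h0]
  · exact Module.End.aeval_apply_of_hasEigenvector
      ⟨Module.End.mem_eigenspace_iff.2 ha, h0⟩

theorem pj_of_mem {s : Bool} {r' : ℤ} {a : Λ N} (ha : a ∈ Eg s r') (r : ℤ) :
    pj s r a = if r = r' then a else 0 := by
  by_cases h' : r' ∈ Finset.Icc (0 : ℤ) (N + 1)
  · unfold pj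
    by_cases h : r ∈ Finset.Icc (0 : ℤ) (N + 1)
    · rw [if_pos h, aeval_of_mem ha]
      split_ifs with e
      · subst e
        rw [Lagrange.eval_basis_self (fun a _ b _ h => by exact_mod_cast h) h, one_smul]
      · rw [Lagrange.eval_basis_of_ne e h', zero_smul]
    · rw [if_neg h, if_neg (by rintro rfl; exact h h')]; rfl
  · have : a = 0 := by
      rw [Finset.mem_Icc, not_and_or] at h'
      rcases h' with h' | h'
      · exact Eg_neg (by omega) ha
      · exact Eg_big (by omega) ha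
    simp [this]

/-- Projection to type `(p, q)`. -/
noncomputable def pt (p q : ℤ) : Λ N →ₗ[ℂ] Λ N := pj true p ∘ₗ pj false q

theorem pt_of_mem {p' q' : ℤ} {a : Λ N} (ha : a ∈ Ty p' q') (p q : ℤ) :
    pt p q a = if p = p' ∧ q = q' then a else 0 := by
  rw [pt, LinearMap.comp_apply, pj_of_mem ha.2]
  by_cases h : q = q'
  · simp [h, pj_of_mem ha.1]
  · simp [h]

theorem pt_self {p q : ℤ} {a : Λ N} (ha : a ∈ Ty p q) : pt p q a = a := by
  rw [pt_of_mem ha]; simp

theorem pt_mem (p q : ℤ) (a : Λ N) : pt p q a ∈ Ty p q := by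
  refine both_ind ((Ty p q).comap (pt p q)) (fun p' q' a ha _ => ?_) a
  rw [Submodule.mem_comap, pt_of_mem ha]
  split_ifs with h
  · rw [h.1, h.2]; exact ha
  · exact zero_mem _

theorem mp_sc {p q : ℕ} {a : Λ N} (ha : a ∈ Ty p q) (u v : ℂ) :
    mp (sc u v) a = (u ^ p * v ^ q) • a := by
  have := both_ind (LinearMap.eqLocus ((mp (sc u v)).toLinearMap ∘ₗ pt p q)
    ((u ^ p * v ^ q) • pt p q)) (fun p' q' a ha h => by
      simp only [LinearMap.mem_eqLocus, LinearMap.comp_apply, LinearMap.smul_apply, pt_of_mem ha]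
      split_ifs with e
      · obtain ⟨e1, e2⟩ := e
        have e1 : p = p' := by exact_mod_cast e1
        have e2 : q = q' := by exact_mod_cast e2
        subst e1 e2; exact h u v
      · simp) a
  simpa [LinearMap.mem_eqLocus, pt_self ha] using this

theorem mp_sc' {p q : ℤ} {a : Λ N} (ha : a ∈ Ty p q) (u v : ℂ) :
    mp (sc u v) a = (u ^ p * v ^ q) • a := by
  by_cases hp : p < 0
  · simp [Eg_neg hp ha.1]
  by_cases hq : q < 0
  · simp [Eg_neg hq ha.2]
  lift p to ℕ using by omega
  lift q to ℕ using by omega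
  simpa using mp_sc ha u v

theorem par_of_mem {p q : ℤ} {a : Λ N} (ha : a ∈ Ty p q) : par a = ((-1 : ℂ) ^ (p + q)) • a := by
  have : (sc (-1) (-1) : W N →ₗ[ℂ] W N) = -LinearMap.id := by
    ext1 w; simp only [sc, LinearMap.add_apply, LinearMap.smul_apply, neg_smul, one_smul,
      LinearMap.neg_apply, LinearMap.id_apply]
    rw [← neg_add, pr_add_pr]
  rw [par, ← this, mp_sc' ha, zpow_add₀ (by norm_num)]

/-- Multiplication by a complex number as a real linear map. -/
noncomputable def scal (t : ℂ) : E N →L[ℝ] E N :=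
  (t • ContinuousLinearMap.id ℂ (E N)).restrictScalars ℝ

@[simp] theorem scal_apply (t : ℂ) (v : E N) : scal t v = t • v := rfl

theorem tr_scal (t : ℂ) : tr (scal t : E N →L[ℝ] E N) = sc t (conj t) := by
  ext w v
  simp only [tr_apply, scal_apply, sc, LinearMap.add_apply, LinearMap.smul_apply,
    _root_.add_apply, _root_.smul_apply, pr_apply]
  rw [← vec_add_vec, vec_smul, vec_smul]; simp

theorem mp_scal {p q : ℤ} {a : Λ N} (ha : a ∈ Ty p q) (t : ℂ) :
    mp (tr (scal t)) a = (t ^ p * conj t ^ q) • a := by rw [tr_scal, mp_sc' ha]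

/-- The range of possible types. -/
noncomputable def rng (N : ℕ) : Finset ℤ := Finset.Icc 0 (N + 1)

theorem sum_pt (a : Λ N) : ∑ p ∈ rng N, ∑ q ∈ rng N, pt p q a = a := by
  have := ty_ext (∑ p ∈ rng N, ∑ q ∈ rng N, pt p q) LinearMap.id (fun p' q' a ha => by
    simp only [LinearMap.coe_sum, Finset.sum_apply, pt_of_mem ha, LinearMap.id_apply]
    by_cases h : p' ∈ rng N ∧ q' ∈ rng N
    · rw [Finset.sum_eq_single_of_mem p' h.1, Finset.sum_eq_single_of_mem q' h.2]
      · simp
      · intro b _ hb; simp [hb]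
      · intro b _ hb; simp [hb]
    · have : a = 0 := by
        simp only [rng, Finset.mem_Icc] at h
        by_cases h1 : p' < 0
        · exact Eg_neg h1 ha.1
        by_cases h2 : q' < 0
        · exact Eg_neg h2 ha.2
        by_cases h3 : (N : ℤ) + 1 < p'
        · exact Eg_big h3 ha.1
        exact Eg_big (by omega) ha.2
      simp [this]) a
  simpa using this

theorem pt_mul_left {p' q' : ℤ} {b : Λ N} (hb : b ∈ Ty p' q') (p q : ℤ) (a : Λ N) :
    pt (p' + p) (q' + q) (b * a) = b * pt p q a := by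
  refine ty_ext (pt (p' + p) (q' + q) ∘ₗ LinearMap.mulLeft ℂ b) (LinearMap.mulLeft ℂ b ∘ₗ pt p q)
    (fun p'' q'' a ha => ?_) a
  simp only [LinearMap.comp_apply, LinearMap.mulLeft_apply, pt_of_mem ha,
    pt_of_mem (Ty_mul hb ha), add_right_inj]
  split_ifs <;> simp

theorem pt_ct (s : Bool) (v : E N) (p q : ℤ) (a : Λ N) :
    pt (p - dl true s) (q - dl false s) (ct (vec s v) a) = ct (vec s v) (pt p q a) := by
  refine ty_ext (pt _ _ ∘ₗ ct (vec s v)) (ct (vec s v) ∘ₗ pt p q) (fun p'' q'' a ha => ?_) a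
  simp only [LinearMap.comp_apply, pt_of_mem ha, pt_of_mem (ct_mem_Ty ha s v), sub_left_inj]
  split_ifs <;> simp

/-! ## Decomposable forms -/

/-- The product of a list of one-forms. -/
noncomputable def wl (L : List (W N)) : Λ N := (L.map io).prod

@[simp] theorem wl_nil : wl ([] : List (W N)) = 1 := rfl

theorem wl_cons (w : W N) (L : List (W N)) : wl (w :: L) = io w * wl L := by simp [wl]

theorem wl_append (L M : List (W N)) : wl (L ++ M) = wl L * wl M := by simp [wl]

theorem par_wl (L : List (W N)) : par (wl L) = ((-1 : ℂ) ^ L.length) • wl L := by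
  induction L with
  | nil => simp
  | cons w L ih => rw [wl_cons, map_mul, ih, par_io]; simp [pow_succ]

theorem io_wl (w : W N) (L : List (W N)) (a : Λ N) :
    io w * (wl L * a) = ((-1 : ℂ) ^ L.length) • (wl L * (io w * a)) := by
  rw [← mul_assoc, io_mul_eq, par_wl, smul_mul_assoc, smul_mul_assoc, mul_assoc]

theorem wl_io (w : W N) (L : List (W N)) (a : Λ N) :
    wl L * (io w * a) = ((-1 : ℂ) ^ L.length) • (io w * (wl L * a)) := by
  rw [io_wl, smul_smul, ← mul_pow]; simp

theorem io_wl_of_mem {w : W N} {L : List (W N)} (h : w ∈ L) : io w * wl L = 0 := by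
  induction L with
  | nil => simp at h
  | cons v L ih =>
    rw [wl_cons]
    rcases List.mem_cons.1 h with rfl | h
    · exact io_io _ _
    · rw [io_io_swap, ih h]; simp

/-- The annihilator of a decomposable form. -/
noncomputable def ann (L : List (W N)) : Submodule ℂ (Λ N) := LinearMap.ker (LinearMap.mulLeft ℂ (wl L))

theorem mem_ann {L : List (W N)} {a : Λ N} : a ∈ ann L ↔ wl L * a = 0 := Iff.rfl

theorem ann_nil {a : Λ N} : a ∈ ann [] ↔ a = 0 := by simp [mem_ann]

theorem ann_mul_right {L : List (W N)} {a : Λ N} (ha : a ∈ ann L) (b : Λ N) : a * b ∈ ann L := by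
  rw [mem_ann] at *; rw [← mul_assoc, ha, zero_mul]

theorem ann_mul_left {L : List (W N)} {a : Λ N} (ha : a ∈ ann L) (b : Λ N) : b * a ∈ ann L := by
  induction b using ind with
  | one => simpa
  | smul c b h => rw [smul_mul_assoc]; exact Submodule.smul_mem _ _ h
  | add b b' h h' => rw [add_mul]; exact Submodule.add_mem _ h h'
  | mul w b h => rw [mem_ann] at *; rw [mul_assoc, wl_io, h]; simp

theorem io_mem_ann {w : W N} {L : List (W N)} (h : w ∈ L) : io w ∈ ann L := by
  have := wl_io w L 1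
  rw [mem_ann]; simpa [io_wl_of_mem h] using this

theorem ann_cons {w : W N} {L : List (W N)} {a : Λ N} : a ∈ ann (w :: L) ↔ io w * a ∈ ann L := by
  rw [mem_ann, mem_ann, wl_cons, mul_assoc, wl_io, smul_eq_zero]
  simp

theorem ann_le_cons (w : W N) (L : List (W N)) : ann L ≤ ann (w :: L) := fun _ ha =>
  ann_cons.2 (ann_mul_left ha _)

theorem ct_wl {f : Module.Dual ℂ (W N)} {L : List (W N)} (h : ∀ w ∈ L, f w = 0) :
    ct f (wl L) = 0 := by
  induction L with
  | nil => exact ct_one f
  | cons v L ih =>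
    rw [wl_cons, ct_io_mul, h v (by simp), ih fun w hw => h w (by simp [hw])]; simp

theorem ann_ct {f : Module.Dual ℂ (W N)} {L : List (W N)} (h : ∀ w ∈ L, f w = 0) {a : Λ N}
    (ha : a ∈ ann L) : ct f a ∈ ann L := by
  rw [mem_ann] at *
  have := ct_mul f (wl L) a
  rw [ha, map_zero, ct_wl h, zero_mul, zero_add, par_wl, smul_mul_assoc] at this
  exact (smul_eq_zero.1 this.symm).resolve_left (by simp)

theorem ann_sub {f : Module.Dual ℂ (W N)} {w : W N} {L : List (W N)} (h1 : f w = 1)
    (h : ∀ w ∈ L, f w = 0) {a : Λ N} (ha : a ∈ ann (w :: L)) : a - io w * ct f a ∈ ann L := by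
  have := ann_ct h (ann_cons.1 ha)
  rwa [ct_io_mul, h1, one_smul] at this

theorem ann_pt {L : List (W N)} {p' q' : ℤ} (hL : wl L ∈ Ty p' q') {a : Λ N} (ha : a ∈ ann L)
    (p q : ℤ) : pt p q a ∈ ann L := by
  rw [mem_ann] at *
  rw [← pt_mul_left hL, ha, map_zero]

/-- The list is linearly independent, in a recursive form. -/
def HasDual : List (W N) → Prop
  | [] => True
  | w :: L => (∃ f : Module.Dual ℂ (W N), f w = 1 ∧ ∀ v ∈ L, f v = 0) ∧ HasDual L

theorem mp_of_ann {L : List (W N)} (hL : HasDual L) {A : W N →ₗ[ℂ] W N} (hA : ∀ w ∈ L, A w = 0)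
    {a : Λ N} (ha : a ∈ ann L) : mp A a = 0 := by
  induction L generalizing a with
  | nil => simp [ann_nil.1 ha]
  | cons w L ih =>
    obtain ⟨⟨f, h1, h2⟩, hL⟩ := hL
    have := ih hL (fun v hv => hA v (by simp [hv])) (ann_sub h1 h2 ha)
    rwa [map_sub, map_mul, mp_io, hA w (by simp), map_zero, zero_mul, sub_zero] at this

theorem wl_ne_zero {L : List (W N)} (hL : HasDual L) : wl L ≠ 0 := by
  intro h
  have h1 : (1 : Λ N) ∈ ann L := by rw [mem_ann, h, zero_mul]
  have := mp_of_ann hL (A := 0) (by simp) h1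
  rw [map_one] at this
  exact one_ne_zero (α := ExteriorAlgebra ℂ (W N)) this

theorem mp_sub_mem_ann {L : List (W N)} {A : W N →ₗ[ℂ] W N} (hA : ∀ w, io (A w - w) ∈ ann L)
    (a : Λ N) : mp A a - a ∈ ann L := by
  induction a using ind with
  | one => simp
  | smul c b h => rw [map_smul, ← smul_sub]; exact Submodule.smul_mem _ _ h
  | add b b' h h' => rw [map_add, add_sub_add_comm]; exact Submodule.add_mem _ h h'
  | mul w b h =>
    have : mp A (io w * b) - io w * b = io (A w - w) * mp A b + io w * (mp A b - b) := by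
      rw [map_mul, mp_io, map_sub]; noncomm_ring
    rw [this]
    exact Submodule.add_mem _ (ann_mul_right (hA w) _) (ann_mul_left h _)

end Vale.Agent.P269.Hdg
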